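import Crest.Agent.R6.RedP

/-! # Task 6-CARTIER -/

set_option autoImplicit false

open Finset Polynomial

namespace Crest.Agent.R6

open RedP

namespace CartierAux

variable {p : ℕ} [hp : Fact p.Prime] {m : ℕ}

theorem mt_odd (l : ℕ) : mt (2 * l + 1) = 2 / ((2 * l + 1 : ℚ) * Bk l) := by
  rw [mt, if_pos (by omega), show (2 * l + 1) / 2 = l by omega]; push_cast; rfl

theorem mt_even (l : ℕ) : mt (2 * l) = 0 := by rw [mt, if_neg (by omega)]

theorem red_odd (l : ℕ) : Red p (2 * l + 1) (2 * l + 1) := (red_two.mul (red_nat l)).add red_one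

theorem red_succ (l : ℕ) : Red p (l + 1) (l + 1) := (red_nat l).add red_one

theorem odd_ne (hm : p = 2 * m + 1) {l : ℕ} (h : l < p) (hl : l ≠ m) : (2 * l + 1 : ZMod p) ≠ 0 := by
  have : ((2 * l + 1 : ℕ) : ZMod p) ≠ 0 := by
    rw [Ne, ZMod.natCast_eq_zero_iff]
    rintro ⟨c, hc⟩
    rcases c with _ | _ | c
    · omega
    · omega
    · rw [mul_add, mul_add] at hc; omega
  exact_mod_cast this

theorem succ_ne {l : ℕ} (h : l + 1 < p) : (l + 1 : ZMod p) ≠ 0 := by
  exact_mod_cast nat_ne (p := p) (n := l + 1) (by omega) h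

theorem cast_blk (l₀ l₁ : ℕ) : ((l₀ + p * l₁ : ℕ) : ZMod p) = l₀ := by simp

theorem red_mt_odd (hm : p = 2 * m + 1) {l : ℕ} (h : l < m) :
    Red p (mt (2 * l + 1)) (2 / ((2 * l + 1) * b p l)) := by
  rw [mt_odd]
  exact red_two.div ((red_odd l).mul (red_Bk hm l))
    (mul_ne_zero (odd_ne hm (by omega) h.ne) (b_ne hm h.le))

theorem red_mu (hm : p = 2 * m + 1) {l : ℕ} (h : l < m) :
    Red p (mt (2 * l + 1)) (rd p (mt (2 * l + 1))) := red_rd (red_mt_odd hm h).le_one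

theorem red_mt (hm : p = 2 * m + 1) {k : ℕ} (h : k < m) : Red p (mt k) (rd p (mt k)) := by
  obtain ⟨a, rfl | rfl⟩ := Nat.even_or_odd' k
  · rw [mt_even]; exact red_rd red_zero.le_one
  · exact red_mu hm (by omega)

/-- the factor of `p * mt (2l+1)` depending on `l % p` -/
noncomputable def tau (p : ℕ) [Fact p.Prime] (m l : ℕ) : ZMod p :=
  if l < m then 0 else (-1) ^ m * b p (l - m)

theorem tau_lt {l : ℕ} (h : l < m) : tau p m l = 0 := if_pos h

theorem tau_ge (s : ℕ) : tau p m (m + s) = (-1) ^ m * b p s := by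
  rw [tau, if_neg (by omega), Nat.add_sub_cancel_left]

theorem pm (hR : Rec) (hm : p = 2 * m + 1) {l₀ l₁ : ℕ} (h0 : l₀ < p) (h1 : l₁ < m) :
    Red p (p * mt (2 * (l₀ + p * l₁) + 1)) (tau p m l₀ * rd p (mt (2 * l₁ + 1))) := by
  rcases lt_or_ge l₀ m with h | h
  · rw [tau_lt h, zero_mul, mt_odd]
    refine (red_p.mul (red_two.div ((red_odd _).mul (red_Bk hm _)) ?_)).congr rfl (zero_mul _)
    rw [cast_blk, b_lucas hm h0]
    exact mul_ne_zero (odd_ne hm h0 h.ne) (mul_ne_zero (b_ne hm h.le) (b_ne hm h1.le))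
  obtain ⟨s, rfl⟩ := Nat.exists_eq_add_of_le h
  rw [tau_ge]
  clear h
  induction s with
  | zero =>
    have h2 := b_ne hm h1.le
    have h3 := odd_ne hm (show l₁ < p by omega) h1.ne
    have h4 : b p (m + 0 + p * l₁) = (-1) ^ m * b p l₁ := by
      rw [b_lucas hm h0, add_zero, b_m hm]
    have h5 : ((-1 : ZMod p) ^ m) ≠ 0 := pow_ne_zero _ (by simp)
    have h6 : b p (m + 0 + p * l₁) ≠ 0 := by rw [h4]; exact mul_ne_zero h5 h2
    have hq : ((p : ℕ) : ℚ) = 2 * m + 1 := by exact_mod_cast hm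
    refine (red_two.div ((red_odd l₁).mul (red_Bk hm (m + 0 + p * l₁)))
      (mul_ne_zero h3 h6)).congr ?_ ?_
    · have := (red_Bk hm _).ne_zero h6
      have e : (2 * ((m + 0 + p * l₁ : ℕ) : ℚ) + 1) = p * (2 * l₁ + 1) := by
        push_cast; linear_combination -hq
      have : (p : ℚ) ≠ 0 := by exact_mod_cast hp.out.ne_zero
      rw [mt_odd, e]
      field_simp
    · rw [(red_mt_odd hm h1).rd_eq, h4, b_zero]
      field_simp
      linear_combination -2 * eps_sq (p := p) m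
  | succ s ih =>
    have h2 := hR.2.1 (2 * (m + s + p * l₁) + 1)
    have h3 : (2 * s + 2 : ZMod p) ≠ 0 := by
      have := mul_ne_zero (two_ne hm) (succ_ne (p := p) (l := s) (by omega))
      rwa [mul_add, mul_one] at this
    have hk : Red p (((2 * (m + s + p * l₁) + 1 : ℕ) : ℚ)) (2 * s) :=
      (red_nat _).congr rfl (by push_cast; simp; linear_combination cast_m hm)
    have h4 : (2 * s + 2 : ZMod p) ≠ 0 := h3
    refine (((hk.add red_one).mul (ih (by omega))).div (hk.add red_two) h4).congr ?_ ?_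
    · rw [show 2 * (m + (s + 1) + p * l₁) + 1 = 2 * (m + s + p * l₁) + 1 + 2 by ring,
        div_eq_iff (by positivity)]
      linear_combination -(p : ℚ) * h2
    · rw [div_eq_iff h4]
      linear_combination -((-1) ^ m * rd p (mt (2 * l₁ + 1))) * b_succ hm s

theorem pmj (hR : Rec) (hm : p = 2 * m + 1) {j₀ j₁ : ℕ} (h0 : j₀ < p) (h1 : j₁ < m) :
    Red p (p * mt (j₀ + p * j₁)) ((-1) ^ m * rho m j₀ * rd p (mt j₁)) := by
  obtain ⟨s, rfl | rfl⟩ := Nat.even_or_odd' j₀ <;> obtain ⟨a, rfl | rfl⟩ := Nat.even_or_odd' j₁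
  · rw [show 2 * s + p * (2 * a) = 2 * (s + p * a) by ring, mt_even, mt_even, red_zero.rd_eq]
    simpa using red_zero
  · rw [show 2 * s + p * (2 * a + 1) = 2 * (m + s + p * a) + 1 by rw [mul_add p, hm]; ring,
      rho_b hm (by omega), ← tau_ge]
    exact pm hR hm (by omega) (by omega)
  · rw [show 2 * s + 1 + p * (2 * a) = 2 * (s + p * a) + 1 by ring, rho_odd]
    simpa [tau_lt (p := p) (show s < m by omega)] using pm hR hm (l₀ := s) (l₁ := a) (by omega) (by omega)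
  · rw [show 2 * s + 1 + p * (2 * a + 1) = 2 * (s + m + 1 + p * a) by rw [mul_add p, hm]; ring,
      mt_even, rho_odd]
    simpa using red_zero

theorem pdiv {n₀ n₁ : ℕ} (h0 : n₀ < p) (h1 : n₁ + 1 < p) :
    Red p (p / (((n₀ + p * n₁ : ℕ) : ℚ) + 1)) (if n₀ + 1 = p then 1 / (n₁ + 1) else 0) := by
  split_ifs with h
  · refine (red_one.div (red_succ n₁) (succ_ne h1)).congr ?_ rfl
    have hq : ((n₀ : ℚ) + 1) = p := by exact_mod_cast h
    have : (p : ℚ) ≠ 0 := by exact_mod_cast hp.out.ne_zero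
    have e : (((n₀ + p * n₁ : ℕ) : ℚ) + 1) = p * (n₁ + 1) := by push_cast; linear_combination hq
    rw [e]
    field_simp
  · refine (red_p.div (red_succ _) ?_).congr rfl (zero_div _)
    rw [cast_blk]
    exact succ_ne (by omega)

theorem pdiv_odd (hm : p = 2 * m + 1) {l₀ l₁ : ℕ} (h0 : l₀ < p) (h1 : l₁ < m) :
    Red p (p / (2 * ((l₀ + p * l₁ : ℕ) : ℚ) + 1)) (if l₀ = m then 1 / (2 * l₁ + 1) else 0) := by
  split_ifs with h
  · refine (red_one.div (red_odd l₁) (odd_ne hm (by omega) h1.ne)).congr ?_ rfl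
    have hq : ((p : ℕ) : ℚ) = 2 * m + 1 := by exact_mod_cast hm
    have : (p : ℚ) ≠ 0 := by exact_mod_cast hp.out.ne_zero
    have e : (2 * ((l₀ + p * l₁ : ℕ) : ℚ) + 1) = p * (2 * l₁ + 1) := by
      rw [h]; push_cast; linear_combination -hq
    rw [e]
    field_simp
  · refine (red_p.div (red_odd _) ?_).congr rfl (zero_div _)
    rw [cast_blk]
    exact odd_ne hm h0 h

theorem thpE (hR : Rec) (hm : p = 2 * m + 1) {a₀ a₁ : ℕ} (h0 : a₀ < p) (h1 : a₁ < m) :
    Red p (p ^ 2 * thp (2 * (a₀ + p * a₁))) (b p a₀ * rd p (thp (2 * a₁))) := by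
  have hm1 : 1 ≤ m := by omega
  have small : Red p (thp (2 * a₁))
      (b p a₁ * ∑ l ∈ range a₁, rd p (mt (2 * l + 1)) / (2 * l + 2)) := by
    rw [hR.2.2.2.2.2.1]
    refine (red_Bk hm _).mul (red_sum fun l hl => ?_)
    have hl := mem_range.1 hl
    refine (red_mu hm (by omega)).div ((red_two.mul (red_nat l)).add red_two) ?_
    have := mul_ne_zero (two_ne hm) (succ_ne (p := p) (l := l) (by omega))
    rwa [mul_add, mul_one] at this
  have blk := red_block (p := p) (a₁ := a₁) h0.le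
    (g := fun l => p * mt (2 * l + 1) * (p / ((l : ℚ) + 1) / 2))
    (h := fun l₀ l₁ => if l₀ = 2 * m then rd p (mt (2 * l₁ + 1)) / (2 * l₁ + 2) else 0)
    fun l₀ h l₁ h' => by
      refine ((pm hR hm h (by omega)).mul ((pdiv h (by omega)).div red_two (two_ne hm))).congr rfl ?_
      by_cases e : l₀ = 2 * m
      · rw [if_pos e, if_pos (by omega), e, two_mul m, tau_ge, b_m hm, eps_sq, div_div]
        ring_nf
      · rw [if_neg e, if_neg (by omega)]; simp
  refine ((red_Bk hm (a₀ + p * a₁)).mul blk).congr ?_ ?_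
  · rw [hR.2.2.2.2.2.1, mul_left_comm, mul_sum, mul_sum, mul_sum]
    refine sum_congr rfl fun l _ => ?_
    field_simp
  · rw [small.rd_eq, b_lucas hm h0]
    simp only [sum_ite_eq', mem_range, if_pos (show 2 * m < p by omega),
      if_neg (show ¬2 * m < a₀ by omega), add_zero, mul_assoc]

theorem thpO (hR : Rec) (hm : p = 2 * m + 1) {a₀ a₁ : ℕ} (h0 : a₀ < p) (h1 : a₁ < m) :
    Red p (p ^ 2 * thp (2 * (a₀ + p * a₁) + 1)) (tau p m a₀ * (-1) ^ m * rd p (thp (2 * a₁ + 1))) := by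
  have small : Red p (thp (2 * a₁ + 1))
      (rd p (mt (2 * a₁ + 1)) * ∑ l ∈ range (a₁ + 1), b p l / (2 * l + 1)) := by
    rw [hR.2.2.2.2.2.2.1]
    refine (red_mu hm h1).mul (red_sum fun l hl => ?_)
    have hl := mem_range.1 hl
    exact (red_Bk hm l).div (red_odd l) (odd_ne hm (by omega) (by omega))
  have blk := red_block (p := p) (a₀ := a₀ + 1) (a₁ := a₁) h0
    (g := fun l => Bk l * (p / (2 * (l : ℚ) + 1)))
    (h := fun l₀ l₁ => if l₀ = m then (-1) ^ m * (b p l₁ / (2 * l₁ + 1)) else 0)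
    fun l₀ h l₁ h' => by
      refine ((red_Bk hm _).mul (pdiv_odd hm h (by omega))).congr rfl ?_
      split_ifs with e
      · rw [b_lucas hm h, e, b_m hm]; ring
      · simp
  refine ((pm hR hm h0 h1).mul blk).congr ?_ ?_
  · rw [hR.2.2.2.2.2.2.1, add_right_comm a₀ 1, ← mul_assoc, mul_sum, mul_sum]
    refine sum_congr rfl fun l _ => ?_
    field_simp
  · rcases lt_or_ge a₀ m with h | h
    · simp [tau_lt h]
    · rw [small.rd_eq, sum_range_succ (fun l => b p l / (2 * l + 1))]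
      simp only [sum_ite_eq', mem_range, if_pos (show m < p by omega),
        if_pos (show m < a₀ + 1 by omega), ← mul_sum]
      ring

theorem thmO (hR : Rec) (hm : p = 2 * m + 1) {a₀ a₁ : ℕ} (h0 : a₀ < p) (h1 : a₁ < m) :
    Red p (p ^ 2 * thm (2 * (a₀ + p * a₁) + 1)) ((-1) ^ m * b p a₀ * rd p (thm (2 * a₁ + 1))) := by
  have small : Red p (thm (2 * a₁ + 1))
      (b p a₁ / 2 * ∑ l ∈ range a₁, rd p (mt (2 * l + 1)) ^ 2) := by
    rw [hR.2.2.2.2.2.2.2.1]
    refine ((red_Bk hm _).div red_two (two_ne hm)).mul (red_sum fun l hl => ?_)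
    have hl := mem_range.1 hl
    exact (red_mu hm (by omega)).pow 2
  have blk := red_block (p := p) (a₁ := a₁) h0.le
    (g := fun l => (p * mt (2 * l + 1)) ^ 2)
    (h := fun l₀ l₁ => (tau p m l₀ * rd p (mt (2 * l₁ + 1))) ^ 2)
    fun l₀ h l₁ h' => (pm hR hm h (by omega)).pow 2
  have hs : ∑ l ∈ range p, tau p m l ^ 2 = (-1) ^ m := by
    rw [show range p = range (m + (m + 1)) by rw [hm]; congr 1; ring, sum_range_add,
      sum_eq_zero fun l hl => by rw [tau_lt (mem_range.1 hl), zero_pow two_ne_zero], zero_add,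
      ← sum_b_sq hm]
    refine sum_congr rfl fun l _ => ?_
    rw [tau_ge, mul_pow, sq, eps_sq, one_mul]
  refine (((red_Bk hm (a₀ + p * a₁)).div red_two (two_ne hm)).mul blk).congr ?_ ?_
  · rw [hR.2.2.2.2.2.2.2.1, mul_left_comm]
    simp only [mul_pow, ← mul_sum]
  · rw [small.rd_eq, b_lucas hm h0]
    rcases le_or_gt a₀ m with h | h
    · rw [sum_eq_zero (s := range a₀) fun l hl => by
        rw [tau_lt (by have := mem_range.1 hl; omega), zero_mul, zero_pow two_ne_zero]]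
      simp only [mul_pow, ← sum_mul, hs, ← mul_sum]
      ring
    · simp [b_big hm h h0]

theorem thmE (hR : Rec) (hm : p = 2 * m + 1) {a₀ a₁ : ℕ} (h0 : a₀ < p) (h1 : a₁ < m) :
    Red p (p ^ 2 * thm (2 * (a₀ + p * a₁) + 2)) (tau p m a₀ * rd p (thm (2 * a₁ + 2))) := by
  have small : Red p (thm (2 * a₁ + 2))
      (rd p (mt (2 * a₁ + 1)) * ∑ l ∈ range (a₁ + 1), 1 / (2 * l + 1 : ZMod p)) := by
    rw [hR.2.2.2.2.2.2.2.2]
    refine (red_mu hm h1).mul (red_sum fun l hl => ?_)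
    have hl := mem_range.1 hl
    exact red_one.div (red_odd l) (odd_ne hm (by omega) (by omega))
  have blk := red_block (p := p) (a₀ := a₀ + 1) (a₁ := a₁) h0
    (g := fun l => p / (2 * (l : ℚ) + 1))
    (h := fun l₀ l₁ => if l₀ = m then 1 / (2 * l₁ + 1) else 0)
    fun l₀ h l₁ h' => pdiv_odd hm h (by omega)
  refine ((pm hR hm h0 h1).mul blk).congr ?_ ?_
  · rw [hR.2.2.2.2.2.2.2.2, add_right_comm a₀ 1, ← mul_assoc, mul_sum, mul_sum]
    refine sum_congr rfl fun l _ => ?_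
    field_simp
  · rcases lt_or_ge a₀ m with h | h
    · simp [tau_lt h]
    · rw [small.rd_eq, sum_range_succ (fun l : ℕ => 1 / (2 * l + 1 : ZMod p))]
      simp only [sum_ite_eq', mem_range, if_pos (show m < p by omega),
        if_pos (show m < a₀ + 1 by omega)]
      ring

theorem thp_red (hR : Rec) (hm : p = 2 * m + 1) {i₀ i₁ : ℕ} (h0 : i₀ < p) (h1 : i₁ < m) :
    Red p (p ^ 2 * thp (i₀ + p * i₁)) (rho m i₀ * rd p (thp i₁)) := by
  obtain ⟨s, rfl | rfl⟩ := Nat.even_or_odd' i₀ <;> obtain ⟨a, rfl | rfl⟩ := Nat.even_or_odd' i₁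
  · rw [show 2 * s + p * (2 * a) = 2 * (s + p * a) by ring, rho_b hm (by omega)]
    exact thpE hR hm (by omega) (by omega)
  · rw [show 2 * s + p * (2 * a + 1) = 2 * (m + s + p * a) + 1 by rw [mul_add p, hm]; ring,
      rho_b hm (by omega)]
    refine (thpO hR hm (by omega) (by omega)).congr rfl ?_
    rw [tau_ge, mul_right_comm _ (b p s), eps_sq, one_mul]
  · rw [show 2 * s + 1 + p * (2 * a) = 2 * (s + p * a) + 1 by ring, rho_odd]
    simpa [tau_lt (p := p) (show s < m by omega)] using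
      thpO hR hm (a₀ := s) (a₁ := a) (by omega) (by omega)
  · rw [show 2 * s + 1 + p * (2 * a + 1) = 2 * (s + m + 1 + p * a) by rw [mul_add p, hm]; ring,
      rho_odd]
    simpa [b_big hm (show m < s + m + 1 by omega) (by omega)] using
      thpE hR hm (a₀ := s + m + 1) (a₁ := a) (by omega) (by omega)

theorem thm_red (hR : Rec) (hm : p = 2 * m + 1) {j₀ j₁ : ℕ} (h0 : j₀ < p) (h1 : j₁ < m) :
    Red p (p ^ 2 * thm (j₀ + p * j₁ + 1)) ((-1) ^ m * rho m j₀ * rd p (thm (j₁ + 1))) := by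
  obtain ⟨s, rfl | rfl⟩ := Nat.even_or_odd' j₀ <;> obtain ⟨a, rfl | rfl⟩ := Nat.even_or_odd' j₁
  · rw [show 2 * s + p * (2 * a) = 2 * (s + p * a) by ring, rho_b hm (by omega)]
    exact thmO hR hm (by omega) (by omega)
  · rw [show 2 * s + p * (2 * a + 1) + 1 = 2 * (m + s + p * a) + 2 by rw [mul_add p, hm]; ring,
      rho_b hm (by omega), ← tau_ge]
    exact thmE hR hm (by omega) (by omega)
  · rw [show 2 * s + 1 + p * (2 * a) + 1 = 2 * (s + p * a) + 2 by ring, rho_odd]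
    simpa [tau_lt (p := p) (show s < m by omega)] using
      thmE hR hm (a₀ := s) (a₁ := a) (by omega) (by omega)
  · rw [show 2 * s + 1 + p * (2 * a + 1) = 2 * (s + m + 1 + p * a) by rw [mul_add p, hm]; ring,
      rho_odd]
    simpa [b_big hm (show m < s + m + 1 by omega) (by omega)] using
      thmO hR hm (a₀ := s + m + 1) (a₁ := a) (by omega) (by omega)

/-- coefficients of `X^j (1 - X²)^m` -/
noncomputable def cx (m j n : ℕ) : ℤ := (X ^ j * (1 - X ^ 2) ^ m : ℤ[X]).coeff n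

theorem cx_eq (m j n : ℕ) : cx m j n = if j ≤ n then rho m (n - j) else 0 := coeff_X_pow_mul' _ _ _

theorem cx_succ (m j n : ℕ) : cx m (j + 1) (n + 1) = cx m j n := by
  simp [cx_eq]

theorem cx_zero (m j : ℕ) : cx m (j + 1) 0 = 0 := by simp [cx_eq]

theorem cx_big {m j n : ℕ} (h : j + 2 * m < n) : cx m j n = 0 := by
  rw [cx_eq, if_pos (by omega), rho_big (by omega)]

theorem sum_sh (hm : p = 2 * m + 1) {K j₀ j₁ : ℕ} (h0 : j₀ < p) (h1 : j₁ < K) (f : ℕ → ZMod p) :
    ∑ c ∈ range K, (cx m (j₀ + p * j₁) (2 * m + p * c) : ZMod p) * f c =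
      (-1) ^ m * rho m j₀ * f j₁ := by
  rw [sum_eq_single_of_mem j₁ (mem_range.2 h1)]
  · rw [cx_eq, if_pos (by omega), show 2 * m + p * j₁ - (j₀ + p * j₁) = 2 * m - j₀ by omega,
      rho_symm (by omega)]
    push_cast; rfl
  · intro c _ hc
    rcases lt_or_gt_of_ne hc with h | h
    · have := Nat.mul_le_mul_left p (show c + 1 ≤ j₁ from h)
      rw [cx_eq, if_neg (by rw [mul_add] at this; omega)]; simp
    · have := Nat.mul_le_mul_left p (show j₁ + 1 ≤ c from h)
      rw [cx_big (by rw [mul_add] at this; omega)]; simp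

theorem decomp (j : ℕ) : ∃ j₀ j₁, j₀ < p ∧ j = j₀ + p * j₁ :=
  ⟨j % p, j / p, Nat.mod_lt _ hp.out.pos, (Nat.mod_add_div _ _).symm⟩

theorem lt_of_blk {K j₀ j₁ : ℕ} (h : j₀ + p * j₁ + 1 ≤ p * K) : j₁ < K :=
  Nat.lt_of_mul_lt_mul_left (a := p) (by omega)

theorem mainM (hR : Rec) (hm : p = 2 * m + 1) {K : ℕ} (hK : K < m)
    (hM : ∀ i ≤ K, ∀ c ≤ K, Red p (Mr i c) (rd p (Mr i c))) (j : ℕ) (hj : j ≤ p * K) :
    ∀ i₀ < p, ∀ i₁ ≤ K, Red p (p ^ 2 * Mr (i₀ + p * i₁) j)
      (∑ c ∈ range (K + 1), (cx m j (i₀ + p * c) : ZMod p) * rd p (Mr i₁ c)) := by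
  induction j with
  | zero =>
    intro i₀ h0 i₁ h1
    rw [sum_range_succ', sum_eq_zero fun c _ => by
      rw [cx_big (by rw [mul_add]; omega), Int.cast_zero, zero_mul]]
    simpa [cx_eq, Mr] using thp_red hR hm h0 (show i₁ < m by omega)
  | succ j ih =>
    have ih := ih (by omega)
    obtain ⟨j₀, j₁, hj0, rfl⟩ := decomp (p := p) j
    have hj1 := lt_of_blk hj
    have hT := pmj hR hm hj0 (show j₁ < m by omega)
    have step : ∀ i : ℕ, (p : ℚ) ^ 2 * Mr i (j₀ + p * j₁) -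
        p * mt (j₀ + p * j₁) * (p / ((i : ℚ) + 1)) = p ^ 2 * Mr (i + 1) (j₀ + p * j₁ + 1) := fun i => by
      rw [Mr]; ring
    have sh : ∀ c, cx m (j₀ + p * j₁ + 1) (0 + p * (c + 1)) = cx m (j₀ + p * j₁) (2 * m + p * c) :=
      fun c => by rw [← cx_succ m (j₀ + p * j₁)]; congr 1; rw [mul_add]; omega
    rintro (_ | i₀) h0 i₁ h1
    · rw [sum_range_succ']
      simp only [sh, mul_zero, add_zero, cx_zero, Int.cast_zero, zero_mul]
      rcases i₁ with _ | i₁
      · rw [sum_sh hm hj0 hj1 fun c => rd p (Mr 0 (c + 1))]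
        simpa [Mr] using thm_red hR hm hj0 (show j₁ < m by omega)
      · refine ((ih (2 * m) (by omega) i₁ (by omega)).sub
          (hT.mul (pdiv (n₀ := 2 * m) (n₁ := i₁) (by omega) (by omega)))).congr ?_ ?_
        · rw [step]; congr 2; rw [mul_add]; omega
        · rw [if_pos hm.symm, sum_range_succ, cx_big (m := m) (n := 2 * m + p * K) (by omega),
            Int.cast_zero, zero_mul, add_zero, mul_assoc,
            ← sum_sh hm hj0 hj1 fun c => rd p (mt c) * (1 / (i₁ + 1)), ← sum_sub_distrib]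
          refine sum_congr rfl fun c hc => ?_
          have hc := mem_range.1 hc
          have : Red p (Mr (i₁ + 1) (c + 1)) (rd p (Mr i₁ c) - rd p (mt c) / (i₁ + 1)) := by
            rw [Mr]
            exact (hM _ (by omega) _ hc.le).sub ((red_mt hm (by omega)).div (red_succ _)
              (succ_ne (by omega)))
          rw [this.rd_eq]
          ring
    · refine ((ih i₀ (by omega) i₁ h1).sub
        (hT.mul (pdiv (n₀ := i₀) (n₁ := i₁) (by omega) (by omega)))).congr ?_ ?_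
      · rw [step, add_right_comm i₀ 1]
      · rw [if_neg (by omega), mul_zero, sub_zero]
        refine sum_congr rfl fun c _ => ?_
        rw [add_right_comm i₀ 1, cx_succ]

theorem harm_red {n₀ n₁ : ℕ} (h0 : n₀ < p) (h1 : n₁ + 1 < p) :
    Red p (p ^ 2 * (harmonic (n₀ + p * n₁) / ((n₀ + p * n₁ : ℕ) : ℚ)))
      (if n₀ = 0 then rd p (harmonic n₁ / (n₁ : ℚ)) else 0) := by
  have hpos := hp.out.pos
  have blk := red_block (p := p) (a₁ := n₁) h0.le (g := fun l => p / ((l : ℚ) + 1))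
    (h := fun l₀ l₁ => if l₀ = p - 1 then 1 / (l₁ + 1) else 0)
    fun l₀ h l₁ h' => (pdiv h (by omega)).congr rfl (by
      congr 1
      exact propext ⟨fun _ => by omega, fun _ => by omega⟩)
  have e : ∀ x : ℚ, (∑ l ∈ range (n₀ + p * n₁), (p : ℚ) / ((l : ℚ) + 1)) * (p / x) =
      p ^ 2 * (harmonic (n₀ + p * n₁) / x) := fun x => by
    simp only [harmonic, div_eq_mul_inv, ← mul_sum]
    push_cast
    ring
  rcases n₀ with _ | n₀
  · rcases n₁ with _ | n₁
    · simpa [red_zero.rd_eq] using red_zero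
    · have small : Red p (harmonic (n₁ + 1) / ((n₁ + 1 : ℕ) : ℚ))
          ((∑ l ∈ range (n₁ + 1), ((l + 1 : ℕ) : ZMod p)⁻¹) / (n₁ + 1 : ℕ)) :=
        (red_sum fun l hl => (red_nat _).inv
          (nat_ne (by omega) (by have := mem_range.1 hl; omega))).div (red_nat _)
            (nat_ne (by omega) (by omega))
      refine (blk.mul (pdiv (n₀ := p - 1) (n₁ := n₁) (by omega) (by omega))).congr ?_ ?_
      · rw [e]
        congr 2
        norm_cast
        rw [mul_add]; omega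
      · rw [if_pos rfl, if_pos (by omega), small.rd_eq]
        simp only [sum_ite_eq', mem_range, if_pos (show p - 1 < p by omega), range_zero,
          Finset.notMem_empty, if_false, add_zero]
        push_cast
        simp only [div_eq_mul_inv, one_mul]
  · refine (blk.mul (pdiv (n₀ := n₀) (n₁ := n₁) (by omega) h1)).congr ?_ ?_
    · rw [e]
      congr 2
      push_cast
      ring
    · rw [if_neg (by omega), if_neg (by omega), mul_zero]

theorem pred {n n₀ n₁ : ℕ} (h0 : n₀ < p) (h : n + 1 = n₀ + p * n₁) : ∃ a₀ a₁, a₀ < p ∧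
    n = a₀ + p * a₁ ∧ ((a₀ + 1 = n₀ ∧ a₁ = n₁) ∨ (a₀ + 1 = p ∧ n₀ = 0 ∧ a₁ + 1 = n₁)) := by
  rcases n₀ with _ | n₀
  · rcases n₁ with _ | n₁
    · omega
    · exact ⟨p - 1, n₁, by omega, by rw [mul_add] at h; omega, .inr ⟨by omega, rfl, rfl⟩⟩
  · exact ⟨n₀, n₁, by omega, by omega, .inl ⟨rfl, rfl⟩⟩

theorem Zr_zero (j : ℕ) : Zr 0 j = harmonic j / (j : ℚ) := by
  rcases j with _ | j
  · simp [Zr]
  · rw [Zr]; push_cast; rfl

theorem mainZ {K : ℕ} (hK : K + 1 < p)
    (hZ : ∀ i ≤ K, ∀ c ≤ K, Red p (Zr i c) (rd p (Zr i c))) (j : ℕ) :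
    ∀ i i₀ i₁ j₀ j₁, i₀ < p → i₁ ≤ K → j₀ < p → j₁ ≤ K → i = i₀ + p * i₁ → j = j₀ + p * j₁ →
      Red p (p ^ 2 * Zr i j) (if j₀ = i₀ then rd p (Zr i₁ j₁) else 0) := by
  have hpos := hp.out.pos
  induction j with
  | zero =>
    rintro i i₀ i₁ j₀ j₁ h0 h1 - - rfl hj
    obtain rfl : j₀ = 0 := by omega
    obtain rfl : j₁ = 0 := by
      rcases j₁ with _ | j₁
      · rfl
      · rw [mul_add] at hj; omega
    simpa only [Zr, eq_comm (a := 0)] using harm_red h0 (show i₁ + 1 < p by omega)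
  | succ j ih =>
    rintro (_ | i) i₀ i₁ j₀ j₁ h0 h1 h2 h3 hi hj
    · obtain rfl : i₀ = 0 := by omega
      obtain rfl : i₁ = 0 := by
        rcases i₁ with _ | i₁
        · rfl
        · rw [mul_add] at hi; omega
      rw [hj, Zr_zero, Zr_zero]
      exact harm_red h2 (show j₁ + 1 < p by omega)
    obtain ⟨a₀, a₁, ha, rfl, ha'⟩ := pred h0 hi
    obtain ⟨c₀, c₁, hc, rfl, hc'⟩ := pred h2 hj
    refine ((ih _ a₀ a₁ c₀ c₁ ha (by omega) hc (by omega) rfl rfl).sub
      ((pdiv (n₁ := a₁) ha (by omega)).mul (pdiv (n₁ := c₁) hc (by omega)))).congr ?_ ?_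
    · rw [Zr]
      field_simp
    · rcases ha' with ⟨rfl, rfl⟩ | ⟨e1, rfl, rfl⟩ <;> rcases hc' with ⟨rfl, rfl⟩ | ⟨e2, rfl, rfl⟩
      · simp [h0.ne]
      · rw [if_neg (by omega), if_neg (by omega), if_neg (show ¬0 = a₀ + 1 by omega)]; simp
      · rw [if_neg (by omega), if_neg (show ¬c₀ + 1 = p by omega), if_neg (show ¬c₀ + 1 = 0 by omega)]
        simp
      · have : Red p (Zr (a₁ + 1) (c₁ + 1)) (rd p (Zr a₁ c₁) - 1 / ((a₁ + 1) * (c₁ + 1))) := by
          rw [Zr]
          exact (hZ _ (by omega) _ (by omega)).sub (red_one.div ((red_succ _).mul (red_succ _))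
            (mul_ne_zero (succ_ne (by omega)) (succ_ne (by omega))))
        rw [if_pos (by omega), if_pos e1, if_pos e2, if_pos rfl, this.rd_eq, div_mul_div_comm, one_mul]

end CartierAux

open CartierAux

theorem cartier (hR : Rec) (hV : Val) : Cartier := by
  intro p hp K hK i₀ i₁ j h0 h1 hj
  obtain ⟨m, hm⟩ : ∃ m, p = 2 * m + 1 := hp.out.odd_of_ne_two (by omega)
  have hl : Nat.log p K = 0 := Nat.log_of_lt (by omega)
  have hV' := fun i (hi : i ≤ K) c (hc : c ≤ K) => (hV p (by omega)).2.2.1 i c K hi hc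
  simp only [hl, mul_zero, pow_zero] at hV'
  have hM := fun i hi c hc => red_rd (hV' i hi c hc).2.2.1
  have hZ := fun i hi c hc => red_rd (hV' i hi c hc).2.2.2
  have hpos := hp.out.pos
  have hj1 : j / p ≤ K := Nat.div_le_of_le_mul hj
  constructor
  · rw [show (p - 1) / 2 = m by omega]
    exact (mainM hR hm (by omega) hM j hj i₀ h0 i₁ h1).sub_lt (red_sum fun c hc =>
      (red_int _).mul (hM _ h1 _ (by have := mem_range.1 hc; omega)))
  · refine (mainZ (by omega) hZ j _ i₀ i₁ (j % p) (j / p) h0 h1 (Nat.mod_lt _ hpos) hj1 rfl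
      (Nat.mod_add_div _ _).symm).sub_lt ?_
    split_ifs
    exacts [hZ _ h1 _ hj1, red_zero]

end Crest.Agent.R6
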