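import Crest.Agent.R6.Defs

/-! # Row 6: the Cauchy determinant -/

set_option autoImplicit false

open Finset Polynomial

namespace Crest.Agent.R6

namespace CauchyAux

noncomputable section

variable {n : ℕ}

/-- `p_j = ∏_{l ≠ j} (1 - t_l X)` -/
def pj (t : Fin n → ℝ) (j : Fin n) : ℝ[X] := ∏ l ∈ univ.erase j, (1 - C (t l) * X)

theorem pj_natDegree (t : Fin n → ℝ) (j : Fin n) : (pj t j).natDegree < n := by
  have h1 : (pj t j).natDegree ≤ ∑ l ∈ univ.erase j, (1 - C (t l) * X : ℝ[X]).natDegree :=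
    natDegree_prod_le _ _
  have h2 : ∑ l ∈ univ.erase j, (1 - C (t l) * X : ℝ[X]).natDegree ≤ ∑ _l ∈ univ.erase j, 1 := by
    refine sum_le_sum fun l _ => ?_
    compute_degree
  have h3 : ∑ _l ∈ (univ : Finset (Fin n)).erase j, 1 = n - 1 := by
    simp
  have := j.pos
  omega

theorem pj_eval (t : Fin n → ℝ) (j : Fin n) (x : ℝ) :
    (pj t j).eval x = ∏ l ∈ univ.erase j, (1 - x * t l) := by
  simp only [pj, eval_prod, eval_sub, eval_one, eval_mul, eval_C, eval_X]
  exact prod_congr rfl fun l _ => by ring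

def coef (t : Fin n → ℝ) : Matrix (Fin n) (Fin n) ℝ := Matrix.of fun k j => (pj t j).coeff k

theorem vand_mul (t v : Fin n → ℝ) :
    Matrix.vandermonde v * coef t = Matrix.of fun i j => ∏ l ∈ univ.erase j, (1 - v i * t l) := by
  ext i j
  rw [Matrix.mul_apply, Matrix.of_apply, ← pj_eval, eval_eq_sum_range' (pj_natDegree t j),
    ← Fin.sum_univ_eq_sum_range (fun k => (pj t j).coeff k * v i ^ k)]
  exact sum_congr rfl fun k _ => by simp [coef, mul_comm]

theorem det_coef (t : Fin n → ℝ) (h0 : ∀ j, t j ≠ 0) (hinj : Function.Injective t) :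
    (coef t).det = (Matrix.vandermonde t).det := by
  have hv : (Matrix.vandermonde fun i => (t i)⁻¹).det ≠ 0 :=
    Matrix.det_vandermonde_ne_zero_iff.2 fun a b h => hinj (inv_injective h)
  have h1 := vand_mul t fun i => (t i)⁻¹
  have h2 : (Matrix.of fun i j => ∏ l ∈ univ.erase j, (1 - (t i)⁻¹ * t l)) =
      Matrix.diagonal fun j => ∏ l ∈ univ.erase j, (1 - (t j)⁻¹ * t l) := by
    ext i j
    by_cases hij : i = j
    · subst hij; simp
    · rw [Matrix.diagonal_apply_ne _ hij, Matrix.of_apply]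
      exact prod_eq_zero (i := i) (by simp [hij]) (by rw [inv_mul_cancel₀ (h0 i), sub_self])
  have h3 := congrArg Matrix.det h1
  rw [Matrix.det_mul, h2, Matrix.det_diagonal] at h3
  apply mul_left_cancel₀ hv
  rw [h3, Matrix.det_vandermonde, Matrix.det_vandermonde, ← prod_mul_distrib]
  have h4 := prod_prod_Ioi_mul_eq_prod_prod_off_diag (fun l j : Fin n => (1 - (t j)⁻¹ * t l))
  simp only [compl_singleton] at h4
  rw [← h4]
  refine prod_congr rfl fun i _ => ?_
  rw [← prod_mul_distrib]
  refine prod_congr rfl fun j _ => ?_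
  have := h0 i
  have := h0 j
  field_simp

theorem det_eq (s t : Fin n → ℝ) (h0 : ∀ j, t j ≠ 0) (h1 : ∀ i j, 1 - s i * t j ≠ 0) :
    (Matrix.of fun i j => 1 / (1 - s i * t j)).det * ∏ i, ∏ j, (1 - s i * t j) =
      (Matrix.vandermonde s).det * (Matrix.vandermonde t).det := by
  by_cases hinj : Function.Injective t
  · rw [← det_coef t h0 hinj, ← Matrix.det_mul, vand_mul, mul_comm, ← Matrix.det_mul_column]
    congr 1
    ext i j
    simp only [Matrix.of_apply]
    rw [← mul_prod_erase univ _ (mem_univ j)]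
    have := h1 i j
    field_simp
  · have hz : (Matrix.vandermonde t).det = 0 := by
      by_contra h
      exact hinj (Matrix.det_vandermonde_ne_zero_iff.1 h)
    rw [hz, mul_zero]
    simp only [Function.Injective, not_forall] at hinj
    obtain ⟨a, b, hab, hne⟩ := hinj
    rw [Matrix.det_zero_of_column_eq hne (fun k => by simp [hab]), zero_mul]

end

end CauchyAux

theorem cauchy : Cauchy := by
  intro n s t h0 h1
  rw [← abs_mul, ← CauchyAux.det_eq s t h0 h1, abs_mul, abs_prod]
  simp only [abs_prod]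

end Crest.Agent.R6
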