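import Crest.Agent.R6.CertData

set_option autoImplicit false

namespace Crest.Agent.R6.Chk

theorem good_m0 : seg (tsW 14 49 (-1) good1 good2) (-796080725605522321920) 5234541 [629856, 1049760, 1404054, 1628255, 1817423, 1977033, 2111703, 2225330, 2353160, 2461016, 2552019, 2628802, 2693587, 2766469, 2827963, 2897143, 2955513, 3021179, 3095053, 3157384, 3227506, 3306393, 3372953, 3447833, 3532073, 3626843, 3733459, 3823416, 3924617, 4038467, 4134527, 4242594, 4364169, 4500940, 4616340, 4746165, 4855704, 4978935, 5117569, 5234541] 419904 (val (tsW 14 49 (-1) good1 good2) 419904) = true := by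
  decide +kernel

theorem good_m1 : seg (tsW 14 49 (-1) good1 good2) (-796080725605522321920) 10918330 [5366134, 5477164, 5602072, 5707462, 5826025, 5959408, 6071949, 6198557, 6305382, 6425559, 6526957, 6641029, 6769360, 6877639, 6999452, 7102231, 7217857, 7347936, 7457689, 7581160, 7720064, 7837264, 7969114, 8117445, 8242599, 8383397, 8541794, 8719990, 8870342, 9039488, 9229777, 9390332, 9570956, 9774158, 9945609, 10138491, 10355483, 10538570, 10744542, 10918330] 5234541 (val (tsW 14 49 (-1) good1 good2) 5234541) = true := by
  decide +kernel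

theorem good_m2 : seg (tsW 14 49 (-1) good1 good2) (-796080725605522321920) 16767242 [11113841, 11278802, 11464382, 11620964, 11797118, 11945747, 12112954, 12254034, 12412749, 12546664, 12697318, 12824431, 12967432, 13128307, 13264045, 13416750, 13545594, 13690543, 13853610, 13991197, 14145982, 14320114, 14516012, 14681300, 14867249, 15076441, 15252946, 15451513, 15619053, 15760414, 15919444, 16053625, 16166839, 16262362, 16369825, 16490720, 16626726, 16767242] 10918330 (val (tsW 14 49 (-1) good1 good2) 10918330) = true := by
  decide +kernel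

theorem good_m : Bd (tsW 14 49 (-1) good1 good2) (-796080725605522321920) := by
  refine bd_of _ _ 419904 16767242 (by decide +kernel) (fun x h0 h1 => ?_) (by decide +kernel)
  rcases le_or_gt x ((5234541 : ℤ) : ℝ) with h | h0
  · exact seg_sound _ _ _ _ _ good_m0 x h0 h
  rcases le_or_gt x ((10918330 : ℤ) : ℝ) with h | h0
  · exact seg_sound _ _ _ _ _ good_m1 x h0 h
  exact seg_sound _ _ _ _ _ good_m2 x h0 h1

theorem bad_m0 : seg (tsW 8 157 (-1) bad1 bad2) (-747563101899338318016) 15007744 [1119744, 1866240, 2985984, 4245696, 5662872, 7257195, 8602404, 10115763, 12385801, 15007744] 746496 (val (tsW 8 157 (-1) bad1 bad2) 746496) = true := by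
  decide +kernel

theorem bad_m : Bd (tsW 8 157 (-1) bad1 bad2) (-747563101899338318016) := by
  refine bd_of _ _ 746496 15007744 (by decide +kernel) (fun x h0 h1 => ?_) (by decide +kernel)
  exact seg_sound _ _ _ _ _ bad_m0 x h0 h1

end Crest.Agent.R6.Chk
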