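import Crest.Agent.R6.CertData

set_option autoImplicit false

namespace Crest.Agent.R6.Chk

theorem good_p0 : seg (tsW 14 49 1 good1 good2) (-796080725605522321920) 5417486 [629856, 1049760, 1404054, 1702989, 1892157, 2104971, 2284532, 2436035, 2563865, 2671721, 2762724, 2839507, 2925887, 2998769, 3080761, 3149941, 3227768, 3293434, 3367308, 3429639, 3499761, 3578648, 3645208, 3720088, 3804328, 3899098, 3979060, 4069017, 4170218, 4255605, 4351665, 4459732, 4581307, 4683885, 4799285, 4929110, 5038649, 5161880, 5300514, 5417486] 419904 (val (tsW 14 49 1 good1 good2) 419904) = true := by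
  decide +kernel

theorem good_p1 : seg (tsW 14 49 1 good1 good2) (-796080725605522321920) 10716668 [5549079, 5660109, 5785017, 5925538, 6044101, 6177484, 6290025, 6416633, 6559067, 6679245, 6814445, 6928520, 7056854, 7201229, 7323044, 7460085, 7575712, 7705792, 7852132, 7975606, 8114514, 8231717, 8363570, 8511904, 8637060, 8777860, 8896660, 9030310, 9180666, 9307528, 9450247, 9570665, 9706135, 9858538, 9987127, 10131789, 10294533, 10431848, 10586327, 10716668] 5417486 (val (tsW 14 49 1 good1 good2) 5417486) = true := by
  decide +kernel

theorem good_p2 : seg (tsW 14 49 1 good1 good2) (-796080725605522321920) 15517833 [10863301, 11028262, 11167447, 11324029, 11456144, 11604773, 11771980, 11913060, 12071775, 12205690, 12356344, 12483457, 12626458, 12787333, 12923071, 13075776, 13204620, 13349569, 13471869, 13609456, 13725544, 13856143, 13966335, 14090301, 14194896, 14312565, 14411847, 14523539, 14617778, 14723796, 14813248, 14913881, 14998789, 15094310, 15174905, 15242906, 15319406, 15383952, 15456566, 15517833] 10716668 (val (tsW 14 49 1 good1 good2) 10716668) = true := by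
  decide +kernel

theorem good_p3 : seg (tsW 14 49 1 good1 good2) (-796080725605522321920) 16745689 [15586758, 15644913, 15710337, 15765538, 15827638, 15880034, 15924242, 15973976, 16015938, 16063145, 16102975, 16147783, 16185589, 16228120, 16264005, 16294282, 16328343, 16357081, 16389411, 16416689, 16439704, 16465595, 16487440, 16505871, 16521421, 16538914, 16553673, 16570276, 16584284, 16600043, 16617771, 16637715, 16660152, 16685393, 16713788, 16745689] 15517833 (val (tsW 14 49 1 good1 good2) 15517833) = true := by
  decide +kernel

theorem good_p : Bd (tsW 14 49 1 good1 good2) (-796080725605522321920) := by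
  refine bd_of _ _ 419904 16745689 (by decide +kernel) (fun x h0 h1 => ?_) (by decide +kernel)
  rcases le_or_gt x ((5417486 : ℤ) : ℝ) with h | h0
  · exact seg_sound _ _ _ _ _ good_p0 x h0 h
  rcases le_or_gt x ((10716668 : ℤ) : ℝ) with h | h0
  · exact seg_sound _ _ _ _ _ good_p1 x h0 h
  rcases le_or_gt x ((15517833 : ℤ) : ℝ) with h | h0
  · exact seg_sound _ _ _ _ _ good_p2 x h0 h
  exact seg_sound _ _ _ _ _ good_p3 x h0 h1

theorem bad_p0 : seg (tsW 8 157 1 bad1 bad2) (-747563101899338318016) 16030720 [1492992, 2488320, 3608064, 4867776, 6284952, 7879275, 9672888, 11186248, 12888778, 14656120, 16030720] 995328 (val (tsW 8 157 1 bad1 bad2) 995328) = true := by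
  decide +kernel

theorem bad_p : Bd (tsW 8 157 1 bad1 bad2) (-747563101899338318016) := by
  refine bd_of _ _ 995328 16030720 (by decide +kernel) (fun x h0 h1 => ?_) (by decide +kernel)
  exact seg_sound _ _ _ _ _ bad_p0 x h0 h1

end Crest.Agent.R6.Chk
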