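import Crest.Agent.R6.CertS
import Crest.Agent.R6.CertP
import Crest.Agent.R6.CertM

set_option autoImplicit false

namespace Crest.Agent.R6.Chk

theorem good_cert : Cert (14 : ℤ) (49 : ℤ) (-252 : ℤ) := by
  have a1 : sumA good1 = 9900159 := by decide +kernel
  have a2 : sumA good2 = 1085799 := by decide +kernel
  have q1 : qv good1 = -7163089726146183358781121208 := by decide +kernel
  have q2 : qv good2 = -84612725053922365632072555 := by decide +kernel
  have l1 := Real.log_two_gt_d9
  have l2 := Real.log_two_lt_d9
  refine cert_of 14 49 (-252) good1 good2 (by decide +kernel) (by decide +kernel) _ _ _ (-58926 / 1024) (-36201 / 1024)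
    good_s good_p good_m ?_ ?_ ?_ ?_
  all_goals
    simp only [a1, a2, q1, q2]
    push_cast
    norm_num at l1 l2 ⊢
    linarith

theorem bad_cert : Cert (8 : ℤ) (157 : ℤ) (396 : ℤ) := by
  have a1 : sumA bad1 = 4899554 := by decide +kernel
  have a2 : sumA bad2 = 4247697 := by decide +kernel
  have q1 : qv bad1 = -1749350557175676643461057592 := by decide +kernel
  have q2 : qv bad2 = -1314407110760647409336307797 := by decide +kernel
  have l1 := Real.log_two_gt_d9
  have l2 := Real.log_two_lt_d9
  refine cert_of 8 157 (396) bad1 bad2 (by decide +kernel) (by decide +kernel) _ _ _ (-52993 / 1024) (-65586 / 1024)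
    bad_s bad_p bad_m ?_ ?_ ?_ ?_
  all_goals
    simp only [a1, a2, q1, q2]
    push_cast
    norm_num at l1 l2 ⊢
    linarith

end Crest.Agent.R6.Chk

namespace Crest.Agent.R6

theorem certs : Certs := by
  have h1 := Chk.good_cert
  have h2 := Chk.bad_cert
  push_cast at h1 h2
  exact ⟨h1, h2⟩

end Crest.Agent.R6
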