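import Crest.Agent.R6.Defs

set_option autoImplicit false

open Finset Polynomial

namespace Crest.Agent.R6

namespace ColAux

noncomputable section

lemma c1 (R : Type) [CommRing R] [Algebra ℤ R] (t ρ : R) (h : ρ ^ 2 = 1 - t ^ 2) (u : ℕ) :
    (1 + ρ) ^ u = aeval t (ee u) + aeval t (oo u) * ρ := by
  induction u using Nat.twoStepInduction with
  | zero => simp [ee, oo]
  | one => simp [ee, oo]
  | more u h1 h2 =>
    have e : (1 + ρ) ^ (u + 2) = 2 * (1 + ρ) ^ (u + 1) - t ^ 2 * (1 + ρ) ^ u := by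
      linear_combination (1 + ρ) ^ u * h
    rw [e, h1, h2]
    simp only [ee, oo, map_sub, map_mul, map_pow, aeval_X, map_ofNat]
    ring

lemma step (f g : ℤ[X]) (j : ℕ) :
    (2 * f - X ^ 2 * g).coeff j = 2 * f.coeff j - if 2 ≤ j then g.coeff (j - 2) else 0 := by
  rw [coeff_sub, coeff_X_pow_mul', coeff_ofNat_mul]

lemma c2 (u : ℕ) : ∀ j : ℕ, (2 : ℤ) ^ (u - 1 - j) ∣ (ee u).coeff j ∧ (2 : ℤ) ^ (u - 1 - j) ∣ (oo u).coeff j := by
  induction u using Nat.twoStepInduction with
  | zero => simp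
  | one => simp
  | more u h1 h2 =>
    intro j
    have key : ∀ f g : ℤ[X], (∀ j, (2 : ℤ) ^ (u + 1 - 1 - j) ∣ f.coeff j) →
        (∀ j, (2 : ℤ) ^ (u - 1 - j) ∣ g.coeff j) →
        (2 : ℤ) ^ (u + 2 - 1 - j) ∣ (2 * f - X ^ 2 * g).coeff j := by
      intro f g hf hg
      rw [step]
      refine dvd_sub ?_ ?_
      · refine dvd_trans (pow_dvd_pow 2 (n := (u + 1 - 1 - j) + 1) (by omega)) ?_
        rw [pow_succ']
        exact mul_dvd_mul_left _ (hf j)
      · split_ifs with h
        · exact dvd_trans (pow_dvd_pow 2 (by omega)) (hg (j - 2))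
        · exact dvd_zero _
    exact ⟨key _ _ (fun j => (h2 j).1) (fun j => (h1 j).1), key _ _ (fun j => (h2 j).2) (fun j => (h1 j).2)⟩

lemma deg (u : ℕ) : ∀ j : ℕ, (u < j → (ee u).coeff j = 0) ∧ (u ≤ j → (oo u).coeff j = 0) := by
  induction u using Nat.twoStepInduction with
  | zero =>
    intro j
    refine ⟨fun h => ?_, fun _ => by simp [oo]⟩
    rw [ee, coeff_one, if_neg (by omega)]
  | one =>
    intro j
    refine ⟨fun h => ?_, fun h => ?_⟩
    · rw [ee, coeff_one, if_neg (by omega)]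
    · rw [oo, coeff_one, if_neg (by omega)]
  | more u h1 h2 =>
    intro j
    refine ⟨fun h => ?_, fun h => ?_⟩
    · rw [ee, step, (h2 j).1 (by omega), (h1 (j - 2)).1 (by omega)]; simp
    · rw [oo, step, (h2 j).2 (by omega), (h1 (j - 2)).2 (by omega)]; simp

lemma om (m a : ℕ) (h : m < a) : ((1 - X : ℤ[X]) ^ m).coeff a = 0 := by
  refine coeff_eq_zero_of_natDegree_lt (lt_of_le_of_lt ?_ h)
  refine natDegree_pow_le.trans ?_
  have : (1 - X : ℤ[X]).natDegree ≤ 1 := by compute_degree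
  nlinarith

lemma cE0 {N l : ℕ} (hN : 1 ≤ N) (hl : l < 36 * N) (j : ℕ) (h : j ≤ 14 * N ∨ 47 * N < j) :
    (cE N l).coeff j = 0 := by
  have hd : Nat.dist l (3 * N) ≤ 33 * N - 1 := by unfold Nat.dist; omega
  rw [cE, coeff_X_pow_mul']
  split_ifs with h1
  · exact (deg _ _).1 (by omega)
  · rfl

lemma cO0 {N l : ℕ} (hN : 1 ≤ N) (hl : l < 36 * N) (j : ℕ) (h : j ≤ 14 * N ∨ 47 * N ≤ j) :
    (cO N l).coeff j = 0 := by
  have hd : Nat.dist l (3 * N) ≤ 33 * N - 1 := by unfold Nat.dist; omega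
  have : (X ^ (47 * N - Nat.dist l (3 * N)) * oo (Nat.dist l (3 * N))).coeff j = 0 := by
    rw [coeff_X_pow_mul']
    split_ifs with h1
    · exact (deg _ _).2 (by omega)
    · rfl
  rw [cO]
  split_ifs
  · rw [neg_mul, one_mul, coeff_neg, this, neg_zero]
  · rw [one_mul, this]

lemma mul0 (m j : ℕ) (f : ℤ[X]) (h : ∀ b, b ≤ j → j ≤ b + m → f.coeff b = 0) :
    ((1 - X) ^ m * f).coeff j = 0 := by
  rw [coeff_mul]
  refine Finset.sum_eq_zero fun p hp => ?_
  have : p.1 + p.2 = j := by simpa using hp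
  by_cases h1 : m < p.1
  · rw [om _ _ h1, zero_mul]
  · rw [h p.2 (by omega) (by omega), mul_zero]

def S : PowerSeries ℚ := PowerSeries.mk fun i => pii i 0

lemma Bk_rec (k : ℕ) : (2 * (k : ℚ) + 2) * Bk (k + 1) = (2 * (k : ℚ) + 1) * Bk k := by
  have h : (((k + 1) * Nat.centralBinom (k + 1) : ℕ) : ℚ) = (2 * (2 * k + 1) * Nat.centralBinom k : ℕ) := by
    rw [Nat.succ_mul_centralBinom_succ]
  push_cast at h
  unfold Bk
  rw [pow_succ]
  field_simp
  linear_combination 2 * h

lemma s_rec (i : ℕ) : ((i : ℚ) + 2) * pii (i + 2) 0 = ((i : ℚ) + 1) * pii i 0 := by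
  unfold pii
  simp only [zero_le, true_and, Nat.sub_zero]
  obtain ⟨k, rfl | rfl⟩ := Nat.even_or_odd' i
  · rw [if_pos (by omega), if_pos (by omega), show (2 * k + 2) / 2 = k + 1 by omega,
      show 2 * k / 2 = k by omega]
    push_cast
    exact Bk_rec k
  · rw [if_neg (by omega), if_neg (by omega)]; simp

lemma S_ode : (1 - PowerSeries.X ^ 2) * PowerSeries.derivative ℚ S = PowerSeries.X * S := by
  ext i
  rw [sub_mul, one_mul, map_sub, PowerSeries.coeff_X_pow_mul', PowerSeries.coeff_derivative]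
  rcases i with _ | _ | i
  · simp [S, pii]
  · simp only [S, PowerSeries.coeff_mk, PowerSeries.coeff_succ_X_mul]
    have := s_rec 0
    simp at this ⊢
    linarith
  · rw [if_pos (by omega), PowerSeries.coeff_derivative, PowerSeries.coeff_succ_X_mul]
    simp only [S, PowerSeries.coeff_mk]
    have := s_rec (i + 1)
    rw [show i + 1 + 1 - 2 + 1 = i + 1 by omega, show i + 1 + 1 - 2 = i by omega]
    push_cast at this ⊢
    linarith

lemma S0 : PowerSeries.constantCoeff S = 1 := by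
  simp [S, pii, Bk]

lemma S_sq : S ^ 2 * (1 - PowerSeries.X ^ 2) = 1 := by
  refine PowerSeries.derivative.ext ?_ ?_
  · have := S_ode
    simp only [Derivation.leibniz, Derivation.leibniz_pow, map_sub, Derivation.map_one_eq_zero,
      PowerSeries.derivative_X, smul_eq_mul, nsmul_eq_mul]
    push_cast
    linear_combination 2 * S * this
  · simp [S0]

lemma coeff_aeval (f : ℤ[X]) (i : ℕ) :
    PowerSeries.coeff i (aeval (PowerSeries.X : PowerSeries ℚ) f) = (f.coeff i : ℚ) := by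
  induction f using Polynomial.induction_on' with
  | add p q hp hq => simp [hp, hq]
  | monomial n a =>
    rw [aeval_monomial, coeff_monomial]
    have : algebraMap ℤ (PowerSeries ℚ) a = PowerSeries.C (a : ℚ) := by simp
    rw [this, PowerSeries.coeff_C_mul, PowerSeries.coeff_X_pow]
    by_cases h : i = n
    · subst h; simp
    · rw [if_neg h, if_neg (Ne.symm h)]; simp

lemma fin (E O : ℤ[X]) (D m : ℕ) (hE : ∀ j, D < j → E.coeff j = 0)
    (h : (PowerSeries.X : PowerSeries ℚ) ^ m ∣ aeval PowerSeries.X E * S + aeval PowerSeries.X O)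
    (i : ℕ) (hi : i < m) :
    ∑ j ∈ range (D + 1), (E.coeff j : ℚ) * pii i j + (O.coeff i : ℚ) = 0 := by
  have h1 := PowerSeries.X_pow_dvd_iff.mp h i hi
  rw [map_add, coeff_aeval, PowerSeries.coeff_mul, Finset.Nat.sum_antidiagonal_eq_sum_range_succ_mk] at h1
  rw [← h1]
  congr 1
  simp only [coeff_aeval, S, PowerSeries.coeff_mk]
  have e1 : ∑ j ∈ range (D + 1), (E.coeff j : ℚ) * pii i j = ∑ j ∈ range (D + i + 1), (E.coeff j : ℚ) * pii i j := by
    refine Finset.sum_subset (Finset.range_subset_range.mpr (by omega)) fun j _ hj => ?_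
    rw [hE j (by simpa using hj)]; simp
  rw [e1]
  symm
  refine (Finset.sum_congr rfl fun j hj => ?_).trans
    (Finset.sum_subset (Finset.range_subset_range.mpr (by omega)) fun j _ hj => ?_)
  · have : j ≤ i := by simpa [Nat.lt_succ_iff] using hj
    simp [pii, this]
  · have : ¬ j ≤ i := by simpa [Nat.lt_succ_iff] using hj
    simp [pii, this]

lemma dv (N l : ℕ) (hl : l < 36 * N) : (PowerSeries.X : PowerSeries ℚ) ^ (44 * N) ∣
    aeval PowerSeries.X (cE N l) * S + aeval PowerSeries.X (cO N l) := by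
  set ρ : PowerSeries ℚ := (1 - PowerSeries.X ^ 2) * S with hρ
  have h1 : ρ ^ 2 = 1 - PowerSeries.X ^ 2 := by
    rw [hρ]; linear_combination (1 - PowerSeries.X ^ 2) * S_sq
  have h2 : S * ρ = 1 := by rw [hρ]; linear_combination S_sq
  have hd : Nat.dist l (3 * N) ≤ 33 * N := by unfold Nat.dist; omega
  unfold cE cO
  set u := Nat.dist l (3 * N) with hu
  split_ifs with h
  · have e := c1 _ PowerSeries.X (-ρ) (by rw [neg_sq, h1]) u
    have e2 : aeval PowerSeries.X (X ^ (47 * N - u) * ee u) * S +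
        aeval PowerSeries.X (-1 * (X ^ (47 * N - u) * oo u)) =
        PowerSeries.X ^ (47 * N - u) * (1 + -ρ) ^ u * S := by
      rw [e]
      simp only [map_mul, map_pow, aeval_X, map_neg, map_one]
      generalize aeval (PowerSeries.X : PowerSeries ℚ) (ee u) = a
      generalize aeval (PowerSeries.X : PowerSeries ℚ) (oo u) = b
      linear_combination (PowerSeries.X ^ (47 * N - u) * b) * h2
    rw [e2]
    have h3 : (PowerSeries.X : PowerSeries ℚ) ∣ 1 + -ρ := by
      rw [PowerSeries.X_dvd_iff, hρ]; simp [S0]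
    refine Dvd.dvd.mul_right (dvd_trans ?_ (mul_dvd_mul_left _ (pow_dvd_pow_of_dvd h3 u))) _
    rw [← pow_add]
    exact pow_dvd_pow _ (by omega)
  · have : u ≤ 3 * N := by rw [hu]; unfold Nat.dist; omega
    simp only [map_mul, map_pow, aeval_X, map_one, one_mul, mul_assoc, ← mul_add]
    exact Dvd.dvd.mul_right (pow_dvd_pow _ (by omega)) _

end

end ColAux

open ColAux in
theorem col : Col := by
  refine ⟨fun R _ => c1 R, c2, fun N l j hN hl => ⟨cE0 hN hl j, cO0 hN hl j, fun h => ?_, fun h => ?_⟩,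
    fun N k i hk h => ?_, fun N l i hN hl hi => ?_, fun N l i hN hl hi => ?_⟩
  · exact mul0 _ _ _ fun b h1 h2 => cE0 hN hl b (by omega)
  · exact mul0 _ _ _ fun b h1 h2 => cO0 hN hl b (by omega)
  · rw [rowP, coeff_X_pow_mul']
    split_ifs with h1
    · exact om _ _ (by omega)
    · rfl
  · exact fin _ _ _ _ (fun j hj => cE0 hN hl j (Or.inr hj)) (dv N l hl) i hi
  · refine fin _ _ _ (44 * N) (fun j hj => mul0 _ _ _ fun b h1 h2 => cE0 hN hl b (by omega)) ?_ i hi
    simp only [colE, colO, map_mul, mul_assoc, ← mul_add]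
    exact Dvd.dvd.mul_left (dv N l hl) _

end Crest.Agent.R6
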