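import Crest.Agent.R6.Defs

/-! # R6 DET -/

set_option autoImplicit false

open Finset

namespace Crest.Agent.R6

namespace DetAux

variable {p : ℕ} [hp : Fact p.Prime]

theorem norm_prod_le {ι : Type} (s : Finset ι) (x b : ι → ℚ)
    (h : ∀ i ∈ s, padicNorm p (x i) ≤ b i) : padicNorm p (∏ i ∈ s, x i) ≤ ∏ i ∈ s, b i := by
  classical
  induction s using Finset.induction_on with
  | empty => simp
  | insert a s ha ih =>
    rw [prod_insert ha, prod_insert ha, padicNorm.mul]
    have h1 := h a (mem_insert_self _ _)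
    exact mul_le_mul h1 (ih fun i hi => h i (mem_insert_of_mem hi)) (padicNorm.nonneg _)
      ((padicNorm.nonneg _).trans h1)

theorem norm_det_le {n : ℕ} (M : Matrix (Fin n) (Fin n) ℚ) (b : Fin n → ℚ)
    (h : ∀ k l, padicNorm p (M k l) ≤ b k) : padicNorm p M.det ≤ ∏ k, b k := by
  rw [Matrix.det_apply']
  refine padicNorm.sum_le' (fun σ _ => ?_)
    (prod_nonneg fun k _ => (padicNorm.nonneg _).trans (h k k))
  rw [padicNorm.mul, ← Equiv.prod_comp σ b]
  have h1 : padicNorm p (((Equiv.Perm.sign σ : ℤˣ) : ℤ) : ℚ) ≤ 1 := padicNorm.of_int _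
  have h2 := norm_prod_le (p := p) univ (fun i => M (σ i) i) (fun i => b (σ i)) fun i _ => h _ _
  calc _ ≤ 1 * ∏ i, b (σ i) := mul_le_mul h1 h2 (padicNorm.nonneg _) zero_le_one
    _ = _ := one_mul _

theorem det_mul_eq {n : ℕ} {ι : Type} [Fintype ι] [DecidableEq ι] (α : Matrix (Fin n) ι ℚ)
    (β : Matrix ι (Fin n) ℚ) :
    (α * β).det = ∑ κ : Fin n → ι, (∏ k, α k (κ k)) * (Matrix.of fun k l => β (κ k) l).det := by
  have e : α * β = fun k => ∑ i, α k i • β i := by
    ext k l
    simp [Matrix.mul_apply, Finset.sum_apply]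
  have h := (Matrix.detRowAlternating (n := Fin n) (R := ℚ)).toMultilinearMap.map_sum
    (fun k i => α k i • β i)
  rw [e]
  refine h.trans (sum_congr rfl fun κ _ => ?_)
  exact (Matrix.detRowAlternating (n := Fin n) (R := ℚ)).toMultilinearMap.map_smul_univ
    (fun k => α k (κ k)) fun k => β (κ k)

theorem det1 (n : ℕ) (ι : Type) [Fintype ι] [DecidableEq ι]
    (α : Matrix (Fin n) ι ℚ) (β : Matrix ι (Fin n) ℚ) (a : Fin n → ι → ℚ) (b : ι → ℚ) (c : ℚ)
    (hc : 0 ≤ c) (hα : ∀ k i, padicNorm p (α k i) ≤ a k i) (hβ : ∀ i l, padicNorm p (β i l) ≤ b i)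
    (h : ∀ κ : Fin n → ι, Function.Injective κ → ∏ k, (a k (κ k) * b (κ k)) ≤ c) :
    padicNorm p (α * β).det ≤ c := by
  rw [det_mul_eq]
  refine padicNorm.sum_le' (fun κ _ => ?_) hc
  by_cases hκ : Function.Injective κ
  · refine le_trans ?_ (h κ hκ)
    rw [padicNorm.mul, prod_mul_distrib]
    have h1 := norm_prod_le (p := p) univ (fun k => α k (κ k)) (fun k => a k (κ k)) fun k _ => hα _ _
    exact mul_le_mul h1 (norm_det_le _ (fun k => b (κ k)) fun k l => hβ _ _) (padicNorm.nonneg _)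
      ((padicNorm.nonneg _).trans h1)
  · obtain ⟨k, k', h1, h2⟩ := Function.not_injective_iff.1 hκ
    rw [Matrix.det_zero_of_row_eq h2 (by ext l; simp [h1]), mul_zero, padicNorm.zero]
    exact hc

end DetAux

open DetAux in
theorem det_ : Det := by
  refine ⟨fun p _ => det1, fun p hp n ι _ _ R α β e hR hα hβ => ?_⟩
  have hp1 : (1 : ℚ) ≤ p := by exact_mod_cast hp.out.one_lt.le
  have e1 : R + α * β = Matrix.fromCols (1 : Matrix (Fin n) (Fin n) ℚ) α * Matrix.fromRows R β := by
    rw [Matrix.fromCols_mul_fromRows, Matrix.one_mul]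
  rw [e1]
  refine det1 n (Fin n ⊕ ι) _ _ (fun _ _ => 1) (Sum.elim (fun _ => 1) fun i => (p : ℚ) ^ e i) _
    (by positivity) ?_ ?_ fun κ hκ => ?_
  · rintro k (i | i)
    · rw [Matrix.fromCols_apply_inl, Matrix.one_apply]
      split_ifs <;> simp
    · exact hα k i
  · rintro (i | i) l
    · exact hR i l
    · exact hβ i l
  · simp only [one_mul]
    rw [← prod_image (s := univ) (g := κ) (f := Sum.elim (fun _ => (1 : ℚ)) fun i => (p : ℚ) ^ e i)
      fun a _ b _ h => hκ h]
    refine le_trans (prod_le_prod_of_subset_of_one_le (subset_univ _) ?_ ?_) (le_of_eq ?_)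
    · rintro (i | i) _
      · exact zero_le_one
      · exact pow_nonneg (by linarith) _
    · rintro (i | i) _ _
      · exact le_rfl
      · exact one_le_pow₀ hp1
    · rw [Fintype.prod_sum_type]
      simp [prod_pow_eq_pow_sum]

end Crest.Agent.R6
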