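import Crest.Agent.R6.Defs

/-! # Row 6: the energy inequalities `NegDef`, `EL1`, `EL2` -/

set_option autoImplicit false

open Finset Complex

namespace Crest.Agent.R6

theorem negDef : NegDef := by
  intro ι _ q z hz
  have h1 : ∀ a b, HasSum (fun k : ℕ => q a * q b * ((z a * (starRingEnd ℂ) (z b)) ^ k / k).re)
      (q a * q b * -Real.log ‖1 - z a * (starRingEnd ℂ) (z b)‖) := by
    intro a b
    have hn : ‖z a * (starRingEnd ℂ) (z b)‖ < 1 := by
      rw [norm_mul, Complex.norm_conj]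
      exact mul_lt_one_of_nonneg_of_lt_one_left (norm_nonneg _) (hz a) (hz b).le
    have h := Complex.hasSum_re (Complex.hasSum_taylorSeries_neg_log hn)
    rw [Complex.neg_re, Complex.log_re] at h
    exact h.mul_left _
  have h2 := hasSum_sum (s := Finset.univ) fun a _ => hasSum_sum (s := Finset.univ) fun b _ => h1 a b
  have h3 : ∀ k : ℕ, 0 ≤ ∑ a, ∑ b, q a * q b * ((z a * (starRingEnd ℂ) (z b)) ^ k / k).re := by
    intro k
    have h4 : ∑ a, ∑ b, q a * q b * ((z a * (starRingEnd ℂ) (z b)) ^ k / k).re =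
        Complex.normSq (∑ a, (q a : ℂ) * z a ^ k) / k := by
      have h5 : ((Complex.normSq (∑ a, (q a : ℂ) * z a ^ k) : ℝ) : ℂ) =
          ∑ a, ∑ b, (q a : ℂ) * q b * (z a * (starRingEnd ℂ) (z b)) ^ k := by
        rw [← Complex.mul_conj, map_sum, Finset.sum_mul_sum]
        refine Finset.sum_congr rfl fun a _ => Finset.sum_congr rfl fun b _ => ?_
        simp only [map_mul, Complex.conj_ofReal, map_pow]
        ring
      have h6 := congrArg Complex.re h5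
      rw [Complex.ofReal_re] at h6
      rw [h6, Complex.re_sum, Finset.sum_div]
      refine Finset.sum_congr rfl fun a _ => ?_
      rw [Complex.re_sum, Finset.sum_div]
      refine Finset.sum_congr rfl fun b _ => ?_
      rw [Complex.div_natCast_re, ← Complex.ofReal_mul, Complex.re_ofReal_mul]
      ring
    rw [h4]
    exact div_nonneg (Complex.normSq_nonneg _) (Nat.cast_nonneg _)
  have h7 := h2.nonneg h3
  simp only [mul_neg, Finset.sum_neg_distrib] at h7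
  linarith

namespace ELAux

/-- symmetrised kernel -/
noncomputable def Ls (x y : ℂ) : ℝ := Real.log ‖1 - x * (starRingEnd ℂ) y‖ + Real.log ‖1 - x * y‖

theorem norm_conj_conj (x y : ℂ) :
    ‖1 - (starRingEnd ℂ) x * (starRingEnd ℂ) y‖ = ‖1 - x * y‖ := by
  rw [← Complex.norm_conj (1 - x * y)]; simp

theorem norm_conj_swap (x y : ℂ) :
    ‖1 - (starRingEnd ℂ) x * y‖ = ‖1 - x * (starRingEnd ℂ) y‖ := by
  rw [← Complex.norm_conj (1 - x * (starRingEnd ℂ) y)]; simp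

theorem Ls_symm (x y : ℂ) : Ls x y = Ls y x := by
  unfold Ls
  rw [mul_comm y x, ← norm_conj_swap y x, mul_comm x]

theorem negDefS (hN : NegDef) (ι : Type) [Fintype ι] (q : ι → ℝ) (z : ι → ℂ)
    (hz : ∀ a, ‖z a‖ < 1) : ∑ a, ∑ b, q a * q b * Ls (z a) (z b) ≤ 0 := by
  have h := hN (ι ⊕ ι) (Sum.elim q q) (Sum.elim z fun a => (starRingEnd ℂ) (z a)) (by
    rintro (a | a)
    · exact hz a
    · simpa using hz a)
  simp only [Fintype.sum_sum_type, Sum.elim_inl, Sum.elim_inr, Complex.conj_conj,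
    norm_conj_swap, Finset.sum_add_distrib] at h
  simp only [Ls, mul_add, Finset.sum_add_distrib]
  linarith

theorem log_norm_eq (x : ℂ) : Real.log ‖x‖ = Real.log (x.re ^ 2 + x.im ^ 2) / 2 := by
  have : x.re ^ 2 + x.im ^ 2 = ‖x‖ ^ 2 := by
    rw [← Complex.normSq_eq_norm_sq, Complex.normSq_apply]; ring
  rw [this, Real.log_pow]; push_cast; ring

/-- the point of the unit circle above `s` -/
noncomputable def zc (s : ℝ) : ℂ := ⟨s, Real.sqrt (1 - s ^ 2)⟩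

theorem sqrt_sq {s : ℝ} (h : s ∈ Set.Ioo (-1 : ℝ) 1) : Real.sqrt (1 - s ^ 2) ^ 2 = 1 - s ^ 2 :=
  Real.sq_sqrt (by nlinarith [h.1, h.2])

theorem norm_zc {s : ℝ} (h : s ∈ Set.Ioo (-1 : ℝ) 1) : ‖zc s‖ = 1 := by
  have h1 : ‖zc s‖ ^ 2 = 1 := by
    rw [← Complex.normSq_eq_norm_sq, Complex.normSq_apply]
    have := sqrt_sq h
    simp only [zc]; nlinarith
  exact (pow_eq_one_iff_of_nonneg (norm_nonneg _) (by norm_num)).1 h1

theorem zc_mul_conj {s : ℝ} (h : s ∈ Set.Ioo (-1 : ℝ) 1) : zc s * (starRingEnd ℂ) (zc s) = 1 := by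
  rw [Complex.mul_conj, Complex.normSq_eq_norm_sq, norm_zc h]; simp

theorem zc_add_conj (s : ℝ) : zc s + (starRingEnd ℂ) (zc s) = 2 * s := by
  rw [Complex.add_conj]; simp [zc]

/-- `(1 - z conj ξ)(1 - z ξ)` has the norm of `1 - 2 ξ s + ξ²` up to swapping the roles. -/
theorem prod_zc {s : ℝ} (h : s ∈ Set.Ioo (-1 : ℝ) 1) (ξ : ℂ) :
    ‖1 - zc s * (starRingEnd ℂ) ξ‖ * ‖1 - zc s * ξ‖ = ‖1 - 2 * s * ξ + ξ ^ 2‖ := by
  rw [← norm_conj_swap, ← norm_mul]
  congr 1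
  have h1 := zc_mul_conj h
  have h2 := zc_add_conj s
  linear_combination (-ξ) * h2 + ξ ^ 2 * h1

theorem prod_zc_zc {s t : ℝ} (h : s ∈ Set.Ioo (-1 : ℝ) 1) (ht : t ∈ Set.Ioo (-1 : ℝ) 1) :
    ‖1 - zc s * (starRingEnd ℂ) (zc t)‖ * ‖1 - zc s * zc t‖ = 2 * |s - t| := by
  rw [prod_zc h]
  have h1 := zc_mul_conj ht
  have h2 := zc_add_conj t
  have h3 : 1 - 2 * (s : ℂ) * zc t + zc t ^ 2 = zc t * ((2 * (t - s) : ℝ) : ℂ) := by
    push_cast
    linear_combination (zc t) * h2 - h1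
  rw [h3, norm_mul, norm_zc ht, Complex.norm_real, Real.norm_eq_abs, one_mul, abs_mul,
    abs_sub_comm]
  norm_num

theorem one_sub_le_norm (x : ℂ) : 1 - ‖x‖ ≤ ‖1 - x‖ := by
  have := norm_sub_norm_le (1 : ℂ) x
  simpa using this

/-- shrinking a point of the unit circle -/
theorem log_circle_le {x : ℂ} (hx : ‖x‖ = 1) (hx0 : ‖1 - x‖ ≠ 0) {ρ : ℝ} (h1 : 1 / 4 ≤ ρ)
    (h2 : ρ ≤ 1) : Real.log ‖1 - x‖ ≤ Real.log ‖1 - ρ * x‖ + 2 * (1 - ρ) := by
  have hρ : 0 < ρ := by linarith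
  have hpos : 0 < ‖1 - x‖ := lt_of_le_of_ne (norm_nonneg _) (Ne.symm hx0)
  have hsq : x.re ^ 2 + x.im ^ 2 = 1 := by
    have : ‖x‖ ^ 2 = 1 := by rw [hx]; norm_num
    rw [← Complex.normSq_eq_norm_sq, Complex.normSq_apply] at this
    nlinarith
  have h3 : ρ * ‖1 - x‖ ^ 2 ≤ ‖1 - ρ * x‖ ^ 2 := by
    rw [← Complex.normSq_eq_norm_sq, ← Complex.normSq_eq_norm_sq, Complex.normSq_apply,
      Complex.normSq_apply]
    simp only [Complex.sub_re, Complex.one_re, Complex.sub_im, Complex.one_im, Complex.mul_re,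
      Complex.ofReal_re, Complex.ofReal_im, Complex.mul_im]
    nlinarith [sq_nonneg (1 - ρ)]
  have h4 := Real.log_le_log (by positivity) h3
  rw [Real.log_mul hρ.ne' (by positivity), Real.log_pow, Real.log_pow] at h4
  have h5 : -Real.log ρ ≤ 4 * (1 - ρ) := by
    have h6 := Real.log_le_sub_one_of_pos (inv_pos.2 hρ)
    rw [Real.log_inv] at h6
    have h7 : ρ⁻¹ - 1 = (1 - ρ) * ρ⁻¹ := by field_simp
    have h8 : ρ⁻¹ ≤ 4 := by rw [inv_le_comm₀ hρ (by norm_num)]; linarith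
    nlinarith
  push_cast at h4
  linarith

theorem log_sub_log_le {a b m e : ℝ} (hm : 0 < m) (ha : 0 < a) (hb : m ≤ b) (he : 0 ≤ e)
    (hab : a ≤ b + e) : Real.log a - Real.log b ≤ e / m := by
  have hb0 : 0 < b := by linarith
  rw [← Real.log_div ha.ne' hb0.ne']
  refine (Real.log_le_sub_one_of_pos (by positivity)).trans ?_
  have h1 : a / b - 1 ≤ e / b := by
    rw [sub_le_iff_le_add, div_le_iff₀ hb0]
    have : (e / b + 1) * b = b + e := by field_simp; ring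
    linarith
  exact h1.trans (by gcongr)

theorem norm_shrink {x : ℂ} (hx : ‖x‖ ≤ 1) {ρ : ℝ} (h2 : ρ ≤ 1) :
    ‖1 - ρ * x‖ ≤ ‖1 - x‖ + (1 - ρ) ∧ ‖1 - x‖ ≤ ‖1 - ρ * x‖ + (1 - ρ) := by
  have h1 : ‖((1 - ρ : ℝ) : ℂ) * x‖ ≤ 1 - ρ := by
    rw [norm_mul, Complex.norm_real, Real.norm_eq_abs, abs_of_nonneg (by linarith)]
    exact mul_le_of_le_one_right (by linarith) hx
  constructor
  · have : (1 : ℂ) - ρ * x = (1 - x) + ((1 - ρ : ℝ) : ℂ) * x := by push_cast; ring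
    rw [this]
    exact (norm_add_le _ _).trans (by linarith)
  · have : (1 : ℂ) - x = (1 - ρ * x) - ((1 - ρ : ℝ) : ℂ) * x := by push_cast; ring
    rw [this]
    exact (norm_sub_le _ _).trans (by linarith)

/-- shrinking inside the disc -/
theorem abs_log_shrink {x : ℂ} {r : ℝ} (hx : ‖x‖ ≤ r) (hr : r < 1) {ρ : ℝ} (h1 : 0 ≤ ρ)
    (h2 : ρ ≤ 1) : |Real.log ‖1 - ρ * x‖ - Real.log ‖1 - x‖| ≤ (1 - ρ) / (1 - r) := by
  have hm : 0 < 1 - r := by linarith
  have ha : 1 - r ≤ ‖1 - x‖ := le_trans (by linarith) (one_sub_le_norm x)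
  have hb : 1 - r ≤ ‖1 - ρ * x‖ := by
    refine le_trans ?_ (one_sub_le_norm _)
    rw [norm_mul, Complex.norm_real, Real.norm_eq_abs, abs_of_nonneg h1]
    have := mul_le_of_le_one_left (norm_nonneg x) h2
    linarith
  obtain ⟨h3, h4⟩ := norm_shrink (hx.trans hr.le) h2
  rw [abs_le]
  constructor
  · have := log_sub_log_le hm (by linarith) hb (by linarith) h4
    linarith
  · exact log_sub_log_le hm (by linarith) ha (by linarith) h3

/-- the points of a trial measure -/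
def xi (T : Trial) (a : Fin T.m) : ℂ := ⟨T.x a, T.y a⟩

theorem norm_xi (T : Trial) (a : Fin T.m) : ‖xi T a‖ < 1 := by
  have h : ‖xi T a‖ ^ 2 < 1 := by
    rw [← Complex.normSq_eq_norm_sq, Complex.normSq_apply]
    have := T.inside a
    simp only [xi]; nlinarith
  exact (pow_lt_one_iff_of_nonneg (norm_nonneg _) (by norm_num)).1 h

theorem Ls_xi_xi (T : Trial) (a b : Fin T.m) :
    Ls (xi T a) (xi T b) = 2 * lL (T.x a) (T.y a) (T.x b) (T.y b) := by
  unfold Ls lL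
  rw [log_norm_eq, log_norm_eq]
  simp only [xi, Complex.sub_re, Complex.one_re, Complex.sub_im, Complex.one_im, Complex.mul_re,
    Complex.mul_im, Complex.conj_re, Complex.conj_im]
  have e1 : (1 - (T.x a * T.x b - T.y a * -T.y b)) ^ 2 + (0 - (T.x a * -T.y b + T.y a * T.x b)) ^ 2 =
      (1 - T.x a * T.x b - T.y a * T.y b) ^ 2 + (T.y a * T.x b - T.x a * T.y b) ^ 2 := by ring
  have e2 : (1 - (T.x a * T.x b - T.y a * T.y b)) ^ 2 + (0 - (T.x a * T.y b + T.y a * T.x b)) ^ 2 =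
      (1 - T.x a * T.x b + T.y a * T.y b) ^ 2 + (T.x a * T.y b + T.y a * T.x b) ^ 2 := by ring
  rw [e1, e2]; ring

theorem Ls_real_xi (T : Trial) (a : Fin T.m) (w : ℝ) :
    Ls (w : ℂ) (xi T a) = lp (T.x a) (T.y a) w := by
  unfold Ls lp
  rw [← norm_conj_swap, Complex.conj_ofReal, log_norm_eq]
  simp only [xi, Complex.sub_re, Complex.one_re, Complex.sub_im, Complex.one_im, Complex.mul_re,
    Complex.mul_im, Complex.ofReal_re, Complex.ofReal_im]
  have e1 : (1 - (w * T.x a - 0 * T.y a)) ^ 2 + (0 - (w * T.y a + 0 * T.x a)) ^ 2 =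
      1 - 2 * T.x a * w + (T.x a ^ 2 + T.y a ^ 2) * w ^ 2 := by ring
  rw [e1]; ring

theorem Ls_real_real {w v : ℝ} (hw : w ∈ Set.Ioo (-1 : ℝ) 1) (hv : v ∈ Set.Ioo (-1 : ℝ) 1) :
    Ls (w : ℂ) (v : ℂ) = 2 * Real.log (1 - w * v) := by
  unfold Ls
  rw [Complex.conj_ofReal]
  have : ‖1 - (w : ℂ) * v‖ = 1 - w * v := by
    rw [show (1 : ℂ) - (w : ℂ) * v = ((1 - w * v : ℝ) : ℂ) by push_cast; ring, Complex.norm_real,
      Real.norm_eq_abs, abs_of_nonneg]
    nlinarith [hw.1, hw.2, hv.1, hv.2]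
  rw [this]; ring

theorem Ls_zc_xi (T : Trial) (a : Fin T.m) {s : ℝ} (h : s ∈ Set.Ioo (-1 : ℝ) 1) :
    2 * Ls (zc s) (xi T a) = lq (T.x a) (T.y a) s := by
  unfold Ls lq
  have hx := norm_xi T a
  have h1 : ‖1 - zc s * (starRingEnd ℂ) (xi T a)‖ ≠ 0 := by
    have := one_sub_le_norm (zc s * (starRingEnd ℂ) (xi T a))
    rw [norm_mul, norm_zc h, Complex.norm_conj] at this
    linarith
  have h2 : ‖1 - zc s * xi T a‖ ≠ 0 := by
    have := one_sub_le_norm (zc s * xi T a)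
    rw [norm_mul, norm_zc h] at this
    linarith
  rw [← Real.log_mul h1 h2, prod_zc h, log_norm_eq]
  have e1 : (1 - 2 * (s : ℂ) * xi T a + xi T a ^ 2).re = 1 - 2 * T.x a * s + T.x a ^ 2 - T.y a ^ 2 := by
    simp [xi, pow_two]; ring
  have e2 : (1 - 2 * (s : ℂ) * xi T a + xi T a ^ 2).im = 2 * T.x a * T.y a - 2 * T.y a * s := by
    simp [xi, pow_two]; ring
  rw [e1, e2]; ring

/-- the constant of a trial measure -/
noncomputable def cT (T : Trial) : ℝ := ∑ a, |T.α a| * (2 / (1 - ‖xi T a‖))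

theorem cT_nonneg (T : Trial) : 0 ≤ cT T :=
  Finset.sum_nonneg fun a _ => mul_nonneg (abs_nonneg _)
    (div_nonneg (by norm_num) (by linarith [norm_xi T a]))

theorem U_close (T : Trial) {s ρ N : ℝ} (h : s ∈ Set.Ioo (-1 : ℝ) 1) (hN : 0 < N) (h0 : 0 ≤ ρ)
    (h1 : ρ ≤ 1) (h2 : 1 - ρ ≤ 1 / (2 * N)) :
    2 * N * ∑ a, T.α a * Ls (ρ * zc s) (xi T a) ≤ N * T.U s + cT T := by
  unfold Trial.U cT
  rw [Finset.mul_sum, Finset.mul_sum, ← Finset.sum_add_distrib]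
  refine Finset.sum_le_sum fun a _ => ?_
  rw [← Ls_zc_xi T a h]
  have hx := norm_xi T a
  have e1 := abs_log_shrink (x := zc s * (starRingEnd ℂ) (xi T a)) (r := ‖xi T a‖)
    (by rw [norm_mul, norm_zc h, Complex.norm_conj, one_mul]) hx h0 h1
  have e2 := abs_log_shrink (x := zc s * xi T a) (r := ‖xi T a‖)
    (by rw [norm_mul, norm_zc h, one_mul]) hx h0 h1
  have hm : 0 < 1 - ‖xi T a‖ := by linarith
  have e3 : (1 - ρ) / (1 - ‖xi T a‖) ≤ 1 / (2 * N) / (1 - ‖xi T a‖) := by gcongr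
  have e4 : |Ls (ρ * zc s) (xi T a) - Ls (zc s) (xi T a)| ≤ 2 * (1 / (2 * N) / (1 - ‖xi T a‖)) := by
    unfold Ls
    rw [mul_assoc, mul_assoc]
    have := abs_add_le (Real.log ‖1 - ρ * (zc s * (starRingEnd ℂ) (xi T a))‖ -
      Real.log ‖1 - zc s * (starRingEnd ℂ) (xi T a)‖)
      (Real.log ‖1 - ρ * (zc s * xi T a)‖ - Real.log ‖1 - zc s * xi T a‖)
    refine le_trans (le_of_eq ?_) (this.trans (by linarith))
    congr 1; ring
  have e5 : T.α a * (Ls (ρ * zc s) (xi T a) - Ls (zc s) (xi T a)) ≤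
      |T.α a| * (2 * (1 / (2 * N) / (1 - ‖xi T a‖))) := by
    refine (le_abs_self _).trans ?_
    rw [abs_mul]
    gcongr
  have e6 : 2 * N * (|T.α a| * (2 * (1 / (2 * N) / (1 - ‖xi T a‖)))) =
      |T.α a| * (2 / (1 - ‖xi T a‖)) := by field_simp
  have e7 := mul_le_mul_of_nonneg_left e5 (show 0 ≤ 2 * N by positivity)
  linarith

theorem norm_shr {s ρ : ℝ} (h : s ∈ Set.Ioo (-1 : ℝ) 1) (h0 : 0 ≤ ρ) : ‖(ρ : ℂ) * zc s‖ = ρ := by
  rw [norm_mul, norm_zc h, Complex.norm_real, Real.norm_eq_abs, abs_of_nonneg h0, mul_one]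

theorem offdiag {s t ρ ρ' N : ℝ} (h : s ∈ Set.Ioo (-1 : ℝ) 1) (ht : t ∈ Set.Ioo (-1 : ℝ) 1)
    (hst : s ≠ t) (hN : 1 ≤ N) (h1 : ρ ≤ 1) (h2 : 1 - ρ ≤ 1 / (2 * N)) (h1' : ρ' ≤ 1)
    (h2' : 1 - ρ' ≤ 1 / (2 * N)) :
    Real.log (2 * |s - t|) ≤ Ls (ρ * zc s) (ρ' * zc t) + 4 / N := by
  have hN0 : 0 < N := by linarith
  have hh : 1 / (2 * N) ≤ 1 / 2 := by gcongr; linarith
  have hp := prod_zc_zc h ht
  have hpos : 0 < 2 * |s - t| := by have := abs_pos.2 (sub_ne_zero.2 hst); linarith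
  have n1 : ‖1 - zc s * (starRingEnd ℂ) (zc t)‖ ≠ 0 := fun h0 => by rw [h0] at hp; linarith
  have n2 : ‖1 - zc s * zc t‖ ≠ 0 := fun h0 => by rw [h0] at hp; linarith
  have r1 : 1 / 4 ≤ ρ * ρ' := by nlinarith
  have r2 : ρ * ρ' ≤ 1 := by nlinarith
  have r3 : 1 - ρ * ρ' ≤ 1 / N := by
    have : 1 / N = 1 / (2 * N) + 1 / (2 * N) := by field_simp; ring
    nlinarith
  have e1 := log_circle_le (x := zc s * (starRingEnd ℂ) (zc t))
    (by rw [norm_mul, norm_zc h, Complex.norm_conj, norm_zc ht, one_mul]) n1 r1 r2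
  have e2 := log_circle_le (x := zc s * zc t)
    (by rw [norm_mul, norm_zc h, norm_zc ht, one_mul]) n2 r1 r2
  rw [← hp, Real.log_mul n1 n2]
  unfold Ls
  have f1 : (ρ : ℂ) * zc s * (starRingEnd ℂ) (ρ' * zc t) =
      ((ρ * ρ' : ℝ) : ℂ) * (zc s * (starRingEnd ℂ) (zc t)) := by
    simp only [map_mul, Complex.conj_ofReal]; push_cast; ring
  have f2 : (ρ : ℂ) * zc s * (ρ' * zc t) = ((ρ * ρ' : ℝ) : ℂ) * (zc s * zc t) := by
    push_cast; ring
  rw [f1, f2]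
  have : 4 / N = 4 * (1 / N) := by ring
  linarith

theorem diag {s ρ : ℝ} (h : s ∈ Set.Ioo (-1 : ℝ) 1) (h0 : 0 ≤ ρ) (h1 : ρ < 1) :
    2 * Real.log (1 - ρ) ≤ Ls (ρ * zc s) (ρ * zc s) := by
  have key : ∀ x : ℂ, ‖x‖ = ρ * ρ → Real.log (1 - ρ) ≤ Real.log ‖1 - x‖ := by
    intro x hx
    refine Real.log_le_log (by linarith) (le_trans ?_ (one_sub_le_norm x))
    rw [hx]; nlinarith
  have e1 := key ((ρ : ℂ) * zc s * (starRingEnd ℂ) (ρ * zc s))
    (by rw [norm_mul, Complex.norm_conj, norm_shr h h0])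
  have e2 := key ((ρ : ℂ) * zc s * (ρ * zc s)) (by rw [norm_mul, norm_shr h h0])
  unfold Ls
  linarith

/-- The common core of `EL1` and `EL2`. -/
theorem core (hN : NegDef) (T : Trial) {n n' : ℕ} (N : ℝ) (hN1 : 1 ≤ N) (s ρ : Fin n → ℝ)
    (w : Fin n' → ℝ) (hs : ∀ i, s i ∈ Set.Ioo (-1 : ℝ) 1) (hw : ∀ j, w j ∈ Set.Ioo (-1 : ℝ) 1)
    (hinj : Function.Injective s) (h1 : ∀ i, ρ i < 1) (h2 : ∀ i, 1 - ρ i ≤ 1 / (2 * N)) :
    ∑ i, ∑ k ∈ univ.erase i, Real.log (2 * |s i - s k|) + 2 * ∑ i, Real.log (1 - ρ i) -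
        ∑ i, ∑ j, Ls (ρ i * zc (s i)) (w j) + 1 / 2 * ∑ j, ∑ l, Real.log (1 - w j * w l) ≤
      N * ∑ i, T.U (s i) - N * ∑ j, T.V (w j) - 2 * N ^ 2 * T.Q + n * (n * (4 / N)) + n * cT T := by
  have hN0 : 0 < N := by linarith
  have hh : 1 / (2 * N) ≤ 1 / 2 := by gcongr; linarith
  have h0 : ∀ i, 0 ≤ ρ i := fun i => by linarith [h2 i]
  have h := negDefS hN (Fin n ⊕ Fin n' ⊕ Fin T.m)
    (Sum.elim (fun _ => 1) (Sum.elim (fun _ => -1 / 2) fun a => -N * T.α a))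
    (Sum.elim (fun i => ρ i * zc (s i)) (Sum.elim (fun j => (w j : ℂ)) (xi T))) (by
      rintro (i | j | a)
      · simpa only [Sum.elim_inl, norm_shr (hs i) (h0 i)] using h1 i
      · simp only [Sum.elim_inr, Sum.elim_inl, Complex.norm_real, Real.norm_eq_abs]
        exact abs_lt.2 (hw j)
      · exact norm_xi T a)
  simp only [Fintype.sum_sum_type, Sum.elim_inl, Sum.elim_inr, Finset.sum_add_distrib] at h
  -- the nine blocks
  have bAA : ∑ i, ∑ k ∈ univ.erase i, Real.log (2 * |s i - s k|) + 2 * ∑ i, Real.log (1 - ρ i) ≤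
      ∑ i, ∑ k, (1 : ℝ) * 1 * Ls (ρ i * zc (s i)) (ρ k * zc (s k)) + n * (n * (4 / N)) := by
    have : (n : ℝ) * (n * (4 / N)) = ∑ _i : Fin n, n * (4 / N) := by simp
    rw [this, Finset.mul_sum, ← Finset.sum_add_distrib, ← Finset.sum_add_distrib]
    refine Finset.sum_le_sum fun i _ => ?_
    rw [← Finset.add_sum_erase _ _ (Finset.mem_univ i)]
    have e1 := diag (hs i) (h0 i) (h1 i)
    have e2 : ∑ k ∈ univ.erase i, Real.log (2 * |s i - s k|) ≤
        ∑ k ∈ univ.erase i, (1 * 1 * Ls (ρ i * zc (s i)) (ρ k * zc (s k)) + 4 / N) :=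
      Finset.sum_le_sum fun k hk => by
        have := offdiag (hs i) (hs k) (fun h => (Finset.mem_erase.1 hk).1 (hinj h).symm) hN1
          (h1 i).le (h2 i) (h1 k).le (h2 k)
        linarith
    rw [Finset.sum_add_distrib, Finset.sum_const, nsmul_eq_mul] at e2
    have e3 : ((univ.erase i).card : ℝ) ≤ n := by
      have : (univ.erase i).card ≤ n := by
        simpa using Finset.card_le_univ (univ.erase i)
      exact_mod_cast this
    have e4 : ((univ.erase i).card : ℝ) * (4 / N) ≤ n * (4 / N) := by gcongr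
    linarith
  have bAB : ∑ i, ∑ j, (1 : ℝ) * (-1 / 2) * Ls (ρ i * zc (s i)) (w j) =
      -1 / 2 * ∑ i, ∑ j, Ls (ρ i * zc (s i)) (w j) := by
    simp only [Finset.mul_sum, one_mul]
  have bBA : ∑ j, ∑ i, (-1 / 2 : ℝ) * 1 * Ls (w j) (ρ i * zc (s i)) =
      -1 / 2 * ∑ i, ∑ j, Ls (ρ i * zc (s i)) (w j) := by
    rw [Finset.sum_comm]
    simp only [Finset.mul_sum, mul_one, Ls_symm (w _ : ℂ)]
  have bAC : ∑ i, ∑ a, (1 : ℝ) * (-N * T.α a) * Ls (ρ i * zc (s i)) (xi T a) =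
      -N * ∑ i, ∑ a, T.α a * Ls (ρ i * zc (s i)) (xi T a) := by
    simp only [Finset.mul_sum, one_mul, mul_assoc]
  have bCA : ∑ a, ∑ i, (-N * T.α a) * 1 * Ls (xi T a) (ρ i * zc (s i)) =
      -N * ∑ i, ∑ a, T.α a * Ls (ρ i * zc (s i)) (xi T a) := by
    rw [Finset.sum_comm]
    simp only [Finset.mul_sum, mul_one, mul_assoc, Ls_symm (xi T _)]
  have bBB : ∑ j, ∑ l, (-1 / 2 : ℝ) * (-1 / 2) * Ls (w j) (w l) =
      1 / 2 * ∑ j, ∑ l, Real.log (1 - w j * w l) := by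
    simp only [Finset.mul_sum]
    refine Finset.sum_congr rfl fun j _ => Finset.sum_congr rfl fun l _ => ?_
    rw [Ls_real_real (hw j) (hw l)]; ring
  have bBC : ∑ j, ∑ a, (-1 / 2 : ℝ) * (-N * T.α a) * Ls (w j) (xi T a) =
      N / 2 * ∑ j, T.V (w j) := by
    simp only [Trial.V, Finset.mul_sum]
    refine Finset.sum_congr rfl fun j _ => Finset.sum_congr rfl fun a _ => ?_
    rw [Ls_real_xi]; ring
  have bCB : ∑ a, ∑ j, (-N * T.α a) * (-1 / 2 : ℝ) * Ls (xi T a) (w j) =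
      N / 2 * ∑ j, T.V (w j) := by
    rw [Finset.sum_comm]
    simp only [Trial.V, Finset.mul_sum]
    refine Finset.sum_congr rfl fun j _ => Finset.sum_congr rfl fun a _ => ?_
    rw [Ls_symm, Ls_real_xi]; ring
  have bCC : ∑ a, ∑ b, (-N * T.α a) * (-N * T.α b) * Ls (xi T a) (xi T b) = 2 * N ^ 2 * T.Q := by
    simp only [Trial.Q, Finset.mul_sum]
    refine Finset.sum_congr rfl fun a _ => Finset.sum_congr rfl fun b _ => ?_
    rw [Ls_xi_xi]; ring
  have bU : 2 * N * ∑ i, ∑ a, T.α a * Ls (ρ i * zc (s i)) (xi T a) ≤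
      N * ∑ i, T.U (s i) + n * cT T := by
    have : (n : ℝ) * cT T = ∑ _i : Fin n, cT T := by simp
    rw [this, Finset.mul_sum, Finset.mul_sum, ← Finset.sum_add_distrib]
    exact Finset.sum_le_sum fun i _ => U_close T (hs i) hN0 (h0 i) (h1 i).le (h2 i)
  rw [bAB, bBA, bAC, bCA, bBB, bBC, bCB, bCC] at h
  linarith

theorem err_le {N : ℕ} (hN : 1 ≤ N) {c : ℝ} (hc : 0 ≤ c) :
    72 * (N : ℝ) * Real.log (2 * N) + c * N ≤ (144 + 2 * c) * N * Real.log (N + 1) := by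
  have hN' : (1 : ℝ) ≤ N := by exact_mod_cast hN
  have h1 : Real.log (2 * N) ≤ 2 * Real.log (N + 1) := by
    have : Real.log (((N : ℝ) + 1) ^ 2) = 2 * Real.log (N + 1) := by
      rw [Real.log_pow]; norm_num
    rw [← this]
    exact Real.log_le_log (by positivity) (by nlinarith)
  have h2 : 1 / 2 ≤ Real.log (N + 1) :=
    le_trans (by have := Real.log_two_gt_d9; linarith) (Real.log_le_log (by norm_num) (by linarith) :
      Real.log 2 ≤ Real.log (N + 1))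
  have h3 : 72 * (N : ℝ) * Real.log (2 * N) ≤ 72 * N * (2 * Real.log (N + 1)) := by gcongr
  have h4 : c * N * (1 / 2) ≤ c * N * Real.log (N + 1) := by gcongr
  nlinarith

end ELAux

open ELAux

theorem el2 (hN : NegDef) : EL2 := by
  intro T
  refine ⟨144 + 2 * (36 * 36 * 4 + 36 * cT T), fun N w hN1 hw hinj => ?_⟩
  have hN' : (1 : ℝ) ≤ N := by exact_mod_cast hN1
  have hpos : 0 < 1 / (2 * (N : ℝ)) := by positivity
  have h := core hN T (n' := 0) (N : ℝ) hN' w (fun _ => 1 - 1 / (2 * N)) (fun j => j.elim0) hw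
    (fun j => j.elim0) hinj (fun _ => by linarith) (fun _ => by linarith)
  have hc := cT_nonneg T
  have he := err_le hN1 (c := 36 * 36 * 4 + 36 * cT T) (by positivity)
  simp only [Finset.univ_eq_empty, Finset.sum_empty, Finset.sum_const_zero, sub_sub_cancel,
    Finset.sum_const, Finset.card_univ, Fintype.card_fin, nsmul_eq_mul] at h
  rw [one_div, Real.log_inv] at h
  push_cast at h
  have e1 : (36 * N : ℝ) * (36 * N * (4 / N)) = 36 * 36 * 4 * N := by field_simp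
  rw [e1] at h
  linarith

theorem el1 (hN : NegDef) : EL1 := by
  intro T
  refine ⟨144 + 2 * (36 * 36 * 5 + 36 * cT T), fun N s w hN1 hs hw hinj => ?_⟩
  have hN' : (1 : ℝ) ≤ N := by exact_mod_cast hN1
  have hN0 : (0 : ℝ) < N := by linarith
  have hs' : ∀ i, s i ∈ Set.Ioo (-1 : ℝ) 1 := fun i => ⟨by linarith [(hs i).1], (hs i).2⟩
  have hq : ∀ i, 0 < 1 - s i ^ 2 := fun i => by nlinarith [(hs i).1, (hs i).2]
  have hσ0 : ∀ i, 0 < Real.sqrt (1 - s i ^ 2) := fun i => Real.sqrt_pos.2 (hq i)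
  have hσ1 : ∀ i, Real.sqrt (1 - s i ^ 2) ≤ 1 := fun i =>
    Real.sqrt_le_one.2 (by nlinarith [sq_nonneg (s i)])
  have hd : ∀ i, Real.sqrt (1 - s i ^ 2) / (2 * N) ≤ 1 / (2 * N) := fun i => by
    gcongr; exact hσ1 i
  have hd0 : ∀ i, 0 < Real.sqrt (1 - s i ^ 2) / (2 * N) := fun i => by
    have := hσ0 i; positivity
  have hh : 1 / (2 * (N : ℝ)) ≤ 1 / 2 := by gcongr; linarith
  have h := core hN T (N : ℝ) hN' s (fun i => 1 - Real.sqrt (1 - s i ^ 2) / (2 * N)) w hs' hw hinj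
    (fun i => by linarith [hd0 i]) (fun i => by linarith [hd i])
  have hc := cT_nonneg T
  have he := err_le hN1 (c := 36 * 36 * 5 + 36 * cT T) (by positivity)
  have e0 : 2 * ∑ i, Real.log (1 - (1 - Real.sqrt (1 - s i ^ 2) / (2 * N))) =
      ∑ i, Real.log (1 - s i ^ 2) - 72 * N * Real.log (2 * N) := by
    have : 72 * (N : ℝ) * Real.log (2 * N) = ∑ _i : Fin (36 * N), 2 * Real.log (2 * N) := by
      simp; ring
    rw [this, Finset.mul_sum, ← Finset.sum_sub_distrib]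
    refine Finset.sum_congr rfl fun i _ => ?_
    rw [sub_sub_cancel, Real.log_div (hσ0 i).ne' (by positivity), Real.log_sqrt (hq i).le]
    ring
  have e2 : ∑ j, ∑ l, Real.log (1 - w j * w l) =
      ∑ j, ∑ l ∈ univ.erase j, Real.log (1 - w j * w l) + ∑ j, Real.log (1 - w j ^ 2) := by
    rw [← Finset.sum_add_distrib]
    refine Finset.sum_congr rfl fun j _ => ?_
    rw [← Finset.add_sum_erase _ _ (Finset.mem_univ j), pow_two]; ring
  have e3 : ∑ i, ∑ j, Ls (((1 - Real.sqrt (1 - s i ^ 2) / (2 * N) : ℝ) : ℂ) * zc (s i)) (w j) ≤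
      ∑ i, ∑ j, Real.log (1 - 2 * s i * w j + w j ^ 2) + 36 * 36 * N := by
    have : 36 * 36 * (N : ℝ) = ∑ _i : Fin (36 * N), ∑ _j : Fin (36 * N), (1 : ℝ) / N := by
      simp; field_simp
    rw [this, ← Finset.sum_add_distrib]
    refine Finset.sum_le_sum fun i _ => ?_
    rw [← Finset.sum_add_distrib]
    refine Finset.sum_le_sum fun j _ => ?_
    set ρ : ℝ := 1 - Real.sqrt (1 - s i ^ 2) / (2 * N) with hρ
    have hx : ‖zc (s i) * (w j : ℂ)‖ < 1 := by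
      rw [norm_mul, norm_zc (hs' i), one_mul, Complex.norm_real, Real.norm_eq_abs]
      exact abs_lt.2 (hw j)
    have hsq : ‖1 - zc (s i) * (w j : ℂ)‖ ^ 2 = 1 - 2 * s i * w j + w j ^ 2 := by
      rw [← Complex.normSq_eq_norm_sq, Complex.normSq_apply]
      have := ELAux.sqrt_sq (hs' i)
      simp only [zc, Complex.sub_re, Complex.one_re, Complex.sub_im, Complex.one_im, Complex.mul_re,
        Complex.ofReal_re, Complex.ofReal_im, Complex.mul_im]
      nlinarith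
    have hge : Real.sqrt (1 - s i ^ 2) ≤ ‖1 - zc (s i) * (w j : ℂ)‖ := by
      rw [Real.sqrt_le_left (norm_nonneg _), hsq]
      nlinarith [sq_nonneg (w j - s i)]
    have hρ1 : ρ ≤ 1 := by linarith [hd0 i]
    have hρ0 : 0 ≤ ρ := by linarith [hd i]
    have ha : 0 < ‖1 - ρ * (zc (s i) * (w j : ℂ))‖ := by
      refine lt_of_lt_of_le ?_ (one_sub_le_norm _)
      rw [norm_mul, Complex.norm_real, Real.norm_eq_abs, abs_of_nonneg hρ0]
      have := mul_le_of_le_one_left (norm_nonneg (zc (s i) * (w j : ℂ))) hρ1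
      linarith
    have hl := log_sub_log_le (hσ0 i) ha hge (by linarith) (norm_shrink hx.le hρ1).1
    have hr : (1 - ρ) / Real.sqrt (1 - s i ^ 2) = 1 / (2 * N) := by
      rw [hρ]; have := (hσ0 i).ne'; field_simp; ring
    rw [hr] at hl
    unfold Ls
    rw [Complex.conj_ofReal, mul_assoc, ← hsq, Real.log_pow]
    have : 1 / (N : ℝ) = 2 * (1 / (2 * N)) := by field_simp
    push_cast
    linarith
  have e1 : ((36 * N : ℕ) : ℝ) * (((36 * N : ℕ) : ℝ) * (4 / N)) = 36 * 36 * 4 * N := by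
    push_cast; field_simp
  rw [e0, e1, e2] at h
  push_cast at h e3
  linarith

end Crest.Agent.R6
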