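import Crest.Agent.R6.LevelA

/-! # R6 LEVELB -/

set_option autoImplicit false

open Finset Polynomial

namespace Crest.Agent.R6

namespace Lv

variable {p : ℕ} [hp : Fact p.Prime]

theorem Bi_nm2 (hV : Val) (h2 : p ≠ 2) {G : ℚ} (hG : padicNorm p G ≤ 1) {N i : ℕ}
    (hN : 49 * N < p * p) (hi : i ≤ 49 * N) (l : ℕ) : Nm p 2 (Bi N G i l) := by
  have hl : 2 * Nat.log p (49 * N) ≤ 2 := by
    have := log_le_one (p := p) hN
    omega
  refine Nm.sum fun j hj => ?_
  have hj' := mem_range.1 hj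
  have h := (hV p h2).2.2.1 i j (49 * N) hi (by omega)
  refine ((Nm.int _).mul0 ((Nm.mono h.2.2.1 hl).add (Nm.mono (e := 0) ?_ (Nat.zero_le 2)))).add
    (((Nm.three_half h2).mul0 (Nm.int _)).mul0 (Nm.mono h.2.2.2 hl))
  refine ((Nm.nat 4).mul0 (Nm.of_le_one hG)).mul0 ?_
  unfold gam
  split_ifs
  · exact Nm.of_le_one ((hV p h2).1 _)
  · exact Nm.zero _

theorem Bi_pair (hR : Rec) (hC : Col) (hV : Val) (h2 : p ≠ 2) {G : ℚ} (hG : padicNorm p G ≤ 1)
    {N r l : ℕ} (hN : 1 ≤ N) (hl : l < 36 * N) (hp14 : 14 * N < p) (hNp : 49 * N < p * p)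
    (hr : r ≤ 14 * N) (hr2 : 49 * N ≤ r + 2 * p) : Nm p 1 (Bi N G r l + Bi N G (r + p) l) := by
  have hmem : r + 1 ∈ Icc 1 (r + p) := mem_Icc.2 ⟨by omega, by omega⟩
  rw [Bi_eq hR, Bi_eq hR, ← add_sum_erase _ _ hmem]
  have e1 : r + p + 1 - (r + 1) = p := by omega
  rw [e1]
  have h1 := TT_mu hC hV h2 hN hl (show r < p by omega) hr2
  have h3 := (TT_nm0 hC hV h2 (i := r + p) hN hl (by omega) (by omega)).mono (Nat.zero_le 1)
  have h4 : Nm p 1 (∑ a ∈ Icc 1 r, mu N l a / ((r + 1 - a : ℕ) : ℚ)) := Nm.sum fun a ha => by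
    have := mem_Icc.1 ha
    exact (mu_nm hV h2 hNp this.1 l).div_lt (by omega) (by omega)
  have h5 : Nm p 1 (∑ a ∈ (Icc 1 (r + p)).erase (r + 1), mu N l a / ((r + p + 1 - a : ℕ) : ℚ)) :=
    Nm.sum fun a ha => by
      obtain ⟨h6, h7⟩ := mem_erase.1 ha
      have := mem_Icc.1 h7
      exact (mu_nm hV h2 hNp this.1 l).div_lt2 (by omega) (by omega) (by omega)
  have h6 := (Gam_nm hV h2 hG N l r).mono (Nat.zero_le 1)
  have h7 := (Gam_nm hV h2 hG N l (r + p)).mono (Nat.zero_le 1)
  have := ((((h1.add h3).sub h4).sub h5).add h6).add h7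
  convert this using 1
  ring

end Lv

open Lv in
theorem levelB (hR : Rec) (hC : Col) (hD : Det) (hV : Val) : LevelB := by
  classical
  intro p hp N G hN hp14 hp29 hG
  have h2 : p ≠ 2 := by omega
  have hNp : 49 * N < p * p := by nlinarith
  set m := max (6 * N) (49 * N - 2 * p) with hm
  have hm1 : 6 * N ≤ m := le_max_left _ _
  have hm2 : 49 * N - 2 * p ≤ m := le_max_right _ _
  set S := Icc m (14 * N) with hS
  set S' := S.image (· + p) with hS'
  have hsub : S' ⊆ Ico (6 * N) (44 * N) := fun i hi => by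
    obtain ⟨r, hr, rfl⟩ := mem_image.1 hi
    have := mem_Icc.1 hr
    exact mem_Ico.2 ⟨by omega, by omega⟩
  set s := Ico (6 * N) (44 * N) \ S' with hs
  have hSs : S ⊆ s := fun r hr => by
    have := mem_Icc.1 hr
    refine mem_sdiff.2 ⟨mem_Ico.2 ⟨by omega, by omega⟩, fun h => ?_⟩
    obtain ⟨r', -, h'⟩ := mem_image.1 h
    omega
  have key := det_bound (p := p) hD s
    ((p : ℚ) • Matrix.of fun k l : Fin (36 * N) => entry N G k l)
    (fun k i => f N k i - if i ∈ S then f N k (i + p) else 0) (fun i l => p * Bi N G i l)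
    (fun _ => 1) (fun k l => ?_) (fun k i _ => ?_) fun i hi l => ?_
  · rw [Matrix.det_smul, Fintype.card_fin, sum_const, smul_eq_mul, mul_one] at key
    unfold Nm at key
    have hpw : ∀ n : ℕ, padicNorm p ((p : ℚ) ^ n) = ((p : ℚ) ^ n)⁻¹ := fun n => by
      induction n with
      | zero => simp
      | succ n ih =>
        rw [pow_succ, padicNorm.mul, ih, padicNorm.padicNorm_p_of_prime, mul_inv]
    rw [padicNorm.mul, hpw, inv_mul_le_iff₀ (pow_pos p0 _), ← pow_add] at key
    refine le_trans key (pow_le_pow_right₀ p1 ?_)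
    have c1 : s.card = (44 * N - 6 * N) - (14 * N + 1 - m) := by
      rw [hs, card_sdiff_of_subset hsub, Nat.card_Ico, hS',
        card_image_of_injective _ (add_left_injective p), hS, Nat.card_Icc]
    omega
  · have e1 : entry N G k l = ∑ i ∈ s, f N k i * Bi N G i l +
        ∑ r ∈ S, f N k (r + p) * Bi N G (r + p) l := by
      have e2 : ∑ r ∈ S, f N k (r + p) * Bi N G (r + p) l = ∑ i ∈ S', f N k i * Bi N G i l := by
        rw [hS', sum_image fun a _ b _ h => add_left_injective p h]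
      rw [e2, hs, sum_sdiff hsub]
      unfold entry
      refine (sum_subset (fun i hi => mem_range.2 (mem_Ico.1 hi).2) fun i hi hn => ?_).symm
      have h3 := mem_range.1 hi
      have h4 : i < 6 * N := by
        by_contra h4
        exact hn (mem_Ico.2 ⟨by omega, h3⟩)
      exact mul_eq_zero_of_left (f_zero hC k.2 (Or.inl h4)) _
    have e3 : ∑ i ∈ s, (f N k i - if i ∈ S then f N k (i + p) else 0) * (p * Bi N G i l) =
        p * ∑ i ∈ s, f N k i * Bi N G i l - p * ∑ r ∈ S, f N k (r + p) * Bi N G r l := by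
      have e4 : ∑ r ∈ S, f N k (r + p) * Bi N G r l =
          ∑ i ∈ s, if i ∈ S then f N k (i + p) * Bi N G i l else 0 := by
        rw [← sum_filter, filter_mem_eq_inter, inter_eq_right.2 hSs]
      rw [e4, ← mul_sub, ← sum_sub_distrib, mul_sum]
      refine sum_congr rfl fun i _ => ?_
      split_ifs <;> ring
    have e5 : ((p : ℚ) • Matrix.of fun k l : Fin (36 * N) => entry N G k l) k l -
        ∑ i ∈ s, (f N k i - if i ∈ S then f N k (i + p) else 0) * (p * Bi N G i l) =
        p * ∑ r ∈ S, f N k (r + p) * (Bi N G r l + Bi N G (r + p) l) := by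
      rw [e3, Matrix.smul_apply, Matrix.of_apply, smul_eq_mul, e1]
      simp only [mul_add, sum_add_distrib]
      ring
    rw [e5]
    refine Nm.pmul (Nm.sum fun r hr => (Nm.int _).mul0 ?_)
    have := mem_Icc.1 hr
    exact Bi_pair hR hC hV h2 hG hN l.2 hp14 hNp this.2 (by omega)
  · refine (Nm.int _).sub ?_
    split_ifs
    · exact Nm.int _
    · exact Nm.zero _
  · have := mem_Ico.1 (mem_sdiff.1 hi).1
    exact (Bi_nm2 hV h2 hG hNp (by omega) l).pmul

end Crest.Agent.R6
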