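import Crest.Agent.R6.LevelA

/-! # R6 LEVELC -/

set_option autoImplicit false

open Finset Polynomial

namespace Crest.Agent.R6

namespace Lv

variable {p : ℕ} [hp : Fact p.Prime]

noncomputable def phi (N k a : ℕ) : ℚ :=
  ∑ i ∈ range (44 * N), if a ≤ i then f N k i / ((i + 1 - a : ℕ) : ℚ) else 0

theorem phi_nm0 {N a : ℕ} (ha : 44 * N < a + p) (k : ℕ) : Nm p 0 (phi N k a) := by
  refine Nm.sum fun i hi => ?_
  have := mem_range.1 hi
  split_ifs
  · exact (Nm.int _).div_lt (by omega) (by omega)
  · exact Nm.zero _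

theorem phi_sub (hC : Col) {N k r : ℕ} (hk : k < 36 * N) (hNp : 44 * N ≤ 2 * p) :
    Nm p 0 (phi N k (r + 1) - f N k (r + p) / p) := by
  have hp1 := hp.out.one_lt
  have e : f N k (r + p) / p = ∑ i ∈ range (44 * N), if i = r + p then f N k i / p else 0 := by
    rw [sum_ite_eq']
    split_ifs with h
    · rfl
    · rw [f_zero hC hk (Or.inr (not_lt.1 fun h' => h (mem_range.2 h'))), zero_div]
  rw [e]
  unfold phi
  rw [← sum_sub_distrib]
  refine Nm.sum fun i hi => ?_
  have := mem_range.1 hi
  by_cases h : i = r + p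
  · rw [if_pos h, if_pos (by omega), show i + 1 - (r + 1) = p by omega, sub_self]
    exact Nm.zero _
  · rw [if_neg h, sub_zero]
    split_ifs
    · exact (Nm.int _).div_lt2 (by omega) (by omega) (by omega)
    · exact Nm.zero _

omit hp in
theorem entry_eq (hR : Rec) (hC : Col) (G : ℚ) {N k : ℕ} (l : ℕ) (hk : k < 36 * N)
    (hNp : 49 * N ≤ 2 * p) :
    entry N G k l = ∑ r ∈ range (49 * N - p), (f N k r * TT N l r -
        phi N k (r + 1) * mu N l (r + 1) + f N k (r + p) * TT N l (r + p)) +
      (∑ i ∈ Ico (49 * N - p) p, f N k i * TT N l i -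
        ∑ r ∈ Ico (49 * N - p) (49 * N), phi N k (r + 1) * mu N l (r + 1) +
        ∑ i ∈ range (44 * N), f N k i * Gam N G l i) := by
  have e1 : ∑ i ∈ range (44 * N), f N k i * TT N l i =
      ∑ r ∈ range (49 * N - p), f N k r * TT N l r + ∑ i ∈ Ico (49 * N - p) p, f N k i * TT N l i +
        ∑ r ∈ range (49 * N - p), f N k (r + p) * TT N l (r + p) := by
    rw [sum_range_add_sum_Ico _ (by omega)]
    simp only [add_comm _ p]
    rw [← sum_range_add (fun i => f N k i * TT N l i)]
    refine sum_subset (range_subset_range.2 (by omega)) fun i _ hn => ?_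
    rw [f_zero hC hk (Or.inr (not_lt.1 fun h' => hn (mem_range.2 h'))), zero_mul]
  have e2 : ∑ i ∈ range (44 * N), f N k i * ∑ a ∈ Icc 1 i, mu N l a / ((i + 1 - a : ℕ) : ℚ) =
      ∑ r ∈ range (49 * N - p), phi N k (r + 1) * mu N l (r + 1) +
        ∑ r ∈ Ico (49 * N - p) (49 * N), phi N k (r + 1) * mu N l (r + 1) := by
    rw [sum_range_add_sum_Ico _ (by omega)]
    unfold phi
    simp only [sum_mul]
    rw [sum_comm]
    refine sum_congr rfl fun i hi => ?_
    have hi' := mem_range.1 hi
    have e3 : Icc 1 i = ((range (49 * N)).filter fun r => r + 1 ≤ i).image (· + 1) := by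
      ext a
      simp only [mem_Icc, mem_image, mem_filter, mem_range]
      constructor
      · intro h; exact ⟨a - 1, ⟨by omega, by omega⟩, by omega⟩
      · rintro ⟨r, h, rfl⟩; omega
    rw [e3, sum_image fun a _ b _ h => add_left_injective 1 h, sum_filter, mul_sum]
    refine sum_congr rfl fun r _ => ?_
    split_ifs
    · ring
    · simp
  have e0 : entry N G k l = ∑ i ∈ range (44 * N), f N k i * TT N l i -
      ∑ i ∈ range (44 * N), f N k i * ∑ a ∈ Icc 1 i, mu N l a / ((i + 1 - a : ℕ) : ℚ) +
      ∑ i ∈ range (44 * N), f N k i * Gam N G l i := by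
    unfold entry
    rw [← sum_sub_distrib, ← sum_add_distrib]
    refine sum_congr rfl fun i _ => ?_
    rw [Bi_eq hR]; ring
  rw [e0, e1, e2, sum_add_distrib, sum_sub_distrib]
  ring

end Lv

open Lv in
theorem levelC (hR : Rec) (hC : Col) (hD : Det) (hV : Val) : LevelC := by
  classical
  intro p hp N G hN hNp hG
  have h2 : p ≠ 2 := by omega
  have hpp : 2 * p ≤ p * p - 1 := by
    have : 3 * p ≤ p * p := Nat.mul_le_mul_right p (by omega)
    omega
  have hNpp : 49 * N < p * p := by omega
  have hp0 : (p : ℚ) ≠ 0 := p0.ne'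
  let c1 : ℕ → Prop := fun r => r < 6 * N ∧ 44 * N ≤ r + p
  let c2 : ℕ → Prop := fun r => r ≤ 14 * N ∧ r + p < 44 * N
  let ph : ℕ → ℕ → ℚ := fun k r => phi N k (r + 1) - f N k (r + p) / p
  let α : Fin (36 * N) → ℕ × Bool → ℚ := fun k i =>
    if i.2 then
      (if c1 i.1 then -ph k i.1 else if c2 i.1 then f N k i.1 - f N k (i.1 + p) - p * ph k i.1
        else f N k i.1 - p * ph k i.1)
    else (if c2 i.1 then f N k i.1 else f N k (i.1 + p))
  let β : ℕ × Bool → Fin (36 * N) → ℚ := fun i l =>
    if i.2 then
      (if c1 i.1 then mu N l (i.1 + 1) else if c2 i.1 then mu N l (i.1 + 1) / p else TT N l i.1)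
    else (if c2 i.1 then (if 6 * N ≤ i.1 then TT N l i.1 - mu N l (i.1 + 1) / p else 0)
      else (if i.1 + p < 44 * N then TT N l (i.1 + p) - mu N l (i.1 + 1) / p else 0))
  let e : ℕ × Bool → ℕ := fun i =>
    if i.2 then (if c1 i.1 then 1 else 2)
    else (if c2 i.1 then (if 6 * N ≤ i.1 then 1 else 0) else (if i.1 + p < 44 * N then 2 else 0))
  have hph : ∀ (k : Fin (36 * N)) r, Nm p 0 (ph k r) := fun k r => phi_sub hC k.2 (by omega)
  have key := det_bound (p := p) hD (range (49 * N - p) ×ˢ (univ : Finset Bool))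
    (Matrix.of fun k l : Fin (36 * N) => entry N G k l) α β e (fun k l => ?_) (fun k i _ => ?_)
    fun i hi l => ?_
  · refine le_trans key (pow_le_pow_right₀ p1 ?_)
    rw [sum_product]
    have h1 : ∀ r ∈ range (49 * N - p), ∑ b : Bool, e (r, b) =
        1 + (if r ∈ range (44 * N - p) then 1 else 0) + (if r ∈ Ico (6 * N) (49 * N - p) then 1 else 0)
          + (if r ∈ Ico (14 * N + 1) (44 * N - p) then 1 else 0) := fun r hr => by
      have := mem_range.1 hr
      simp only [Fintype.sum_bool, e, c1, c2, mem_range, mem_Ico, if_true, Bool.false_eq_true,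
        if_false]
      split_ifs <;> omega
    rw [sum_congr rfl h1]
    simp only [sum_add_distrib, sum_const, card_range, smul_eq_mul, mul_one, ← card_filter,
      filter_mem_eq_inter]
    have a1 := card_le_card (inter_subset_right (s₁ := range (49 * N - p)) (s₂ := range (44 * N - p)))
    have a2 := card_le_card (inter_subset_right (s₁ := range (49 * N - p))
      (s₂ := Ico (6 * N) (49 * N - p)))
    have a3 := card_le_card (inter_subset_right (s₁ := range (49 * N - p))
      (s₂ := Ico (14 * N + 1) (44 * N - p)))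
    rw [card_range] at a1
    rw [Nat.card_Ico] at a2 a3
    omega
  · rw [Matrix.of_apply, entry_eq (p := p) hR hC G l k.2 hNp, sum_product, add_sub_right_comm,
      ← sum_sub_distrib]
    refine Nm.add (Nm.sum fun r hr => ?_) (Nm.add (Nm.sub (Nm.sum fun i hi => ?_)
      (Nm.sum fun r hr => ?_)) (Nm.sum fun i _ => (Nm.int _).mul0 (Gam_nm hV h2 hG N l i)))
    · have hr' := mem_range.1 hr
      have ephi : phi N k (r + 1) = ph k r + f N k (r + p) / p := by simp only [ph]; ring
      rw [Fintype.sum_bool, ephi]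
      simp only [α, β, if_true, Bool.false_eq_true, if_false]
      by_cases h1 : c1 r
      · have n2 : ¬ c2 r := fun h => by simp only [c1, c2] at h1 h; omega
        have n3 : ¬ r + p < 44 * N := by simp only [c1] at h1; omega
        simp only [if_pos h1, if_neg n2, if_neg n3]
        rw [f_zero hC k.2 (Or.inl h1.1), f_zero hC k.2 (Or.inr h1.2)]
        convert Nm.zero (p := p) 0 using 1
        ring
      by_cases h3 : c2 r
      · simp only [if_neg h1, if_pos h3]
        have h4 := (Nm.int ((rowP N k).coeff (r + p))).mul0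
          (TT_nm0 hC hV h2 (i := r + p) hN l.2 (by have := h3.1; omega) (by omega))
        split_ifs with h5
        · convert h4 using 1
          field_simp
          ring
        · rw [f_zero hC k.2 (Or.inl (not_le.1 h5))]
          convert h4 using 1
          field_simp
          ring
      · simp only [if_neg h1, if_neg h3]
        have h4 := (hph k r).mul0 (TT_mu hC hV h2 (r := r) hN l.2 (by omega) (by omega)).pmul
        split_ifs with h5
        · convert h4 using 1
          field_simp
          ring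
        · rw [f_zero hC k.2 (Or.inr (not_lt.1 h5))]
          convert h4 using 1
          field_simp
          ring
    · have := mem_Ico.1 hi
      exact (Nm.int _).mul0 (TT_nm0 hC hV h2 hN l.2 (by omega) (by omega))
    · have := mem_Ico.1 hr
      exact (phi_nm0 (by omega) k).mul0 (mu_nm0 hC hV h2 hN l.2 (by omega))
  · have hq := (Nm.nat p).mul0 (hph k i.1)
    simp only [α]
    split_ifs
    · exact (hph k i.1).neg
    · exact ((Nm.int _).sub (Nm.int _)).sub hq
    · exact (Nm.int _).sub hq
    · exact Nm.int _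
    · exact Nm.int _
  · have hr := mem_range.1 (mem_product.1 hi).1
    have hm := mu_nm hV h2 hNpp (show 1 ≤ i.1 + 1 by omega) l
    simp only [β, e]
    split_ifs
    · exact hm
    · exact hm.divp
    · exact TT_nm2 hV h2 hNpp (by omega) l
    · exact TT_mu hC hV h2 hN l.2 (by omega) (by omega)
    · exact Nm.zero _
    · exact (TT_nm2 hV h2 hNpp (by omega) l).sub hm.divp
    · exact Nm.zero _

end Crest.Agent.R6
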