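import Crest.Agent.R6.Col

set_option autoImplicit false

open Finset Filter Topology MeasureTheory

namespace Crest.Agent.R6

namespace MomAux

noncomputable section

lemma tt_cont : Continuous tt := by
  unfold tt
  exact Continuous.div (by fun_prop) (by fun_prop) fun w => by positivity

lemma inv_cont (f : ℝ → ℝ) (hf : Continuous f) : Continuous fun w : ℝ => f w / (1 + w ^ 2) :=
  Continuous.div hf (by fun_prop) fun w => by positivity

lemma d_den (w : ℝ) : HasDerivAt (fun w : ℝ => 1 + w ^ 2) (2 * w) w := by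
  simpa using (hasDerivAt_pow 2 w).const_add 1

lemma d_tt (w : ℝ) : HasDerivAt tt ((1 - w ^ 2) / (1 + w ^ 2) * (2 / (1 + w ^ 2))) w := by
  have h := ((hasDerivAt_id w).const_mul 2).div (d_den w) (by positivity)
  have e : (1 - w ^ 2) / (1 + w ^ 2) * (2 / (1 + w ^ 2)) =
      (2 * 1 * (1 + w ^ 2) - 2 * id w * (2 * w)) / (1 + w ^ 2) ^ 2 := by
    simp only [id]; field_simp; ring
  rw [e]; exact h

lemma d_r (w : ℝ) : HasDerivAt (fun w : ℝ => (1 - w ^ 2) / (1 + w ^ 2)) (-tt w * (2 / (1 + w ^ 2))) w := by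
  have h0 : HasDerivAt (fun w : ℝ => 1 - w ^ 2) (-(2 * w)) w := by
    simpa using (hasDerivAt_pow 2 w).const_sub 1
  have h := h0.div (d_den w) (by positivity)
  have e : -tt w * (2 / (1 + w ^ 2)) =
      (-(2 * w) * (1 + w ^ 2) - (1 - w ^ 2) * (2 * w)) / (1 + w ^ 2) ^ 2 := by
    unfold tt; field_simp; ring
  rw [e]; exact h

lemma cI (k : ℕ) : Continuous fun w : ℝ => tt w ^ k * (4 / (1 + w ^ 2)) :=
  (tt_cont.pow k).mul (inv_cont _ continuous_const)

lemma I_rec (k : ℕ) : ((k : ℝ) + 2) * ∫ w in (0 : ℝ)..1, tt w ^ (k + 2) * (4 / (1 + w ^ 2)) =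
    ((k : ℝ) + 1) * ∫ w in (0 : ℝ)..1, tt w ^ k * (4 / (1 + w ^ 2)) := by
  have hd : ∀ w ∈ Set.uIcc (0 : ℝ) 1, HasDerivAt (fun w => 2 * (tt w ^ (k + 1) * ((1 - w ^ 2) / (1 + w ^ 2))))
      (((k : ℝ) + 1) * (tt w ^ k * (4 / (1 + w ^ 2))) - ((k : ℝ) + 2) * (tt w ^ (k + 2) * (4 / (1 + w ^ 2)))) w := by
    intro w _
    have h := (((d_tt w).pow (k + 1)).mul (d_r w)).const_mul 2
    have hr : ((1 - w ^ 2) / (1 + w ^ 2)) ^ 2 = 1 - tt w ^ 2 := by
      unfold tt; field_simp; ring
    refine h.congr_deriv ?_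
    simp only [Pi.pow_apply, Nat.add_sub_cancel]
    push_cast
    have e4 : 4 / (1 + w ^ 2) = 2 * (2 / (1 + w ^ 2)) := by ring
    rw [e4]
    generalize 2 / (1 + w ^ 2) = c
    generalize (1 - w ^ 2) / (1 + w ^ 2) = r at hr
    linear_combination (2 * ((k : ℝ) + 1) * tt w ^ k * c) * hr
  have h := intervalIntegral.integral_eq_sub_of_hasDerivAt hd
    ((((cI k).const_mul _).sub ((cI (k + 2)).const_mul _)).intervalIntegrable _ _)
  rw [intervalIntegral.integral_sub (((cI k).const_mul _).intervalIntegrable _ _)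
    (((cI (k + 2)).const_mul _).intervalIntegrable _ _), intervalIntegral.integral_const_mul,
    intervalIntegral.integral_const_mul] at h
  simp [tt] at h
  unfold tt
  linarith

lemma mt_odd (k : ℕ) : mt (2 * k + 1) = 2 / ((2 * k + 1 : ℚ) * Bk k) := by
  unfold mt
  rw [if_pos (by omega), show (2 * k + 1) / 2 = k by omega]
  push_cast; rfl

lemma Bk_pos (k : ℕ) : 0 < Bk k := by
  unfold Bk
  have := Nat.centralBinom_pos k
  positivity

lemma mt_rec (k : ℕ) : (2 * (k : ℝ) + 3) * (mt (2 * (k + 1) + 1) : ℝ) = (2 * (k : ℝ) + 2) * (mt (2 * k + 1) : ℝ) := by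
  have : (2 * (k : ℚ) + 3) * mt (2 * (k + 1) + 1) = (2 * (k : ℚ) + 2) * mt (2 * k + 1) := by
    rw [mt_odd, mt_odd]
    have h := ColAux.Bk_rec k
    have h1 := (Bk_pos k).ne'
    have h2 := (Bk_pos (k + 1)).ne'
    push_cast
    rw [show 2 * ((k : ℚ) + 1) + 1 = 2 * k + 3 by ring]
    field_simp
    linear_combination -h
  exact_mod_cast this

lemma mt1 : mt 1 = 2 := by simp [mt, Bk]

lemma m1 (k : ℕ) : ∫ w in (0 : ℝ)..1, tt w ^ (2 * k + 1) * (4 / (1 + w ^ 2)) = (mt (2 * k + 1) : ℝ) := by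
  induction k with
  | zero =>
    have hd : ∀ w ∈ Set.uIcc (0 : ℝ) 1, HasDerivAt (fun w : ℝ => -2 * ((1 - w ^ 2) / (1 + w ^ 2)))
        (tt w ^ (2 * 0 + 1) * (4 / (1 + w ^ 2))) w := fun w _ =>
      ((d_r w).const_mul (-2)).congr_deriv (by ring)
    rw [intervalIntegral.integral_eq_sub_of_hasDerivAt hd ((cI _).intervalIntegrable _ _)]
    simp [mt1]
  | succ k ih =>
    have h := I_rec (2 * k + 1)
    have h2 := mt_rec k
    rw [ih] at h
    push_cast at h
    have : (2 * (k : ℝ) + 3) ≠ 0 := by positivity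
    refine mul_left_cancel₀ this ?_
    rw [h2, show 2 * (k + 1) + 1 = 2 * k + 1 + 2 by ring]
    linarith

lemma m2 (k : ℕ) : ∫ w in (0 : ℝ)..1, tt w ^ k * ((1 - w ^ 2) / (1 + w ^ 2)) * (2 / (1 + w ^ 2)) =
    1 / ((k : ℝ) + 1) := by
  have hd : ∀ w ∈ Set.uIcc (0 : ℝ) 1, HasDerivAt (fun w : ℝ => tt w ^ (k + 1) / ((k : ℝ) + 1))
      (tt w ^ k * ((1 - w ^ 2) / (1 + w ^ 2)) * (2 / (1 + w ^ 2))) w := fun w _ =>
    (((d_tt w).pow (k + 1)).div_const ((k : ℝ) + 1)).congr_deriv (by
      simp only [Nat.add_sub_cancel]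
      push_cast
      generalize 2 / (1 + w ^ 2) = c
      generalize (1 - w ^ 2) / (1 + w ^ 2) = r
      field_simp)
  rw [intervalIntegral.integral_eq_sub_of_hasDerivAt hd ((((tt_cont.pow k).mul
    (inv_cont _ (by fun_prop))).mul (inv_cont _ continuous_const)).intervalIntegrable _ _)]
  simp [tt]
  norm_num

lemma m3 (k : ℕ) : 0 ≤ (mt k : ℝ) ∧ (mt k : ℝ) ≤ 3 / Real.sqrt (k + 1) := by
  obtain ⟨l, rfl | rfl⟩ := Nat.even_or_odd' k
  · have : mt (2 * l) = 0 := by unfold mt; rw [if_neg (by omega)]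
    rw [this]
    exact ⟨by simp, by simpa using by positivity⟩
  · have h0 : 0 ≤ (mt (2 * l + 1) : ℝ) := by
      have : 0 ≤ mt (2 * l + 1) := by
        rw [mt_odd]; have := Bk_pos l; positivity
      exact_mod_cast this
    have h1 : ∀ l : ℕ, (mt (2 * l + 1) : ℝ) ^ 2 * (2 * l + 2) ≤ 9 := by
      intro l
      induction l with
      | zero => simp [mt1]; norm_num
      | succ l ih =>
        have h := mt_rec l
        have e : (mt (2 * (l + 1) + 1) : ℝ) = (2 * (l : ℝ) + 2) / (2 * (l : ℝ) + 3) * (mt (2 * l + 1) : ℝ) := by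
          field_simp; linarith
        rw [e]
        refine le_trans ?_ ih
        push_cast
        have h3 : ((2 * (l : ℝ) + 2) / (2 * (l : ℝ) + 3)) ^ 2 * (2 * (l + 1) + 2) ≤ 2 * l + 2 := by
          rw [div_pow, div_mul_eq_mul_div, div_le_iff₀ (by positivity)]
          have : (0 : ℝ) ≤ l := Nat.cast_nonneg _
          nlinarith
        nlinarith [sq_nonneg (mt (2 * l + 1) : ℝ)]
    refine ⟨h0, ?_⟩
    rw [le_div_iff₀ (by positivity), ← sq_le_sq₀ (by positivity) (by norm_num), mul_pow,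
      Real.sq_sqrt (by positivity)]
    have := h1 l
    push_cast
    linarith

lemma cv {f g : ℕ → ℝ} {a b : ℝ} (h : HasSum g b) (h1 : ∀ n, f n = g n) (h2 : a = b) : HasSum f a := by
  rw [funext h1, h2]; exact h

/-- termwise integration of a series with terms of constant sign -/
lemma termwise (F : ℕ → ℝ → ℝ) (a σ : ℕ → ℝ) (g : ℝ → ℝ) (hσ : ∀ n, |σ n| ≤ 1)
    (hi : ∀ n, IntervalIntegrable (F n) volume 0 1) (h0 : ∀ n, ∀ x ∈ Set.Ioo (0 : ℝ) 1, 0 ≤ F n x)
    (ha : ∀ n, ∫ x in (0 : ℝ)..1, F n x = a n) (hs : Summable a)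
    (hg : ∀ x ∈ Set.Ioo (0 : ℝ) 1, HasSum (fun n => σ n * F n x) (g x)) :
    HasSum (fun n => σ n * a n) (∫ x in Set.Ioo (0 : ℝ) 1, g x) := by
  have ha' : ∀ n, ∫ x in Set.Ioo (0 : ℝ) 1, F n x = a n := fun n => by
    rw [← ha n, intervalIntegral.integral_of_le zero_le_one, integral_Ioc_eq_integral_Ioo]
  have hi' : ∀ n, Integrable (F n) (volume.restrict (Set.Ioo (0 : ℝ) 1)) := fun n =>
    (intervalIntegrable_iff_integrableOn_Ioo_of_le zero_le_one).mp (hi n)
  have hn : ∀ n, ∫ x in Set.Ioo (0 : ℝ) 1, ‖σ n * F n x‖ = |σ n| * a n := fun n => by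
    rw [← ha' n, ← integral_const_mul]
    refine setIntegral_congr_fun measurableSet_Ioo fun x hx => ?_
    simp only [norm_mul, Real.norm_eq_abs, abs_of_nonneg (h0 n x hx)]
  have ha0 : ∀ n, 0 ≤ a n := fun n => by
    rw [← ha' n]; exact setIntegral_nonneg measurableSet_Ioo (h0 n)
  have h := hasSum_integral_of_summable_integral_norm (μ := volume.restrict (Set.Ioo (0 : ℝ) 1))
    (F := fun n x => σ n * F n x) (fun n => (hi' n).const_mul _) (by
      simp only [hn]
      exact Summable.of_nonneg_of_le (fun n => mul_nonneg (abs_nonneg _) (ha0 n))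
        (fun n => mul_le_of_le_one_left (ha0 n) (hσ n)) hs)
  refine cv h (fun n => by rw [integral_const_mul, ha']) ?_
  exact setIntegral_congr_fun measurableSet_Ioo fun x hx => (hg x hx).tsum_eq.symm

lemma sum_mt (hM : Mom) : Summable fun l : ℕ => (mt (2 * l + 1) : ℝ) / (2 * l + 1) := by
  have h : Summable fun l : ℕ => 3 * (1 / ((l + 1 : ℕ) : ℝ) ^ (3 / 2 : ℝ)) :=
    ((summable_nat_add_iff 1).mpr (Real.summable_one_div_nat_rpow.mpr (by norm_num))).mul_left 3
  refine Summable.of_nonneg_of_le (fun l => div_nonneg (hM.2.2 _).1 (by positivity)) (fun l => ?_) h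
  have h1 := (hM.2.2 (2 * l + 1)).2
  have hl : (0 : ℝ) ≤ l := Nat.cast_nonneg _
  have e : (((l + 1 : ℕ) : ℝ)) ^ (3 / 2 : ℝ) = Real.sqrt (l + 1) * (l + 1) := by
    push_cast
    rw [Real.sqrt_eq_rpow, ← Real.rpow_add_one (by positivity)]
    norm_num
  rw [e, mul_one_div, ← div_div]
  refine div_le_div₀ (by positivity) (h1.trans ?_) (by positivity) (by linarith)
  refine div_le_div_of_nonneg_left (by norm_num) (by positivity) (Real.sqrt_le_sqrt ?_)
  push_cast
  linarith

lemma tt_mem {w : ℝ} (hw : w ∈ Set.Ioo (0 : ℝ) 1) : 0 < tt w ∧ tt w < 1 := by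
  obtain ⟨h0, h1⟩ := hw
  unfold tt
  refine ⟨by positivity, ?_⟩
  rw [div_lt_one (by positivity)]
  nlinarith

lemma int_log (m : ℕ) : ∫ y in (0 : ℝ)..1, y ^ m * (-Real.log y) = 1 / ((m : ℝ) + 1) ^ 2 := by
  have h := intervalIntegral.integral_eq_sub_of_hasDerivAt_of_le (a := 0) (b := 1) zero_le_one
    (f := fun y : ℝ => y ^ (m + 1) / ((m : ℝ) + 1) ^ 2 - y ^ m * (y * Real.log y) / ((m : ℝ) + 1))
    (f' := fun y => y ^ m * (-Real.log y)) (by
      refine Continuous.continuousOn (Continuous.sub (by fun_prop) ?_)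
      exact ((continuous_pow m).mul Real.continuous_mul_log).div_const _)
    (fun y hy => by
      have h1 := ((hasDerivAt_pow (m + 1) y).div_const (((m : ℝ) + 1) ^ 2)).sub
        (((hasDerivAt_pow (m + 1) y).mul (Real.hasDerivAt_log hy.1.ne')).div_const ((m : ℝ) + 1))
      have e : (fun y : ℝ => y ^ (m + 1) / ((m : ℝ) + 1) ^ 2 - y ^ m * (y * Real.log y) / ((m : ℝ) + 1)) =
          fun y : ℝ => y ^ (m + 1) / ((m : ℝ) + 1) ^ 2 - y ^ (m + 1) * Real.log y / ((m : ℝ) + 1) := by
        ext y; ring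
      rw [e]
      refine HasDerivAt.congr_deriv h1 ?_
      have := hy.1.ne'
      simp only [Nat.add_sub_cancel]
      push_cast
      field_simp
      ring)
    ((intervalIntegral.intervalIntegrable_log'.neg).continuousOn_mul (continuous_pow m).continuousOn)
  rw [h]
  simp

lemma sum_odd : HasSum (fun m : ℕ => 1 / ((2 * m + 1 : ℝ)) ^ 2) (Real.pi ^ 2 / 8) := by
  have he : HasSum (fun k : ℕ => 1 / ((2 * k : ℕ) : ℝ) ^ 2) (Real.pi ^ 2 / 6 / 4) :=
    cv (hasSum_zeta_two.div_const 4) (fun n => by push_cast; ring) rfl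
  have ho : Summable (fun k : ℕ => 1 / ((2 * k + 1 : ℕ) : ℝ) ^ 2) :=
    hasSum_zeta_two.summable.comp_injective (i := fun k => 2 * k + 1) fun a b h => by
      simpa using h
  have h := HasSum.even_add_odd (f := fun k : ℕ => 1 / (k : ℝ) ^ 2) he ho.hasSum
  have h2 := h.unique hasSum_zeta_two
  refine cv ho.hasSum (fun n => by push_cast; ring) (by linarith)

lemma cat_int : ∫ y in Set.Ioo (0 : ℝ) 1, -Real.log y / (1 + y ^ 2) = catalan := by
  have h := termwise (fun j y => y ^ (2 * j) * (-Real.log y)) (fun j => 1 / ((2 * j + 1 : ℝ)) ^ 2)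
    (fun j => (-1) ^ j) (fun y => -Real.log y / (1 + y ^ 2)) (fun n => by simp)
    (fun n => (intervalIntegral.intervalIntegrable_log'.neg).continuousOn_mul (continuous_pow _).continuousOn)
    (fun n x hx => mul_nonneg (pow_nonneg hx.1.le _) (neg_nonneg.mpr (Real.log_nonpos hx.1.le hx.2.le)))
    (fun n => by rw [int_log]; push_cast; rfl) sum_odd.summable (fun x hx => by
      have h1 := (hasSum_geometric_of_abs_lt_one (r := -x ^ 2) (by
        rw [abs_neg, abs_of_nonneg (sq_nonneg x)]; nlinarith [hx.1, hx.2])).mul_right (-Real.log x)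
      refine cv h1 (fun n => ?_) ?_
      · rw [neg_pow (x ^ 2), pow_mul]; ring
      · rw [sub_neg_eq_add]; field_simp)
  rw [← h.tsum_eq, catalan]
  exact tsum_congr fun j => by ring

lemma subst_int : ∫ w in Set.Ioo (0 : ℝ) 1, (Real.log (1 + w) - Real.log (1 - w)) / (1 + w ^ 2) = catalan := by
  rw [← cat_int]
  have him : (fun w : ℝ => (1 - w) / (1 + w)) '' Set.Ioo 0 1 = Set.Ioo 0 1 := by
    ext y
    constructor
    · rintro ⟨w, ⟨h0, h1⟩, rfl⟩
      exact ⟨div_pos (by linarith) (by linarith), by rw [div_lt_one (by linarith)]; linarith⟩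
    · rintro ⟨h0, h1⟩
      refine ⟨(1 - y) / (1 + y), ⟨div_pos (by linarith) (by linarith), by rw [div_lt_one (by linarith)]; linarith⟩, ?_⟩
      have : 1 + y ≠ 0 := by linarith
      field_simp
      ring
  have h := integral_image_eq_integral_abs_deriv_smul (s := Set.Ioo (0 : ℝ) 1)
    (f := fun w : ℝ => (1 - w) / (1 + w)) (f' := fun w => -2 / (1 + w) ^ 2) measurableSet_Ioo
    (fun x hx => by
      have h1 := ((hasDerivAt_id x).const_sub 1).div ((hasDerivAt_id x).const_add 1)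
        (by simp only [id]; linarith [hx.1])
      refine (HasDerivAt.congr_deriv h1 ?_).hasDerivWithinAt
      simp only [id]; ring)
    (fun a ha b hb hab => by
      simp only at hab
      rw [div_eq_div_iff (by linarith [ha.1]) (by linarith [hb.1])] at hab
      linarith)
    (fun y => -Real.log y / (1 + y ^ 2))
  rw [him] at h
  rw [h]
  refine setIntegral_congr_fun measurableSet_Ioo fun w hw => ?_
  have h1 : 1 + w ≠ 0 := by linarith [hw.1]
  have h2 : 1 - w ≠ 0 := by linarith [hw.2]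
  simp only [smul_eq_mul]
  rw [Real.log_div h2 h1, abs_div, abs_of_pos (by positivity : 0 < (1 + w) ^ 2)]
  have h3 : (1 + w) ^ 2 + (1 - w) ^ 2 ≠ 0 := by positivity
  norm_num
  field_simp
  ring

lemma sv1 (hM : Mom) : HasSum (fun l : ℕ => (mt (2 * l + 1) : ℝ) / (2 * l + 1)) (4 * catalan) := by
  have h := termwise (fun l w => tt w ^ (2 * l + 1) * (4 / (1 + w ^ 2)) / (2 * l + 1))
    (fun l => (mt (2 * l + 1) : ℝ) / (2 * l + 1)) (fun _ => 1)
    (fun w => 4 * ((Real.log (1 + w) - Real.log (1 - w)) / (1 + w ^ 2))) (fun n => by simp)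
    (fun n => ((cI _).div_const _).intervalIntegrable _ _)
    (fun n x hx => by have := (tt_mem hx).1; positivity)
    (fun n => by rw [intervalIntegral.integral_div, hM.1]) (sum_mt hM) (fun x hx => by
      obtain ⟨a0, a1⟩ := tt_mem hx
      have h1 := (Real.hasSum_log_sub_log_of_abs_lt_one (x := tt x) (by rw [abs_of_pos a0]; exact a1)).mul_right
        (2 / (1 + x ^ 2))
      refine cv h1 (fun n => by ring) ?_
      have b1 : 1 + x ≠ 0 := by linarith [hx.1]
      have b2 : 1 - x ≠ 0 := by linarith [hx.2]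
      have b3 : 1 + x ^ 2 ≠ 0 := by positivity
      have e1 : 1 + tt x = (1 + x) ^ 2 / (1 + x ^ 2) := by unfold tt; field_simp; ring
      have e2 : 1 - tt x = (1 - x) ^ 2 / (1 + x ^ 2) := by unfold tt; field_simp; ring
      rw [e1, e2, Real.log_div (pow_ne_zero _ b1) b3, Real.log_div (pow_ne_zero _ b2) b3, Real.log_pow,
        Real.log_pow]
      push_cast
      ring)
  rw [integral_const_mul, subst_int] at h
  simpa using h

lemma sv2 (hM : Mom) : HasSum (fun l : ℕ => (mt (2 * l + 1) : ℝ) / (2 * l + 2)) (Real.pi ^ 2 / 4) := by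
  have h := termwise (fun l w => tt w ^ (2 * l + 1) * (4 / (1 + w ^ 2)) / (2 * l + 2))
    (fun l => (mt (2 * l + 1) : ℝ) / (2 * l + 2)) (fun _ => 1)
    (fun w => 2 * (Real.log (1 + w ^ 2) - Real.log (1 - w ^ 2)) / w) (fun n => by simp)
    (fun n => ((cI _).div_const _).intervalIntegrable _ _)
    (fun n x hx => by have := (tt_mem hx).1; positivity)
    (fun n => by rw [intervalIntegral.integral_div, hM.1])
    (Summable.of_nonneg_of_le (fun l => div_nonneg (hM.2.2 _).1 (by positivity))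
      (fun l => div_le_div_of_nonneg_left (hM.2.2 _).1 (by positivity) (by linarith)) (sum_mt hM))
    (fun x hx => by
      obtain ⟨a0, a1⟩ := tt_mem hx
      have h1 := (Real.hasSum_pow_div_log_of_abs_lt_one (x := tt x ^ 2) (by
        rw [abs_of_nonneg (sq_nonneg _)]; nlinarith)).div_const x
      have b0 := hx.1.ne'
      have b2 : 1 - x ^ 2 ≠ 0 := by nlinarith [hx.1, hx.2]
      have b3 : 1 + x ^ 2 ≠ 0 := by positivity
      refine cv h1 (fun n => ?_) ?_
      · have e : 4 / (1 + x ^ 2) = 2 * tt x / x := by unfold tt; field_simp; ring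
        rw [e, ← pow_mul]
        field_simp
        ring
      · have e1 : 1 - tt x ^ 2 = ((1 - x ^ 2) / (1 + x ^ 2)) ^ 2 := by unfold tt; field_simp; ring
        rw [e1, Real.log_pow, Real.log_div b2 b3]
        push_cast
        ring)
  have h' := termwise (fun m w => 4 * w ^ (4 * m + 1) / (2 * m + 1))
    (fun m => 1 / ((2 * m + 1 : ℝ)) ^ 2 * 2) (fun _ => 1)
    (fun w => 2 * (Real.log (1 + w ^ 2) - Real.log (1 - w ^ 2)) / w) (fun n => by simp)
    (fun n => Continuous.intervalIntegrable (by fun_prop) _ _)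
    (fun n x hx => by have := hx.1; positivity)
    (fun n => by
      rw [intervalIntegral.integral_div, intervalIntegral.integral_const_mul, integral_pow]
      push_cast
      simp only [one_pow, ne_eq, Nat.add_eq_zero_iff, one_ne_zero, and_false, not_false_eq_true, zero_pow,
        sub_zero]
      rw [show (4 * (n : ℝ) + 1 + 1) = 2 * (2 * n + 1) by ring]
      field_simp
      ring)
    (sum_odd.summable.mul_right 2)
    (fun x hx => by
      have h1 := ((Real.hasSum_log_sub_log_of_abs_lt_one (x := x ^ 2) (by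
        rw [abs_of_nonneg (sq_nonneg _)]; nlinarith [hx.1, hx.2])).mul_left 2).div_const x
      have b0 := hx.1.ne'
      refine cv h1 (fun n => ?_) rfl
      rw [← pow_mul]
      field_simp
      ring)
  simp only [one_mul] at h h'
  have := h'.unique (sum_odd.mul_right 2)
  rw [this] at h
  exact cv h (fun _ => rfl) (by ring)

lemma mt_even (l : ℕ) : mt (2 * l) = 0 := by unfold mt; rw [if_neg (by omega)]

end

end MomAux

theorem mom : Mom := ⟨MomAux.m1, MomAux.m2, MomAux.m3⟩

open MomAux in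
theorem serVal (hM : Mom) : SerVal := by
  constructor
  · have h := HasSum.even_add_odd (f := fun n : ℕ => (mt (n + 1) : ℝ) / ((n : ℝ) + 1)) (m' := 0)
      (cv (sv1 hM) (fun n => by push_cast; rfl) rfl)
      (cv hasSum_zero (fun n => by
        rw [show 2 * n + 1 + 1 = 2 * (n + 1) by ring, mt_even]; simp) rfl)
    simpa using h
  · have h := HasSum.even_add_odd (f := fun n : ℕ => (mt n : ℝ) / ((n : ℝ) + 1)) (m := 0)
      (cv hasSum_zero (fun n => by rw [mt_even]; simp) rfl)
      (cv (sv2 hM) (fun n => by push_cast; ring) rfl)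
    simpa using h

end Crest.Agent.R6
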