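import Crest.Agent.R6.Defs

/-!
# Row 6, task PNT: the prime number theorem

Wiener–Ikehara type argument with the Fejér kernel: Fubini, Riemann–Lebesgue, and a Tauberian step.
-/

set_option autoImplicit false

open Filter Topology MeasureTheory Set

namespace Crest.Agent.R6

namespace PntAux

/-- Fejér kernel -/
noncomputable def K (u : ℝ) : ℝ := ∫ y in (0 : ℝ)..1, (1 - y) * Real.cos (y * u)

theorem K_cont : Continuous K :=
  intervalIntegral.continuous_parametric_intervalIntegral_of_continuous'
    (f := fun u y : ℝ => (1 - y) * Real.cos (y * u)) (by fun_prop) 0 1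

theorem K_zero : K 0 = 1 / 2 := by
  unfold K
  simp only [mul_zero, Real.cos_zero, mul_one]
  rw [intervalIntegral.integral_sub (by simp) (by simp)]
  simp only [integral_id, intervalIntegral.integral_const]
  norm_num

theorem K_eq {u : ℝ} (hu : u ≠ 0) : K u = (1 - Real.cos u) / u ^ 2 := by
  have hd : ∀ t ∈ Set.uIcc (0 : ℝ) 1,
      HasDerivAt (fun t : ℝ => (1 - t) * Real.sin (t * u) / u - Real.cos (t * u) / u ^ 2)
        ((1 - t) * Real.cos (t * u)) t := by
    intro t _
    have a1 : HasDerivAt (fun t : ℝ => t * u) u t := by simpa using (hasDerivAt_id t).mul_const u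
    have a2 : HasDerivAt (fun t : ℝ => 1 - t) (-1) t := by simpa using (hasDerivAt_id t).const_sub 1
    have := ((a2.mul a1.sin).div_const u).sub (a1.cos.div_const (u ^ 2))
    refine this.congr_deriv ?_
    field_simp
    ring
  unfold K
  rw [intervalIntegral.integral_eq_sub_of_hasDerivAt hd
    (Continuous.intervalIntegrable (by fun_prop) _ _)]
  simp only [sub_self, zero_mul, zero_div, one_mul, Real.sin_zero, mul_zero, Real.cos_zero]
  ring

theorem K_nonneg (u : ℝ) : 0 ≤ K u := by
  by_cases hu : u = 0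
  · rw [hu, K_zero]; norm_num
  · rw [K_eq hu]
    exact div_nonneg (sub_nonneg.2 (Real.cos_le_one u)) (sq_nonneg u)

theorem K_le (u : ℝ) : K u ≤ 4 * (1 + u ^ 2)⁻¹ := by
  by_cases hu : u = 0
  · rw [hu, K_zero]; norm_num
  have h0 : 0 < u ^ 2 := by positivity
  rw [K_eq hu, ← div_eq_mul_inv, div_le_div_iff₀ h0 (by positivity)]
  have h1 := Real.one_sub_sq_div_two_le_cos (x := u)
  have h2 := Real.neg_one_le_cos u
  nlinarith

theorem K_int : Integrable K :=
  (integrable_inv_one_add_sq.const_mul 4).mono' K_cont.aestronglyMeasurable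
    (Eventually.of_forall fun u => by rw [Real.norm_eq_abs, abs_of_nonneg (K_nonneg u)]; exact K_le u)

theorem K_pos : 0 < ∫ u, K u :=
  integral_pos_of_integrable_nonneg_nonzero (x := 0) K_cont K_int K_nonneg
    (by rw [K_zero]; norm_num)

section T1

variable {f : ℝ → ℝ} {C : ℝ} {g : ℂ → ℂ}

theorem re_formula (hm : Measurable f) (hb : ∀ t, |f t| ≤ C)
    (hL : ∀ z : ℂ, 0 < z.re → ∫ t in Ioi (0 : ℝ), (f t : ℂ) * Complex.exp (-z * t) = g z)
    {ε : ℝ} (hε : 0 < ε) (v T : ℝ) :
    ∫ t in Ioi (0 : ℝ), f t * Real.exp (-ε * t) * Real.cos (v * (t - T)) =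
      (Complex.exp (((v * T : ℝ) : ℂ) * Complex.I) * g (ε + v * Complex.I)).re := by
  have hz : 0 < ((ε : ℂ) + v * Complex.I).re := by simpa using hε
  have hi : IntegrableOn (fun t : ℝ => (f t : ℂ) * Complex.exp (-((ε : ℂ) + v * Complex.I) * t))
      (Ioi 0) := by
    refine Integrable.bdd_mul (c := C) (integrableOn_exp_mul_complex_Ioi (by simpa using hε) 0)
      (Complex.measurable_ofReal.comp hm).aestronglyMeasurable (Eventually.of_forall fun t => ?_)
    simpa using hb t
  rw [← hL _ hz, ← integral_const_mul]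
  have := integral_re (𝕜 := ℂ) (hi.const_mul (Complex.exp (((v * T : ℝ) : ℂ) * Complex.I)))
  refine Eq.trans ?_ this
  refine integral_congr_ae (Eventually.of_forall fun t => ?_)
  have e : Complex.exp (((v * T : ℝ) : ℂ) * Complex.I) *
      ((f t : ℂ) * Complex.exp (-((ε : ℂ) + v * Complex.I) * t)) =
      ((f t * Real.exp (-ε * t) : ℝ) : ℂ) * Complex.exp (((-(v * (t - T)) : ℝ) : ℂ) * Complex.I) := by
    rw [mul_left_comm, ← Complex.exp_add]
    push_cast
    rw [mul_assoc (f t : ℂ), ← Complex.exp_add]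
    congr 2
    ring
  show _ = (Complex.exp (((v * T : ℝ) : ℂ) * Complex.I) *
      ((f t : ℂ) * Complex.exp (-((ε : ℂ) + v * Complex.I) * t))).re
  rw [e, Complex.re_ofReal_mul, Complex.exp_ofReal_mul_I_re, Real.cos_neg]

theorem fubini_formula (hm : Measurable f) (hb : ∀ t, |f t| ≤ C)
    (hL : ∀ z : ℂ, 0 < z.re → ∫ t in Ioi (0 : ℝ), (f t : ℂ) * Complex.exp (-z * t) = g z)
    {ε : ℝ} (hε : 0 < ε) (l T : ℝ) :
    ∫ t in Ioi (0 : ℝ), f t * Real.exp (-ε * t) * K (l * (t - T)) =
      ∫ y in Ioc (0 : ℝ) 1, (1 - y) * (Complex.exp (((y * l * T : ℝ) : ℂ) * Complex.I) *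
        g (ε + (y * l : ℝ) * Complex.I)).re := by
  have hC : 0 ≤ C := (abs_nonneg _).trans (hb 0)
  have h1 : ∀ t, f t * Real.exp (-ε * t) * K (l * (t - T)) =
      ∫ y in Ioc (0 : ℝ) 1, (1 - y) * (f t * Real.exp (-ε * t) * Real.cos (y * l * (t - T))) := by
    intro t
    rw [K, intervalIntegral.integral_of_le zero_le_one, ← integral_const_mul]
    congr 1
    funext y
    rw [mul_assoc y]
    ring
  simp only [h1]
  rw [integral_integral_swap]
  · refine integral_congr_ae (Eventually.of_forall fun y => ?_)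
    simp only
    rw [integral_const_mul, re_formula hm hb hL hε]
  · have i1 : Integrable (fun t => C * Real.exp (-ε * t)) (volume.restrict (Ioi (0 : ℝ))) :=
      (exp_neg_integrableOn_Ioi 0 hε).const_mul C
    have i2 : Integrable (fun y : ℝ => |1 - y|) (volume.restrict (Ioc (0 : ℝ) 1)) :=
      ((by fun_prop : Continuous fun y : ℝ => |1 - y|).integrableOn_Icc).mono_set Ioc_subset_Icc_self
    refine (i1.mul_prod i2).mono' (Measurable.aestronglyMeasurable ?_)
      (Eventually.of_forall fun p => ?_)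
    · unfold Function.uncurry
      fun_prop
    · simp only [Function.uncurry, Real.norm_eq_abs, abs_mul]
      rw [abs_of_pos (Real.exp_pos _), mul_comm]
      refine mul_le_mul_of_nonneg_right ?_ (abs_nonneg _)
      refine (mul_le_of_le_one_right (by positivity) (Real.abs_cos_le_one _)).trans ?_
      exact mul_le_mul_of_nonneg_right (hb _) (Real.exp_pos _).le

theorem limit_formula (hm : Measurable f) (hb : ∀ t, |f t| ≤ C)
    (hg : ContinuousOn g {z | 0 ≤ z.re})
    (hL : ∀ z : ℂ, 0 < z.re → ∫ t in Ioi (0 : ℝ), (f t : ℂ) * Complex.exp (-z * t) = g z)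
    {l : ℝ} (hl : 0 < l) (T : ℝ) :
    ∫ t in Ioi (0 : ℝ), f t * K (l * (t - T)) =
      ∫ y in Ioc (0 : ℝ) 1, (1 - y) * (Complex.exp (((y * l * T : ℝ) : ℂ) * Complex.I) *
        g ((y * l : ℝ) * Complex.I)).re := by
  have hC : 0 ≤ C := (abs_nonneg _).trans (hb 0)
  have hK : Continuous K := K_cont
  have h1 : Tendsto (fun ε : ℝ => ∫ t in Ioi (0 : ℝ), f t * Real.exp (-ε * t) * K (l * (t - T)))
      (𝓝[>] 0) (𝓝 (∫ t in Ioi (0 : ℝ), f t * K (l * (t - T)))) := by
    refine tendsto_integral_filter_of_dominated_convergence (fun t => C * K (l * (t - T)))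
      (Eventually.of_forall fun ε => Measurable.aestronglyMeasurable (by fun_prop)) ?_
      (((K_int.comp_mul_left' hl.ne').comp_sub_right T).const_mul C).integrableOn
      (Eventually.of_forall fun t => ?_)
    · filter_upwards [self_mem_nhdsWithin] with ε hε
      filter_upwards [ae_restrict_mem measurableSet_Ioi] with t ht
      rw [Real.norm_eq_abs, abs_mul, abs_mul, abs_of_nonneg (K_nonneg _)]
      refine mul_le_mul_of_nonneg_right ?_ (K_nonneg _)
      refine (mul_le_of_le_one_right (abs_nonneg _) ?_).trans (hb t)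
      rw [abs_of_pos (Real.exp_pos _), Real.exp_le_one_iff]
      have : 0 < ε * t := mul_pos hε ht
      linarith
    · have : Continuous fun ε : ℝ => f t * Real.exp (-ε * t) * K (l * (t - T)) := by fun_prop
      simpa using (this.tendsto 0).mono_left nhdsWithin_le_nhds
  have hgc : ContinuousOn (fun p : ℝ × ℝ => g (p.1 + (p.2 * l : ℝ) * Complex.I))
      {p | 0 ≤ p.1} :=
    hg.comp (by fun_prop) fun p hp => by simpa using hp
  obtain ⟨M, hM⟩ := (isCompact_Icc (a := ((0 : ℝ), (0 : ℝ))) (b := (1, 1))).exists_bound_of_continuousOn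
    (hgc.mono fun p hp => hp.1.1)
  have h2 : Tendsto (fun ε : ℝ => ∫ y in Ioc (0 : ℝ) 1,
      (1 - y) * (Complex.exp (((y * l * T : ℝ) : ℂ) * Complex.I) *
        g (ε + (y * l : ℝ) * Complex.I)).re) (𝓝[>] 0)
      (𝓝 (∫ y in Ioc (0 : ℝ) 1, (1 - y) * (Complex.exp (((y * l * T : ℝ) : ℂ) * Complex.I) *
        g ((y * l : ℝ) * Complex.I)).re)) := by
    refine tendsto_integral_filter_of_dominated_convergence (fun _ => M) ?_ ?_
      (integrable_const M) (Eventually.of_forall fun y => ?_)
    · filter_upwards [self_mem_nhdsWithin] with ε hε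
      have : Continuous fun y : ℝ => g (ε + (y * l : ℝ) * Complex.I) :=
        hgc.comp_continuous (f := fun y : ℝ => (ε, y)) (by fun_prop)
          fun y => show 0 ≤ ε from le_of_lt hε
      exact Continuous.aestronglyMeasurable (Continuous.mul (by fun_prop)
        (Complex.continuous_re.comp (Continuous.mul (by fun_prop) this)))
    · filter_upwards [Ioo_mem_nhdsGT zero_lt_one] with ε hε
      filter_upwards [ae_restrict_mem measurableSet_Ioc] with y hy
      have a1 := hM (ε, y) ⟨⟨hε.1.le, hy.1.le⟩, ⟨hε.2.le, hy.2⟩⟩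
      rw [Real.norm_eq_abs, abs_mul]
      refine (mul_le_of_le_one_left (abs_nonneg _) ?_).trans ?_
      · rw [abs_of_nonneg (by linarith [hy.2])]
        linarith [hy.1]
      · refine (Complex.abs_re_le_norm _).trans ?_
        rw [norm_mul, Complex.norm_exp_ofReal_mul_I, one_mul]
        exact a1
    · have a1 : ContinuousOn (fun ε : ℝ => g (ε + (y * l : ℝ) * Complex.I)) (Ici 0) :=
        hgc.comp (f := fun ε : ℝ => (ε, y)) (by fun_prop) fun ε hε => hε
      have a2 : Tendsto (fun ε : ℝ => g (ε + (y * l : ℝ) * Complex.I)) (𝓝[>] 0)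
          (𝓝 (g ((y * l : ℝ) * Complex.I))) := by
        have := (a1 0 self_mem_Ici).mono Ioi_subset_Ici_self
        simpa [ContinuousWithinAt] using this
      exact ((Complex.continuous_re.tendsto _).comp (a2.const_mul _)).const_mul _
  refine tendsto_nhds_unique h1 (h2.congr' ?_)
  filter_upwards [self_mem_nhdsWithin] with ε hε
  exact (fubini_formula hm hb hL hε l T).symm

theorem T1 (hm : Measurable f) (hb : ∀ t, |f t| ≤ C) (hg : ContinuousOn g {z | 0 ≤ z.re})
    (hL : ∀ z : ℂ, 0 < z.re → ∫ t in Ioi (0 : ℝ), (f t : ℂ) * Complex.exp (-z * t) = g z)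
    {l : ℝ} (hl : 0 < l) :
    Tendsto (fun T : ℝ => ∫ t in Ioi (0 : ℝ), f t * K (l * (t - T))) atTop (𝓝 0) := by
  set h : ℝ → ℂ := fun y => ((1 - y : ℝ) : ℂ) * g ((y * l : ℝ) * Complex.I) with hh
  have hc : Continuous h := by
    have : Continuous fun y : ℝ => g ((y * l : ℝ) * Complex.I) :=
      hg.comp_continuous (by fun_prop) fun y => by simp
    exact Continuous.mul (by fun_prop) this
  have h1 := Real.tendsto_integral_exp_smul_cocompact (indicator (Ioc (0 : ℝ) 1) h)
  have h2 : Tendsto (fun T : ℝ => -(l / (2 * Real.pi)) * T) atTop (cocompact ℝ) := by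
    refine Tendsto.mono_right ?_ atBot_le_cocompact
    exact tendsto_id.const_mul_atTop_of_neg (neg_lt_zero.2 (by positivity))
  have h3 := (Complex.continuous_re.tendsto _).comp (h1.comp h2)
  refine h3.congr fun T => ?_
  rw [limit_formula hm hb hg hL hl T]
  simp only [Function.comp]
  have e : (fun v : ℝ => Real.fourierChar (-(v * (-(l / (2 * Real.pi)) * T))) •
      indicator (Ioc (0 : ℝ) 1) h v) = indicator (Ioc (0 : ℝ) 1)
        fun v : ℝ => Complex.exp (((v * l * T : ℝ) : ℂ) * Complex.I) * h v := by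
    funext v
    rw [Circle.smul_def, Real.fourierChar_apply, smul_eq_mul]
    have : 2 * Real.pi * -(v * (-(l / (2 * Real.pi)) * T)) = v * l * T := by
      field_simp
    rw [this, indicator_apply, indicator_apply]
    split_ifs
    · rfl
    · rw [mul_zero]
  rw [e, integral_indicator measurableSet_Ioc]
  have hi : IntegrableOn (fun v : ℝ => Complex.exp (((v * l * T : ℝ) : ℂ) * Complex.I) * h v)
      (Ioc 0 1) :=
    ((by fun_prop : Continuous fun v : ℝ =>
      Complex.exp (((v * l * T : ℝ) : ℂ) * Complex.I) * h v).integrableOn_Icc).mono_set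
      Ioc_subset_Icc_self
  refine (integral_re (𝕜 := ℂ) hi).symm.trans ?_
  refine integral_congr_ae (Eventually.of_forall fun y => ?_)
  show (Complex.exp (((y * l * T : ℝ) : ℂ) * Complex.I) * h y).re = _
  rw [hh]
  simp only
  rw [mul_left_comm, Complex.re_ofReal_mul]

end T1

theorem rescale (f : ℝ → ℝ) {l : ℝ} (hl : 0 < l) (T : ℝ) :
    ∫ u, indicator (Ioi (0 : ℝ)) f (T + u / l) * K u =
      l * ∫ t in Ioi (0 : ℝ), f t * K (l * (t - T)) := by
  set H : ℝ → ℝ := fun t => indicator (Ioi (0 : ℝ)) f t * K (l * (t - T)) with hH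
  have h1 := Measure.integral_comp_div (fun v => H (T + v)) l
  rw [integral_add_left_eq_self H T, abs_of_pos hl, smul_eq_mul] at h1
  have h2 : ∫ t, H t = ∫ t in Ioi (0 : ℝ), f t * K (l * (t - T)) := by
    rw [← integral_indicator measurableSet_Ioi]
    congr 1
    funext t
    rw [hH]
    simp only
    rw [indicator_mul_left]
  rw [← h2, ← h1]
  congr 1
  funext u
  simp only [hH]
  congr 2
  field_simp
  ring

/-- Tauberian step -/
theorem T2 {a : ℝ → ℝ} {C : ℝ} (hm : Measurable a) (h0 : ∀ t, 0 ≤ a t) (hC : ∀ t, a t ≤ C)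
    (hmono : ∀ s t, s ≤ t → a s * Real.exp s ≤ a t * Real.exp t)
    (h : ∀ l : ℝ, 0 < l →
      Tendsto (fun T : ℝ => ∫ t in Ioi (0 : ℝ), (a t - 1) * K (l * (t - T))) atTop (𝓝 0)) :
    Tendsto a atTop (𝓝 1) := by
  have hC0 : 0 ≤ C := (h0 0).trans (hC 0)
  set F : ℝ → ℝ := indicator (Ioi (0 : ℝ)) fun t => a t - 1 with hF
  have hFm : Measurable F := (hm.sub_const 1).indicator measurableSet_Ioi
  have hF1 : ∀ t, -1 ≤ F t ∧ F t ≤ C := by
    intro t
    rw [hF, indicator_apply]
    split_ifs
    · constructor <;> linarith [h0 t, hC t]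
    · constructor <;> linarith
  have hΦ : ∀ l : ℝ, 0 < l → Tendsto (fun T : ℝ => ∫ u, F (T + u / l) * K u) atTop (𝓝 0) := by
    intro l hl
    have := (h l hl).const_mul l
    rw [mul_zero] at this
    exact this.congr fun T => (rescale _ hl T).symm
  have hi : ∀ l T : ℝ, Integrable fun u => F (T + u / l) * K u := fun l T =>
    Integrable.bdd_mul (c := C + 1) K_int (Measurable.aestronglyMeasurable (by fun_prop))
      (Eventually.of_forall fun u => by
        rw [Real.norm_eq_abs, abs_le]
        constructor <;> linarith [hF1 (T + u / l)])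
  set I : ℝ := ∫ u, K u with hI
  have hIpos : 0 < I := K_pos
  set J : ℝ → ℝ := fun R => ∫ u in Icc (-R) R, K u with hJ
  have hJ0 : ∀ R, 0 ≤ J R := fun R => integral_nonneg fun u => K_nonneg u
  have hJI : Tendsto J atTop (𝓝 I) :=
    (aecover_Icc tendsto_neg_atTop_atBot tendsto_id).integral_tendsto_of_countably_generated K_int
  have hlin : ∀ R α β : ℝ, Integrable (fun u => α * indicator (Icc (-R) R) K u + β * K u) ∧
      ∫ u, (α * indicator (Icc (-R) R) K u + β * K u) = α * J R + β * I := by
    intro R α β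
    have i1 := (K_int.indicator (measurableSet_Icc (a := -R) (b := R))).const_mul α
    have i2 := K_int.const_mul β
    refine ⟨i1.add i2, ?_⟩
    rw [integral_add i1 i2, integral_const_mul, integral_const_mul,
      integral_indicator measurableSet_Icc]
  have hexp : ∀ b c : ℝ, Tendsto (fun δ : ℝ => b * Real.exp (c * δ)) (𝓝[>] 0) (𝓝 b) := by
    intro b c
    have : Continuous fun δ : ℝ => b * Real.exp (c * δ) := by fun_prop
    simpa using (this.tendsto 0).mono_left nhdsWithin_le_nhds
  refine tendsto_order.2 ⟨fun b hb => ?_, fun b hb => ?_⟩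
  · obtain ⟨δ, hδ1, hδ⟩ := (((hexp b 2).eventually (gt_mem_nhds hb)).and self_mem_nhdsWithin).exists
    have hδ : 0 < δ := hδ
    set β := b * Real.exp (2 * δ) with hβ
    have t1 : Tendsto (fun R => (β - 1 - C) * J R + C * I) atTop (𝓝 ((β - 1 - C) * I + C * I)) :=
      (hJI.const_mul _).add_const _
    obtain ⟨R, hR1, hR⟩ := ((t1.eventually (gt_mem_nhds (show (β - 1 - C) * I + C * I < 0 by
      nlinarith))).and (eventually_gt_atTop 0)).exists
    have hl : 0 < R / δ := div_pos hR hδ
    have t2 := ((hΦ _ hl).comp (tendsto_atTop_add_const_right atTop (-δ) tendsto_id)).eventually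
      (lt_mem_nhds hR1)
    filter_upwards [t2, eventually_gt_atTop (2 * δ)] with T hT hT2
    simp only [Function.comp, id] at hT
    obtain ⟨i1, e1⟩ := hlin R (a T * Real.exp (2 * δ) - 1 - C) C
    have b1 : ∫ u, F (T + -δ + u / (R / δ)) * K u ≤
        (a T * Real.exp (2 * δ) - 1 - C) * J R + C * I := by
      rw [← e1]
      refine integral_mono (hi _ _) i1 fun u => ?_
      simp only [indicator_apply]
      split_ifs with hu
      · rw [← add_mul]
        refine mul_le_mul_of_nonneg_right ?_ (K_nonneg u)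
        have c1 : -δ ≤ u / (R / δ) := by
          rw [le_div_iff₀ hl, neg_mul, mul_div_cancel₀ _ hδ.ne']; exact hu.1
        have c2 : u / (R / δ) ≤ δ := by
          rw [div_le_iff₀ hl, mul_div_cancel₀ _ hδ.ne']; exact hu.2
        set t := T + -δ + u / (R / δ) with ht
        rw [hF, indicator_of_mem (show t ∈ Ioi 0 by rw [mem_Ioi]; linarith)]
        have c3 := hmono t T (by linarith)
        have c4 : Real.exp T ≤ Real.exp (2 * δ) * Real.exp t := by
          rw [← Real.exp_add]; exact Real.exp_le_exp.2 (by linarith)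
        have c5 : a t * Real.exp t ≤ a T * Real.exp (2 * δ) * Real.exp t := by
          rw [mul_assoc]
          exact c3.trans (mul_le_mul_of_nonneg_left c4 (h0 T))
        have c6 := le_of_mul_le_mul_right c5 (Real.exp_pos t)
        linarith
      · rw [mul_zero, zero_add]
        exact mul_le_mul_of_nonneg_right (hF1 _).2 (K_nonneg u)
    by_contra hc
    have c1 : a T * Real.exp (2 * δ) ≤ β :=
      mul_le_mul_of_nonneg_right (not_lt.1 hc) (Real.exp_pos _).le
    have c2 := mul_le_mul_of_nonneg_right c1 (hJ0 R)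
    linarith
  · obtain ⟨δ, hδ1, hδ⟩ :=
      (((hexp b (-2)).eventually (lt_mem_nhds hb)).and self_mem_nhdsWithin).exists
    have hδ : 0 < δ := hδ
    set β := b * Real.exp (-2 * δ) with hβ
    have t1 : Tendsto (fun R => β * J R + (-1) * I) atTop (𝓝 (β * I + (-1) * I)) :=
      (hJI.const_mul _).add_const _
    obtain ⟨R, hR1, hR⟩ := ((t1.eventually (lt_mem_nhds (show 0 < β * I + (-1) * I by
      nlinarith))).and (eventually_gt_atTop 0)).exists
    have hl : 0 < R / δ := div_pos hR hδ
    have t2 := ((hΦ _ hl).comp (tendsto_atTop_add_const_right atTop δ tendsto_id)).eventually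
      (gt_mem_nhds hR1)
    filter_upwards [t2, eventually_gt_atTop 0] with T hT hT2
    simp only [Function.comp, id] at hT
    obtain ⟨i1, e1⟩ := hlin R (a T * Real.exp (-2 * δ)) (-1)
    have b1 : a T * Real.exp (-2 * δ) * J R + (-1) * I ≤
        ∫ u, F (T + δ + u / (R / δ)) * K u := by
      rw [← e1]
      refine integral_mono i1 (hi _ _) fun u => ?_
      simp only [indicator_apply]
      split_ifs with hu
      · rw [← add_mul]
        refine mul_le_mul_of_nonneg_right ?_ (K_nonneg u)
        have c1 : -δ ≤ u / (R / δ) := by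
          rw [le_div_iff₀ hl, neg_mul, mul_div_cancel₀ _ hδ.ne']; exact hu.1
        have c2 : u / (R / δ) ≤ δ := by
          rw [div_le_iff₀ hl, mul_div_cancel₀ _ hδ.ne']; exact hu.2
        set t := T + δ + u / (R / δ) with ht
        rw [hF, indicator_of_mem (show t ∈ Ioi 0 by rw [mem_Ioi]; linarith)]
        have c3 := hmono T t (by linarith)
        have c4 : Real.exp (-2 * δ) * Real.exp t ≤ Real.exp T := by
          rw [← Real.exp_add]; exact Real.exp_le_exp.2 (by linarith)
        have c5 : a T * Real.exp (-2 * δ) * Real.exp t ≤ a t * Real.exp t := by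
          rw [mul_assoc]
          exact (mul_le_mul_of_nonneg_left c4 (h0 T)).trans c3
        have c6 := le_of_mul_le_mul_right c5 (Real.exp_pos t)
        linarith
      · rw [mul_zero, zero_add]
        exact mul_le_mul_of_nonneg_right (hF1 _).1 (K_nonneg u)
    by_contra hc
    have c1 : β ≤ a T * Real.exp (-2 * δ) :=
      mul_le_mul_of_nonneg_right (not_lt.1 hc) (Real.exp_pos _).le
    have c2 := mul_le_mul_of_nonneg_right c1 (hJ0 R)
    linarith

open ArithmeticFunction

theorem sum_eq_psi (x : ℝ) : ∑ k ∈ Finset.Icc 1 ⌊x⌋₊, Λ k = Chebyshev.psi x := by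
  rw [Chebyshev.psi]
  rfl

theorem laplace_psi {z : ℂ} (hz : 0 < z.re) :
    (1 + z) * ∫ t in Ioi (0 : ℝ), ((Chebyshev.psi (Real.exp t) * Real.exp (-t) : ℝ) : ℂ) *
      Complex.exp (-z * t) = LSeries (fun n => (Λ n : ℂ)) (1 + z) := by
  have hO : (fun n : ℕ => ∑ k ∈ Finset.Icc 1 n, Λ k) =O[atTop] fun n : ℕ => (n : ℝ) ^ (1 : ℝ) := by
    refine Asymptotics.IsBigO.of_bound (Real.log 4 + 4) (Eventually.of_forall fun n => ?_)
    have := sum_eq_psi n
    rw [Nat.floor_natCast] at this
    rw [this, Real.rpow_one, Real.norm_of_nonneg (Chebyshev.psi_nonneg _),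
      Real.norm_of_nonneg (Nat.cast_nonneg _)]
    exact Chebyshev.psi_le_const_mul_self (Nat.cast_nonneg _)
  rw [LSeries_eq_mul_integral_of_nonneg (fun n => Λ n) zero_le_one (by simpa using hz) hO
    fun _ => vonMangoldt_nonneg, ← Real.exp_zero, ← integral_comp_exp_Ioi]
  congr 1
  refine integral_congr_ae (Eventually.of_forall fun t => ?_)
  simp only
  rw [← Complex.ofReal_sum, sum_eq_psi, Complex.real_smul, Complex.ofReal_exp,
    Complex.cpow_def_of_ne_zero (Complex.exp_ne_zero _), ← Complex.ofReal_exp,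
    ← Complex.ofReal_log (Real.exp_pos t).le, Real.log_exp]
  push_cast
  rw [mul_assoc, mul_left_comm (Complex.exp _), ← Complex.exp_add, ← Complex.exp_add]
  congr 2
  ring

theorem psi_exp : Tendsto (fun t => Chebyshev.psi (Real.exp t) * Real.exp (-t)) atTop (𝓝 1) := by
  set a : ℝ → ℝ := fun t => Chebyshev.psi (Real.exp t) * Real.exp (-t) with ha
  have hm : Measurable a :=
    (Chebyshev.psi_mono.measurable.comp Real.measurable_exp).mul (by fun_prop)
  have h0 : ∀ t, 0 ≤ a t := fun t => mul_nonneg (Chebyshev.psi_nonneg _) (Real.exp_pos _).le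
  have he : ∀ t, a t * Real.exp t = Chebyshev.psi (Real.exp t) := fun t => by
    rw [ha]
    simp only
    rw [mul_assoc, ← Real.exp_add, neg_add_cancel, Real.exp_zero, mul_one]
  have hC : ∀ t, a t ≤ Real.log 4 + 4 := fun t => by
    refine le_of_mul_le_mul_right ?_ (Real.exp_pos t)
    rw [he]
    exact Chebyshev.psi_le_const_mul_self (Real.exp_pos t).le
  refine T2 hm h0 hC (fun s t hst => ?_) fun l hl => ?_
  · rw [he, he]
    exact Chebyshev.psi_mono (Real.exp_le_exp.2 hst)
  set G : ℂ → ℂ := vonMangoldt.LFunctionResidueClassAux (1 : ZMod 1) with hG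
  refine T1 (C := Real.log 4 + 4 + 1) (g := fun z => (G (1 + z) - 1) / (1 + z)) (hm.sub_const 1)
    (fun t => abs_le.2 ⟨by linarith [h0 t, hC t], by linarith [hC t]⟩) ?_ (fun z hz => ?_) hl
  · refine ContinuousOn.div (ContinuousOn.sub ?_ continuousOn_const) (by fun_prop) fun z hz h => ?_
    · exact (vonMangoldt.continuousOn_LFunctionResidueClassAux (1 : ZMod 1)).comp (by fun_prop)
        fun z hz => by simpa using hz
    · have := congrArg Complex.re h
      have hz : 0 ≤ z.re := hz
      simp at this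
      linarith
  · have hz1 : 1 + z ≠ 0 := fun h => by
      have := congrArg Complex.re h
      simp at this
      linarith
    have hz0 : z ≠ 0 := fun h => by simp [h] at hz
    have e1 : G (1 + z) = LSeries (fun n => (Λ n : ℂ)) (1 + z) - 1 / z := by
      rw [hG, vonMangoldt.eqOn_LFunctionResidueClassAux isUnit_one (by simpa using hz)]
      have : ∀ n, vonMangoldt.residueClass (1 : ZMod 1) n = Λ n := fun n =>
        indicator_of_mem (s := {n : ℕ | (n : ZMod 1) = 1}) (Subsingleton.elim (n : ZMod 1) 1) _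
      simp [this]
    have i2 : IntegrableOn (fun t : ℝ => Complex.exp (-z * t)) (Ioi 0) :=
      integrableOn_exp_mul_complex_Ioi (by simpa using hz) 0
    have i1 : IntegrableOn (fun t : ℝ => (a t : ℂ) * Complex.exp (-z * t)) (Ioi 0) := by
      refine Integrable.bdd_mul (c := Real.log 4 + 4) i2
        (Complex.measurable_ofReal.comp hm).aestronglyMeasurable (Eventually.of_forall fun t => ?_)
      rw [Complex.norm_real, Real.norm_of_nonneg (h0 t)]
      exact hC t
    have e2 := integral_exp_mul_complex_Ioi (a := -z) (by simpa using hz) 0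
    have e3 := laplace_psi hz
    simp only [Complex.ofReal_sub, Complex.ofReal_one, sub_mul, one_mul]
    rw [integral_sub i1 i2, e2, e1, ← e3]
    simp only [Complex.ofReal_zero, mul_zero, Complex.exp_zero]
    field_simp
    ring

end PntAux

theorem pnt : PNT := by
  have h1 : Tendsto (fun x : ℝ => Chebyshev.psi x / x) atTop (𝓝 1) := by
    refine (PntAux.psi_exp.comp Real.tendsto_log_atTop).congr' ?_
    filter_upwards [eventually_gt_atTop 0] with x hx
    simp only [Function.comp]
    rw [Real.exp_neg, Real.exp_log hx, div_eq_mul_inv]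
  have h2 : Tendsto (fun x : ℝ => (Chebyshev.psi x - Chebyshev.theta x) / x) atTop (𝓝 0) := by
    have h3 : Real.sqrt =o[atTop] fun x : ℝ => x := by
      refine (Asymptotics.isLittleO_iff_tendsto' ?_).2 ?_
      · filter_upwards [eventually_gt_atTop 0] with x hx h
        exact absurd h hx.ne'
      · simp only [Real.sqrt_div_self']
        simp only [one_div]
        exact Real.tendsto_sqrt_atTop.inv_tendsto_atTop
    exact (Chebyshev.isBigO_psi_sub_theta_sqrt.trans_isLittleO h3).tendsto_div_nhds_zero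
  have h4 := h1.sub h2
  rw [sub_zero] at h4
  refine h4.congr fun x => ?_
  ring

end Crest.Agent.R6
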