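import Crest.Agent.R6.Defs

set_option autoImplicit false

open Finset Polynomial Filter Topology MeasureTheory Matrix

namespace Crest.Agent.R6

namespace PickAux

noncomputable section

variable {n : ℕ}

def Kr (w : Fin n → ℝ) : Matrix (Fin n) (Fin n) ℝ := Matrix.of fun i j => 1 / (1 - w i * w j)

def q (w : Fin n → ℝ) (x : Fin n → ℝ) : ℝ := ∑ i, ∑ j, Kr w i j * (x i * x j)

lemma one_sub_pos {a b : ℝ} (ha : |a| < 1) (hb : |b| < 1) : 0 < 1 - a * b := by
  have : |a * b| < 1 := by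
    rw [abs_mul]
    nlinarith [abs_nonneg a, abs_nonneg b]
  linarith [le_abs_self (a * b)]

def bl (a z : ℝ) : ℝ := (z - a) / (1 - a * z)

lemma q_bl (w : Fin n → ℝ) (hw : ∀ j, |w j| < 1) {a : ℝ} (ha : |a| < 1) (x : Fin n → ℝ) :
    q w (fun j => bl a (w j) * x j) ≤ q w x := by
  have key : q w x - q w (fun j => bl a (w j) * x j) =
      (1 - a * a) * (∑ i, x i / (1 - a * w i)) ^ 2 := by
    rw [sq, Finset.sum_mul_sum, Finset.mul_sum]
    unfold q
    rw [← Finset.sum_sub_distrib]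
    refine Finset.sum_congr rfl fun i _ => ?_
    rw [← Finset.sum_sub_distrib, Finset.mul_sum]
    refine Finset.sum_congr rfl fun j _ => ?_
    have h1 := (one_sub_pos ha (hw i)).ne'
    have h2 := (one_sub_pos ha (hw j)).ne'
    have h3 := (one_sub_pos (hw i) (hw j)).ne'
    simp only [Kr, bl, Matrix.of_apply]
    have h4 : 1 - w i * a ≠ 0 := by rwa [mul_comm]
    have h5 : 1 - w j * a ≠ 0 := by rwa [mul_comm]
    have h6 : 1 - w j * w i ≠ 0 := by rwa [mul_comm]
    field_simp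
    ring
  have := mul_nonneg (one_sub_pos ha ha).le (sq_nonneg (∑ i, x i / (1 - a * w i)))
  linarith

lemma q_nonneg (w : Fin n → ℝ) (hw : ∀ j, |w j| < 1) (x : Fin n → ℝ) : 0 ≤ q w x := by
  have h1 : ∀ m : ℕ, q w (fun j => w j ^ m * x j) ≤ q w x := by
    intro m
    induction m with
    | zero => simp
    | succ m ih =>
      have := q_bl w hw (a := 0) (by simp) (fun j => w j ^ m * x j)
      simp only [bl, sub_zero, zero_mul, div_one] at this
      refine le_trans (le_of_eq ?_) (this.trans ih)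
      congr 1; ext j; ring
  have h2 : Tendsto (fun m : ℕ => q w (fun j => w j ^ m * x j)) atTop
      (𝓝 (∑ i, ∑ j, Kr w i j * ((0 * x i) * (0 * x j)))) := by
    unfold q
    refine tendsto_finsetSum _ fun i _ => tendsto_finsetSum _ fun j _ => ?_
    refine Tendsto.const_mul _ (Tendsto.mul (Tendsto.mul_const _ ?_) (Tendsto.mul_const _ ?_))
    · exact tendsto_pow_atTop_nhds_zero_of_abs_lt_one (hw i)
    · exact tendsto_pow_atTop_nhds_zero_of_abs_lt_one (hw j)
  simp only [zero_mul, mul_zero, Finset.sum_const_zero] at h2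
  exact le_of_tendsto' h2 h1

lemma q_eq (w x : Fin n → ℝ) : q w x = x ⬝ᵥ Kr w *ᵥ x := by
  unfold q
  simp only [dotProduct, mulVec, Finset.mul_sum]
  refine Finset.sum_congr rfl fun i _ => Finset.sum_congr rfl fun j _ => by ring

lemma Kr_symm (w : Fin n → ℝ) : (Kr w)ᵀ = Kr w := by
  ext i j; simp [Kr, mul_comm]

open scoped MatrixOrder in
lemma exists_B (w : Fin n → ℝ) (hw : ∀ j, |w j| < 1) :
    ∃ B : Matrix (Fin n) (Fin n) ℝ, Kr w = Bᵀ * B := by
  have h : (Kr w).PosSemidef := by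
    rw [Matrix.posSemidef_iff_dotProduct_mulVec]
    refine ⟨?_, fun x => ?_⟩
    · unfold Matrix.IsHermitian
      rw [Matrix.conjTranspose_eq_transpose_of_trivial, Kr_symm]
    · have := q_nonneg w hw x
      rw [q_eq] at this
      simpa using this
  obtain ⟨B, hB⟩ := CStarAlgebra.nonneg_iff_eq_star_mul_self.mp h.nonneg
  exact ⟨B, by rw [hB, Matrix.star_eq_conjTranspose, Matrix.conjTranspose_eq_transpose_of_trivial]⟩

/-- the linear map realising the norm -/
def Lm (B : Matrix (Fin n) (Fin n) ℝ) : (Fin n → ℂ) →ₗ[ℂ] EuclideanSpace ℂ (Fin n) :=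
  (WithLp.linearEquiv 2 ℂ (Fin n → ℂ)).symm.toLinearMap ∘ₗ Matrix.mulVecLin (B.map Complex.ofReal)

lemma Lm_sq (w : Fin n → ℝ) (B : Matrix (Fin n) (Fin n) ℝ) (hB : Kr w = Bᵀ * B) (x : Fin n → ℂ) :
    ‖Lm B x‖ ^ 2 = q w (fun j => (x j).re) + q w (fun j => (x j).im) := by
  have h : ∀ y : Fin n → ℝ, q w y = ∑ i, (∑ j, B i j * y j) ^ 2 := by
    intro y
    rw [q_eq, hB, ← Matrix.mulVec_mulVec, Matrix.dotProduct_mulVec, Matrix.vecMul_transpose]
    simp only [dotProduct, mulVec, sq]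
  rw [h, h, EuclideanSpace.norm_sq_eq, ← Finset.sum_add_distrib]
  refine Finset.sum_congr rfl fun i _ => ?_
  rw [Complex.sq_norm, Complex.normSq_apply]
  simp [Lm, mulVec, dotProduct, sq]

/-- multiplier bound -/
def Bd (B : Matrix (Fin n) (Fin n) ℝ) (φ : Fin n → ℂ) (C : ℝ) : Prop :=
  ∀ x : Fin n → ℂ, ‖Lm B (φ * x)‖ ≤ C * ‖Lm B x‖

variable {B : Matrix (Fin n) (Fin n) ℝ}

lemma Bd.mono {φ : Fin n → ℂ} {C D : ℝ} (h : Bd B φ C) (hCD : C ≤ D) : Bd B φ D :=
  fun x => (h x).trans (mul_le_mul_of_nonneg_right hCD (norm_nonneg _))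

lemma Bd.congr {φ ψ : Fin n → ℂ} {C : ℝ} (h : Bd B φ C) (e : ∀ j, φ j = ψ j) : Bd B ψ C := by
  have : φ = ψ := funext e
  exact this ▸ h

lemma Bd.add {φ ψ : Fin n → ℂ} {C D : ℝ} (h : Bd B φ C) (h' : Bd B ψ D) :
    Bd B (fun j => φ j + ψ j) (C + D) := by
  intro x
  have : (fun j => φ j + ψ j) * x = φ * x + ψ * x := by ext j; simp [add_mul]
  rw [this, map_add, add_mul]
  exact (norm_add_le _ _).trans (add_le_add (h x) (h' x))

lemma Bd.mul {φ ψ : Fin n → ℂ} {C D : ℝ} (h : Bd B φ C) (h' : Bd B ψ D) (hC : 0 ≤ C) :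
    Bd B (fun j => φ j * ψ j) (C * D) := by
  intro x
  have : (fun j => φ j * ψ j) * x = φ * (ψ * x) := by ext j; simp [mul_assoc]
  rw [this, mul_assoc]
  exact (h _).trans (mul_le_mul_of_nonneg_left (h' x) hC)

lemma Bd.const (c : ℂ) : Bd B (fun _ => c) ‖c‖ := by
  intro x
  have : (fun _ => c) * x = c • x := by ext j; simp
  rw [this, map_smul, norm_smul]

lemma Bd.bl {w : Fin n → ℝ} (hw : ∀ j, |w j| < 1) (hB : Kr w = Bᵀ * B) {a : ℝ} (ha : |a| < 1) :
    Bd B (fun j => (bl a (w j) : ℂ)) 1 := by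
  intro x
  rw [one_mul, ← sq_le_sq₀ (norm_nonneg _) (norm_nonneg _), Lm_sq w B hB, Lm_sq w B hB]
  have h1 := q_bl w hw ha (fun j => (x j).re)
  have h2 := q_bl w hw ha (fun j => (x j).im)
  simp only [Pi.mul_apply, Complex.re_ofReal_mul, Complex.im_ofReal_mul]
  linarith

lemma Bd.pow {w : Fin n → ℝ} (hw : ∀ j, |w j| < 1) (hB : Kr w = Bᵀ * B) (m : ℕ) :
    Bd B (fun j => (w j : ℂ) ^ m) 1 := by
  induction m with
  | zero => simpa using (Bd.const (B := B) 1)
  | succ m ih =>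
    have h := ih.mul (Bd.bl hw hB (a := 0) (by simp)) zero_le_one
    rw [one_mul] at h
    exact h.congr fun j => by simp [PickAux.bl, pow_succ]

lemma Bd.prod {w : Fin n → ℝ} (hw : ∀ j, |w j| < 1) (hB : Kr w = Bᵀ * B) (S : Finset (Fin n)) :
    Bd B (fun j => ∏ i ∈ S, (PickAux.bl (w i) (w j) : ℂ)) 1 := by
  induction S using Finset.induction_on with
  | empty => simpa using (Bd.const (B := B) 1)
  | insert k S hk ih =>
    have h := (Bd.bl hw hB (hw k)).mul ih zero_le_one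
    rw [one_mul] at h
    exact h.congr fun j => by rw [Finset.prod_insert hk]

def blc (a : ℝ) (z : ℂ) : ℂ := (z - a) / (1 - a * z)

/-- resolvent bound -/
lemma res {w : Fin n → ℝ} (hw : ∀ j, |w j| < 1) (hB : Kr w = Bᵀ * B) (l : ℂ) (c : ℝ) (hc : 0 ≤ c)
    (h1 : ∀ k, l - w k ≠ 0) (h2 : ∀ k, 1 - w k * l ≠ 0)
    (h3 : ∀ (S : Finset (Fin n)) k, k ∉ S → ‖((l - w k) * ∏ i ∈ S, blc (w i) l)⁻¹‖ ≤ c) :
    Bd B (fun j => (l - w j)⁻¹) (2 * n * c) := by
  have hb : ∀ k, blc (w k) l ≠ 0 := fun k => div_ne_zero (h1 k) (h2 k)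
  have main : ∀ S : Finset (Fin n), Bd B (fun j => (l - w j)⁻¹ *
      (1 - (∏ i ∈ S, (bl (w i) (w j) : ℂ)) / ∏ i ∈ S, blc (w i) l)) (2 * S.card * c) := by
    intro S
    induction S using Finset.induction_on with
    | empty => simpa using (Bd.const (B := B) 0)
    | insert k S hk ih =>
      have e1 : Bd B (fun j => 1 + (w k : ℂ) * (bl (w k) (w j) : ℂ)) 2 := by
        have a1 := (Bd.const (B := B) 1).add
          ((Bd.const (B := B) (w k : ℂ)).mul (Bd.bl hw hB (hw k)) (norm_nonneg _))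
        refine a1.mono ?_
        have := hw k
        simp only [norm_one, Complex.norm_real, Real.norm_eq_abs]
        linarith
      have e2 := (((Bd.const (B := B) ((l - w k) * ∏ i ∈ S, blc (w i) l)⁻¹).mono (h3 S k hk)).mul
        (Bd.prod hw hB S) hc).mul e1 (by positivity)
      have e3 := ih.add e2
      refine (e3.congr fun j => ?_).mono (le_of_eq ?_)
      · rw [Finset.prod_insert hk, Finset.prod_insert hk]
        have hP : ∏ i ∈ S, blc (w i) l ≠ 0 := Finset.prod_ne_zero_iff.mpr fun i _ => hb i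
        have g1 := h1 j
        have g2 := h1 k
        have g3 := h2 k
        have g4 : (1 : ℂ) - w k * w j ≠ 0 := by
          exact_mod_cast (one_sub_pos (hw k) (hw j)).ne'
        have g5 : (1 : ℂ) - w j * w k ≠ 0 := by rwa [mul_comm]
        have g6 : (1 : ℂ) - l * w k ≠ 0 := by rwa [mul_comm]
        generalize ∏ i ∈ S, blc (w i) l = P at hP ⊢
        generalize ∏ i ∈ S, (bl (w i) (w j) : ℂ) = P'
        simp only [bl, blc]
        push_cast
        field_simp
        ring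
      · rw [Finset.card_insert_of_notMem hk]; push_cast; ring
  have := main Finset.univ
  simp only [Finset.card_univ, Fintype.card_fin] at this
  refine this.congr fun j => ?_
  rw [Finset.prod_eq_zero (Finset.mem_univ j) (by simp [bl])]
  simp

lemma bl_lower {A t : ℝ} (hA0 : 0 ≤ A) (hA1 : A < 1) (ht0 : 0 < t) (ht1 : t ≤ 1) :
    t ^ ((1 - A) / (1 + A)) ≤ (t + A) / (1 + A * t) := by
  set r := (1 - A) / (1 + A) with hr
  let g : ℝ → ℝ := fun u => Real.log (u + A) - Real.log (1 + A * u) - r * Real.log u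
  have hd : ∀ u, 0 < u → HasDerivAt g (1 / (u + A) - A / (1 + A * u) - r * u⁻¹) u := by
    intro u hu
    have h1 : HasDerivAt (fun u => Real.log (u + A)) (1 / (u + A)) u :=
      ((hasDerivAt_id u).add_const A).log (by simp; linarith)
    have h2 : HasDerivAt (fun u => Real.log (1 + A * u)) (A * 1 / (1 + A * u)) u :=
      (((hasDerivAt_id u).const_mul A).const_add 1).log (by simp; positivity)
    have h3 := (Real.hasDerivAt_log hu.ne').const_mul r
    rw [mul_one] at h2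
    exact (h1.sub h2).sub h3
  have hanti : AntitoneOn g (Set.Icc t 1) := by
    refine antitoneOn_of_deriv_nonpos (convex_Icc _ _) ?_ ?_ ?_
    · intro u hu
      exact (hd u (lt_of_lt_of_le ht0 hu.1)).continuousAt.continuousWithinAt
    · intro u hu
      exact (hd u (lt_of_lt_of_le ht0 (interior_subset hu).1)).differentiableAt.differentiableWithinAt
    · intro u hu
      have hu0 : 0 < u := lt_of_lt_of_le ht0 (interior_subset hu).1
      rw [(hd u hu0).deriv, hr]
      have e : 1 / (u + A) - A / (1 + A * u) - (1 - A) / (1 + A) * u⁻¹ =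
          -((1 - A) * A * (1 - u) ^ 2) / ((u + A) * (1 + A * u) * (1 + A) * u) := by
        have : u + A ≠ 0 := by linarith
        have : 1 + A * u ≠ 0 := by positivity
        have : 1 + u * A ≠ 0 := by positivity
        have : 1 + A ≠ 0 := by positivity
        field_simp
        ring
      rw [e]
      refine div_nonpos_of_nonpos_of_nonneg ?_ (by positivity)
      have : 0 ≤ (1 - A) * A * (1 - u) ^ 2 := by
        have : 0 ≤ 1 - A := by linarith
        positivity
      linarith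
  have h := hanti ⟨le_rfl, ht1⟩ ⟨ht1, le_rfl⟩ ht1
  simp only [g, mul_one, Real.log_one, mul_zero, sub_zero, sub_self] at h
  rw [← Real.log_le_log_iff (by positivity) (by positivity), Real.log_rpow ht0,
    Real.log_div (by positivity) (by positivity)]
  linarith

lemma normSq_blc (a y : ℝ) : ‖blc a (y * Complex.I)‖ ^ 2 = (y ^ 2 + a ^ 2) / (1 + a ^ 2 * y ^ 2) := by
  unfold blc
  rw [norm_div, div_pow, Complex.sq_norm, Complex.sq_norm, Complex.normSq_apply, Complex.normSq_apply]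
  simp
  ring

lemma norm_sub_sq' (a y : ℝ) : ‖(y * Complex.I - a : ℂ)‖ ^ 2 = y ^ 2 + a ^ 2 := by
  rw [Complex.sq_norm, Complex.normSq_apply]
  simp
  ring

lemma ne1 (a : ℝ) {y : ℝ} (hy : y ≠ 0) : (y * Complex.I - a : ℂ) ≠ 0 := by
  intro h
  have := congrArg Complex.im h
  simp at this
  exact hy this

lemma ne2 (a y : ℝ) : (1 - a * (y * Complex.I) : ℂ) ≠ 0 := by
  intro h
  have := congrArg Complex.re h
  simp at this

lemma res_small {w : Fin n → ℝ} (hw : ∀ j, |w j| < 1) (hB : Kr w = Bᵀ * B) (M : ℕ)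
    (hM : ∑ j, (1 - w j ^ 2) / (1 + w j ^ 2) ≤ (M : ℝ)) {y : ℝ} (hy0 : y ≠ 0) (hy1 : |y| ≤ 1) :
    Bd B (fun j => (w j : ℂ) ^ M * (y * Complex.I - w j)⁻¹) (2 * n + M) := by
  have hy : 0 < |y| := abs_pos.mpr hy0
  have hw2 : ∀ j, w j ^ 2 < 1 := fun j => by
    have := hw j
    rw [← sq_abs]; nlinarith [abs_nonneg (w j)]
  have hr : ∀ j, 0 ≤ (1 - w j ^ 2) / (1 + w j ^ 2) := fun j =>
    div_nonneg (by linarith [hw2 j]) (by positivity)
  have hb : ∀ j, |y| ^ ((1 - w j ^ 2) / (1 + w j ^ 2)) ≤ ‖blc (w j) (y * Complex.I)‖ := by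
    intro j
    rw [← sq_le_sq₀ (by positivity) (norm_nonneg _), normSq_blc]
    have := bl_lower (sq_nonneg (w j)) (hw2 j) (t := y ^ 2) (by positivity)
      (by rw [← sq_abs]; nlinarith)
    refine le_trans (le_of_eq ?_) this
    generalize (1 - w j ^ 2) / (1 + w j ^ 2) = r
    rw [← sq_abs y, ← Real.rpow_natCast, ← Real.rpow_mul hy.le, ← Real.rpow_natCast,
      ← Real.rpow_mul hy.le, mul_comm]
  have h1 := res hw hB (y * Complex.I) (|y| ^ M)⁻¹ (by positivity) (fun k => ne1 _ hy0)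
    (fun k => ne2 _ _) (by
      intro S k hk
      rw [norm_inv]
      refine inv_anti₀ (by positivity) ?_
      have e1 : ‖blc (w k) (y * Complex.I)‖ ≤ ‖(y * Complex.I - w k : ℂ)‖ := by
        rw [← sq_le_sq₀ (norm_nonneg _) (norm_nonneg _), normSq_blc, norm_sub_sq']
        exact div_le_self (by positivity) (by nlinarith [sq_nonneg (w k * y)])
      rw [norm_mul, norm_prod]
      calc |y| ^ M = |y| ^ (M : ℝ) := (Real.rpow_natCast _ _).symm
        _ ≤ |y| ^ (∑ i ∈ insert k S, (1 - w i ^ 2) / (1 + w i ^ 2)) := by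
          refine Real.rpow_le_rpow_of_exponent_ge hy hy1 (le_trans ?_ hM)
          exact Finset.sum_le_sum_of_subset_of_nonneg (Finset.subset_univ _) fun i _ _ => hr i
        _ = ∏ i ∈ insert k S, |y| ^ ((1 - w i ^ 2) / (1 + w i ^ 2)) := Real.rpow_sum_of_pos hy _ _
        _ ≤ ∏ i ∈ insert k S, ‖blc (w i) (y * Complex.I)‖ :=
          Finset.prod_le_prod (fun i _ => by positivity) fun i _ => hb i
        _ ≤ _ := by
          rw [Finset.prod_insert hk]
          exact mul_le_mul_of_nonneg_right e1 (Finset.prod_nonneg fun i _ => norm_nonneg _))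
  have hl : ‖(y * Complex.I : ℂ)‖ = |y| := by simp
  have h2 : ∀ m : ℕ, Bd B (fun j => ((w j : ℂ) ^ m - (y * Complex.I) ^ m) *
      (y * Complex.I - w j)⁻¹) m := by
    intro m
    induction m with
    | zero => simpa using (Bd.const (B := B) 0)
    | succ m ih =>
      have a1 := ((Bd.pow hw hB 1).mul ih zero_le_one).add
        ((Bd.const (B := B) (-(y * Complex.I) ^ m)).mono (D := 1) (by
          rw [norm_neg, norm_pow, hl]; exact pow_le_one₀ hy.le hy1))
      refine (a1.congr fun j => ?_).mono (by push_cast; linarith)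
      have := ne1 (w j) hy0
      field_simp
      ring
  have h3 := (((Bd.const (B := B) ((y * Complex.I) ^ M)).mul h1 (norm_nonneg _)).add (h2 M))
  refine (h3.congr fun j => by ring).mono (le_of_eq ?_)
  rw [norm_pow, hl]
  field_simp

lemma res_big {w : Fin n → ℝ} (hw : ∀ j, |w j| < 1) (hB : Kr w = Bᵀ * B)
    {y : ℝ} (hy1 : 1 ≤ |y|) :
    Bd B (fun j => (y * Complex.I) * (y * Complex.I - w j)⁻¹) (2 * n) := by
  have hy : 0 < |y| := by linarith
  have hy0 : y ≠ 0 := abs_pos.mp hy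
  have hw2 : ∀ j, w j ^ 2 < 1 := fun j => by
    have := hw j
    rw [← sq_abs]; nlinarith [abs_nonneg (w j)]
  have hy2 : 1 ≤ y ^ 2 := by rw [← sq_abs]; nlinarith
  have hb : ∀ j, 1 ≤ ‖blc (w j) (y * Complex.I)‖ := by
    intro j
    rw [← sq_le_sq₀ (by positivity) (norm_nonneg _), normSq_blc, le_div_iff₀ (by positivity)]
    nlinarith [mul_nonneg (sub_nonneg.mpr hy2) (sub_nonneg.mpr (hw2 j).le)]
  have h1 := res hw hB (y * Complex.I) |y|⁻¹ (by positivity) (fun k => ne1 _ hy0)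
    (fun k => ne2 _ _) (by
      intro S k hk
      rw [norm_inv]
      refine inv_anti₀ (by positivity) ?_
      have e1 : |y| ≤ ‖(y * Complex.I - w k : ℂ)‖ := by
        rw [← sq_le_sq₀ (abs_nonneg _) (norm_nonneg _), norm_sub_sq', sq_abs]
        nlinarith [sq_nonneg (w k)]
      rw [norm_mul, norm_prod]
      have e2 : 1 ≤ ∏ i ∈ S, ‖blc (w i) (y * Complex.I)‖ := Finset.one_le_prod fun i _ => hb i
      nlinarith)
  have hl : ‖(y * Complex.I : ℂ)‖ = |y| := by simp
  have h3 := (Bd.const (B := B) (y * Complex.I)).mul h1 (norm_nonneg _)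
  refine h3.mono (le_of_eq ?_)
  rw [hl]
  field_simp

def ker (M : ℕ) (a y : ℝ) : ℝ := a ^ M * (a / (a ^ 2 + y ^ 2) + a / (1 + a ^ 2 * y ^ 2))

lemma ker_bd {w : Fin n → ℝ} (hw : ∀ j, |w j| < 1) (hB : Kr w = Bᵀ * B) (M : ℕ)
    (hM : ∑ j, (1 - w j ^ 2) / (1 + w j ^ 2) ≤ (M : ℝ)) {y : ℝ} (hy0 : 0 < y) (hy1 : y ≤ 1) :
    Bd B (fun j => (ker M (w j) y : ℂ)) (4 * n + M) := by
  have a1 := res_small hw hB M hM hy0.ne' (by rwa [abs_of_pos hy0])
  have a2 := res_small hw hB M hM (y := -y) (neg_ne_zero.mpr hy0.ne') (by rwa [abs_neg, abs_of_pos hy0])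
  have hi : 1 ≤ y⁻¹ := (one_le_inv₀ hy0).mpr hy1
  have a3 := res_big hw hB (y := y⁻¹) (by rwa [abs_of_pos (inv_pos.mpr hy0)])
  have a4 := res_big hw hB (y := -y⁻¹) (by rwa [abs_neg, abs_of_pos (inv_pos.mpr hy0)])
  have b1 := (Bd.const (B := B) (-1 / 2)).mul (a1.add a2) (norm_nonneg _)
  have b2 := ((Bd.const (B := B) (1 / 2)).mul (Bd.pow hw hB (M + 1)) (norm_nonneg _)).mul
    (a3.add a4) (by positivity)
  refine ((b1.add b2).congr fun j => ?_).mono (le_of_eq ?_)
  · have h1 := ne1 (w j) hy0.ne'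
    have h2 := ne1 (w j) (neg_ne_zero.mpr hy0.ne')
    have h3 := ne1 (w j) (inv_pos.mpr hy0).ne'
    have h4 := ne1 (w j) (neg_ne_zero.mpr (inv_pos.mpr hy0).ne')
    have h5 : ((w j : ℂ) ^ 2 + (y : ℂ) ^ 2) ≠ 0 := by
      have : 0 < w j ^ 2 + y ^ 2 := by positivity
      exact_mod_cast this.ne'
    have h6 : (1 + (w j : ℂ) ^ 2 * (y : ℂ) ^ 2) ≠ 0 := by
      have : 0 < 1 + w j ^ 2 * y ^ 2 := by positivity
      exact_mod_cast this.ne'
    have h7 : (y : ℂ) ≠ 0 := by exact_mod_cast hy0.ne'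
    have e1 : ((y : ℂ) * Complex.I - w j)⁻¹ + (((-y : ℝ) : ℂ) * Complex.I - w j)⁻¹ =
        -2 * (w j / ((w j : ℂ) ^ 2 + (y : ℂ) ^ 2)) := by
      rw [inv_add_inv h1 h2, ← mul_div_assoc, div_eq_div_iff (mul_ne_zero h1 h2) h5]
      push_cast
      linear_combination (-2 * (w j : ℂ) * y ^ 2) * Complex.I_sq
    have e2 : ((y⁻¹ : ℝ) : ℂ) * Complex.I * (((y⁻¹ : ℝ) : ℂ) * Complex.I - w j)⁻¹ +
        ((-y⁻¹ : ℝ) : ℂ) * Complex.I * (((-y⁻¹ : ℝ) : ℂ) * Complex.I - w j)⁻¹ =
        2 / (1 + (w j : ℂ) ^ 2 * (y : ℂ) ^ 2) := by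
      rw [← div_eq_mul_inv, ← div_eq_mul_inv, div_add_div _ _ h3 h4,
        div_eq_div_iff (mul_ne_zero h3 h4) h6]
      push_cast
      have h8 : (y : ℂ) * (y : ℂ)⁻¹ = 1 := mul_inv_cancel₀ h7
      generalize (y : ℂ)⁻¹ = z at h8 ⊢
      linear_combination (-2 * (w j : ℂ) ^ 2 * y ^ 2 * z ^ 2) * Complex.I_sq +
        (2 * (w j : ℂ) ^ 2 * (y * z + 1)) * h8
    rw [e2, ← mul_add, e1]
    unfold ker
    push_cast
    ring
  · simp
    ring

lemma ker_cont (M : ℕ) {a : ℝ} (ha : a ≠ 0) : Continuous (ker M a) := by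
  unfold ker
  refine continuous_const.mul (Continuous.add (Continuous.div continuous_const (by fun_prop) fun y => ?_)
    (Continuous.div continuous_const (by fun_prop) fun y => ?_))
  · positivity
  · positivity

lemma ker_int (M : ℕ) {a : ℝ} (ha : a ≠ 0) :
    ∫ y in (0 : ℝ)..1, ker M a y = a ^ M * (if 0 < a then Real.pi / 2 else -(Real.pi / 2)) := by
  have hd : ∀ y ∈ Set.uIcc (0 : ℝ) 1, HasDerivAt
      (fun y => a ^ M * (Real.arctan (y / a) + Real.arctan (a * y))) (ker M a y) y := by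
    intro y _
    have h1 := ((hasDerivAt_id y).div_const a).arctan
    have h2 := ((hasDerivAt_id y).const_mul a).arctan
    have h3 := (h1.add h2).const_mul (a ^ M)
    have e : ker M a y = a ^ M * (1 / (1 + (id y / a) ^ 2) * (1 / a) + 1 / (1 + (a * id y) ^ 2) * (a * 1)) := by
      unfold ker
      simp only [id]
      congr 2
      · field_simp
      · field_simp
    rw [e]
    exact h3
  rw [intervalIntegral.integral_eq_sub_of_hasDerivAt hd ((ker_cont M ha).intervalIntegrable _ _)]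
  simp only [one_div, mul_one, zero_div, mul_zero, Real.arctan_zero, add_zero, sub_zero]
  congr 1
  split_ifs with h
  · rw [Real.arctan_inv_of_pos h]; ring
  · rw [Real.arctan_inv_of_neg (lt_of_le_of_ne (not_lt.mp h) ha)]; ring

lemma sgn_bd {w : Fin n → ℝ} (hw : ∀ j, |w j| < 1) (hw0 : ∀ j, w j ≠ 0) (hB : Kr w = Bᵀ * B) (M : ℕ)
    (hM : ∑ j, (1 - w j ^ 2) / (1 + w j ^ 2) ≤ (M : ℝ)) :
    Bd B (fun j => ((w j ^ M * (if 0 < w j then Real.pi / 2 else -(Real.pi / 2)) : ℝ) : ℂ))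
      (4 * n + M) := by
  intro x
  let T : (Fin n → ℂ) →L[ℂ] EuclideanSpace ℂ (Fin n) :=
    LinearMap.toContinuousLinearMap (Lm B ∘ₗ LinearMap.mulRight ℂ x)
  have hT : ∀ φ, T φ = Lm B (φ * x) := fun φ => rfl
  let f : ℝ → Fin n → ℂ := fun y j => (ker M (w j) y : ℂ)
  have hf : Continuous f := continuous_pi fun j => Complex.continuous_ofReal.comp (ker_cont M (hw0 j))
  have e : (fun j => ((w j ^ M * (if 0 < w j then Real.pi / 2 else -(Real.pi / 2)) : ℝ) : ℂ)) =
      ∫ y in (0 : ℝ)..1, f y := by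
    ext j
    have := (ContinuousLinearMap.proj (R := ℂ) (φ := fun _ : Fin n => ℂ) j).intervalIntegral_comp_comm
      (hf.intervalIntegrable (μ := volume) 0 1)
    simp only [ContinuousLinearMap.proj_apply] at this
    rw [← this, ← ker_int M (hw0 j)]
    exact (intervalIntegral.integral_ofReal).symm
  rw [e, ← hT, ← T.intervalIntegral_comp_comm (hf.intervalIntegrable 0 1)]
  have := intervalIntegral.norm_integral_le_of_norm_le_const (a := 0) (b := 1)
    (f := fun y => T (f y)) (C := (4 * n + M) * ‖Lm B x‖) (fun y hy => by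
      rw [Set.uIoc_of_le zero_le_one] at hy
      exact ker_bd hw hB M hM hy.1 hy.2 x)
  simpa using this

lemma c_bd {w : Fin n → ℝ} (hw : ∀ j, |w j| < 1) (hw0 : ∀ j, w j ≠ 0) (hB : Kr w = Bᵀ * B) (M : ℕ)
    (hM : ∑ j, (1 - w j ^ 2) / (1 + w j ^ 2) ≤ (M : ℝ)) :
    Bd B (fun j => (((if 0 < w j then -5 else 1) * w j ^ M : ℝ) : ℂ)) (2 + 3 * (4 * n + M)) := by
  have hpi := Real.pi_pos
  have h1 := ((Bd.const (B := B) (-2)).mul (Bd.pow hw hB M) (norm_nonneg _)).add
    (((Bd.const (B := B) ((-6 / Real.pi : ℝ) : ℂ)).mono (D := 3) (by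
      rw [Complex.norm_real, Real.norm_eq_abs, abs_div, abs_of_pos hpi, div_le_iff₀ hpi]
      have := Real.pi_gt_three
      norm_num
      linarith)).mul (sgn_bd hw hw0 hB M hM) (by norm_num))
  refine (h1.congr fun j => ?_).mono (by simp)
  have : (-2 : ℝ) * w j ^ M + (-6 / Real.pi) * (w j ^ M * (if 0 < w j then Real.pi / 2 else -(Real.pi / 2))) =
      (if 0 < w j then -5 else 1) * w j ^ M := by
    split_ifs <;> field_simp <;> ring
  rw [← this]
  push_cast
  ring

lemma det_bd (T : Matrix (Fin n) (Fin n) ℂ) (N : (Fin n → ℂ) →ₗ[ℂ] EuclideanSpace ℂ (Fin n)) (C : ℝ)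
    (hN : ∀ x, N x = 0 → x = 0) (h : ∀ x, ‖N (T *ᵥ x)‖ ≤ C * ‖N x‖) : ‖T.det‖ ≤ C ^ n := by
  have hroot : ∀ μ ∈ T.charpoly.roots, ‖μ‖ ≤ C := by
    intro μ hμ
    have h0 : T.charpoly.eval μ = 0 := (Polynomial.mem_roots T.charpoly_monic.ne_zero).mp hμ
    rw [Matrix.eval_charpoly] at h0
    obtain ⟨v, hv, hv0⟩ := Matrix.exists_mulVec_eq_zero_iff.mpr h0
    have e : T *ᵥ v = μ • v := by
      rw [Matrix.sub_mulVec, sub_eq_zero] at hv0
      rw [← hv0]
      ext i
      simp [Matrix.scalar_apply, Matrix.mulVec_diagonal]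
    have h1 := h v
    rw [e, map_smul, norm_smul] at h1
    have h2 : 0 < ‖N v‖ := norm_pos_iff.mpr fun h => hv (hN v h)
    exact le_of_mul_le_mul_right h1 h2
  have hcard : Multiset.card T.charpoly.roots = n := by
    rw [← (IsAlgClosed.splits T.charpoly).natDegree_eq_card_roots, Matrix.charpoly_natDegree_eq_dim]
    simp
  rw [Matrix.det_eq_prod_roots_charpoly]
  generalize T.charpoly.roots = s at hroot hcard
  rw [← hcard]
  clear hcard
  induction s using Multiset.induction_on with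
  | empty => simp
  | cons a s ih =>
    rw [Multiset.prod_cons, norm_mul, Multiset.card_cons, pow_succ']
    have ha := hroot a (Multiset.mem_cons_self _ _)
    exact mul_le_mul ha (ih fun μ hμ => hroot μ (Multiset.mem_cons_of_mem hμ)) (norm_nonneg _)
      ((norm_nonneg _).trans ha)

def Ps (w : Fin n → ℝ) (j : Fin n) : ℝ := ∏ i, (1 - w j * w i)

def Pd (w : Fin n → ℝ) (m : Fin n) : ℝ := ∏ i ∈ univ.erase m, (w m - w i)

def Wm (w : Fin n → ℝ) : Matrix (Fin n) (Fin n) ℝ := Matrix.of fun j l => w j ^ (l : ℕ) / Ps w j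

def KL (w : Fin n → ℝ) : Matrix (Fin n) (Fin n) ℝ := Kr w * Matrix.diagonal fun m => Ps w m / Pd w m

lemma Ps_ne {w : Fin n → ℝ} (hw : ∀ j, |w j| < 1) (j : Fin n) : Ps w j ≠ 0 :=
  Finset.prod_ne_zero_iff.mpr fun i _ => (one_sub_pos (hw j) (hw i)).ne'

lemma lagr {w : Fin n → ℝ} (hi : Function.Injective w) (l : Fin n) (x : ℝ) :
    x ^ (l : ℕ) = ∑ m, w m ^ (l : ℕ) * ((∏ i ∈ univ.erase m, (x - w i)) / Pd w m) := by
  have h := Lagrange.eq_interpolate (s := (univ : Finset (Fin n))) (v := w) (f := X ^ (l : ℕ))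
    hi.injOn (by simp)
  have h2 := congrArg (Polynomial.eval x) h
  rw [Lagrange.interpolate_apply, Polynomial.eval_finsetSum] at h2
  simp only [eval_pow, eval_X, eval_mul, eval_C] at h2
  rw [h2]
  refine Finset.sum_congr rfl fun m _ => ?_
  congr 1
  unfold Lagrange.basis Pd
  rw [Polynomial.eval_prod, ← Finset.prod_div_distrib]
  refine Finset.prod_congr rfl fun i _ => ?_
  simp [Lagrange.basisDivisor, div_eq_inv_mul]

lemma KL_W {w : Fin n → ℝ} (hw : ∀ j, |w j| < 1) (hw0 : ∀ j, w j ≠ 0) (hi : Function.Injective w) :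
    KL w * Wm w = (Wm w).submatrix id Fin.rev := by
  ext j l
  have h := lagr hi l (w j)⁻¹
  have hP := Ps_ne hw
  simp only [KL, Matrix.mul_apply, Matrix.submatrix_apply, id, Wm, Matrix.of_apply, Kr,
    Matrix.diagonal_apply, mul_ite, mul_zero, Finset.sum_ite_eq', Finset.mem_univ, if_true]
  have e1 : w j ^ ((Fin.rev l : Fin n) : ℕ) = w j ^ (n - 1) * (w j)⁻¹ ^ (l : ℕ) := by
    have : n - 1 = ((Fin.rev l : Fin n) : ℕ) + l := by
      have := l.2
      rw [Fin.val_rev]; omega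
    rw [this, pow_add, mul_assoc, ← mul_pow, mul_inv_cancel₀ (hw0 j), one_pow, mul_one]
  rw [e1, h, Finset.mul_sum, Finset.sum_div]
  refine Finset.sum_congr rfl fun m _ => ?_
  have e2 : w j ^ (n - 1) * ∏ i ∈ univ.erase m, ((w j)⁻¹ - w i) = ∏ i ∈ univ.erase m, (1 - w j * w i) := by
    have : n - 1 = (univ.erase m).card := by simp
    rw [this, ← Finset.prod_const, ← Finset.prod_mul_distrib]
    refine Finset.prod_congr rfl fun i _ => ?_
    rw [mul_sub, mul_inv_cancel₀ (hw0 j)]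
  have e3 : Ps w j = (1 - w j * w m) * ∏ i ∈ univ.erase m, (1 - w j * w i) :=
    (Finset.mul_prod_erase _ (fun i => 1 - w j * w i) (Finset.mem_univ m)).symm
  have e4 : ∏ i ∈ univ.erase m, (1 - w j * w i) ≠ 0 :=
    Finset.prod_ne_zero_iff.mpr fun i _ => (one_sub_pos (hw j) (hw i)).ne'
  have e5 := (one_sub_pos (hw j) (hw m)).ne'
  have e6 := hP m
  have e7 : w j ^ (n - 1) * (w m ^ (l : ℕ) * ((∏ i ∈ univ.erase m, ((w j)⁻¹ - w i)) / Pd w m)) =
      w m ^ (l : ℕ) * (∏ i ∈ univ.erase m, (1 - w j * w i)) / Pd w m := by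
    rw [← e2]; ring
  rw [e7, e3]
  generalize ∏ i ∈ univ.erase m, (1 - w j * w i) = R at e4 ⊢
  generalize 1 - w j * w m = u at e5 ⊢
  field_simp

lemma Wm_eq (w : Fin n → ℝ) : Wm w = Matrix.diagonal (fun j => (Ps w j)⁻¹) * Matrix.vandermonde w := by
  ext j l
  simp [Wm, Matrix.diagonal_mul, div_eq_inv_mul]

lemma KL_sq {w : Fin n → ℝ} (hw : ∀ j, |w j| < 1) (hw0 : ∀ j, w j ≠ 0) (hi : Function.Injective w) :
    KL w * KL w = 1 := by
  have hdet : (Wm w).det ≠ 0 := by
    rw [Wm_eq, Matrix.det_mul, Matrix.det_diagonal]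
    exact mul_ne_zero (Finset.prod_ne_zero_iff.mpr fun i _ => inv_ne_zero (Ps_ne hw i))
      (Matrix.det_vandermonde_ne_zero_iff.mpr hi)
  have h1 : KL w * KL w * Wm w = 1 * Wm w := by
    rw [Matrix.mul_assoc, KL_W hw hw0 hi, Matrix.one_mul]
    have : KL w * (Wm w).submatrix id Fin.rev = (KL w * Wm w).submatrix id Fin.rev := by
      ext j l; simp [Matrix.mul_apply]
    rw [this, KL_W hw hw0 hi]
    ext j l; simp
  have hu : IsUnit (Wm w) := (Matrix.isUnit_iff_isUnit_det _).mpr (isUnit_iff_ne_zero.mpr hdet)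
  exact hu.mul_right_cancel h1

lemma KL_T (w : Fin n → ℝ) : (KL w)ᵀ = (Matrix.diagonal fun m => Ps w m / Pd w m) * Kr w := by
  rw [KL, Matrix.transpose_mul, Matrix.diagonal_transpose, Kr_symm]

lemma q_U {w : Fin n → ℝ} (hw : ∀ j, |w j| < 1) (hw0 : ∀ j, w j ≠ 0) (hi : Function.Injective w)
    (x : Fin n → ℝ) : q w ((KL w)ᵀ *ᵥ x) = q w x := by
  have h : KL w * (Kr w * (KL w)ᵀ) = Kr w := by
    rw [KL_T, ← Matrix.mul_assoc (Kr w)]
    change KL w * (KL w * Kr w) = _
    rw [← Matrix.mul_assoc, KL_sq hw hw0 hi, Matrix.one_mul]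
  rw [q_eq, q_eq, Matrix.mulVec_mulVec, Matrix.mulVec_transpose, ← Matrix.dotProduct_mulVec,
    Matrix.mulVec_mulVec, h]

lemma main_inj (k M : ℕ) {w : Fin n → ℝ} (hw : ∀ j, |w j| < 1) (hw0 : ∀ j, w j ≠ 0)
    (hi : Function.Injective w) (hM : ∑ j, (1 - w j ^ 2) / (1 + w j ^ 2) ≤ (M : ℝ)) :
    |(Matrix.of fun j l : Fin n => w j ^ k * w j ^ (n - 1 - l) +
        (if 0 < w j then -5 else 1) * w j ^ M * w j ^ (l : ℕ)).det| ≤
      (12 * (n + M + 1)) ^ n * |(Matrix.vandermonde w).det| := by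
  obtain ⟨B, hB⟩ := exists_B w hw
  set c : Fin n → ℝ := fun j => (if 0 < w j then -5 else 1) * w j ^ M with hc
  set T0 : Matrix (Fin n) (Fin n) ℝ := Matrix.diagonal (fun j => w j ^ k) * KL w + Matrix.diagonal c
    with hT0
  have hA : (Matrix.of fun j l : Fin n => w j ^ k * w j ^ (n - 1 - l) +
        (if 0 < w j then -5 else 1) * w j ^ M * w j ^ (l : ℕ)) =
      Matrix.diagonal (Ps w) * (T0 * Wm w) := by
    rw [hT0, Matrix.add_mul, Matrix.mul_assoc, KL_W hw hw0 hi]
    ext j l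
    have := Ps_ne hw j
    have e : ((Fin.rev l : Fin n) : ℕ) = n - 1 - l := by rw [Fin.val_rev]; omega
    simp only [Matrix.of_apply, Matrix.diagonal_mul, Matrix.add_apply, Matrix.submatrix_apply, id, Wm, e, hc]
    field_simp
  have hdet : (Matrix.diagonal (Ps w) * (T0 * Wm w)).det = T0.det * (Matrix.vandermonde w).det := by
    rw [Wm_eq, Matrix.det_mul, Matrix.det_mul, Matrix.det_mul, Matrix.det_diagonal, Matrix.det_diagonal,
      Finset.prod_inv_distrib]
    have : ∏ i, Ps w i ≠ 0 := Finset.prod_ne_zero_iff.mpr fun i _ => Ps_ne hw i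
    field_simp
  rw [hA, hdet, abs_mul]
  refine mul_le_mul_of_nonneg_right ?_ (abs_nonneg _)
  set U : Matrix (Fin n) (Fin n) ℂ := (KL w)ᵀ.map Complex.ofRealHom with hU
  have hUn : ∀ x, ‖Lm B (U *ᵥ x)‖ = ‖Lm B x‖ := by
    intro x
    rw [← sq_eq_sq₀ (norm_nonneg _) (norm_nonneg _), Lm_sq w B hB, Lm_sq w B hB,
      ← q_U hw hw0 hi (fun j => (x j).re), ← q_U hw hw0 hi (fun j => (x j).im)]
    congr 2 <;> ext j <;> simp [hU, Matrix.mulVec, dotProduct]
  have hN : ∀ x, Lm B x = 0 → x = 0 := by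
    intro x hx
    have h1 : B.map Complex.ofRealHom *ᵥ x = 0 := by
      have := congrArg WithLp.ofLp hx
      have h' : B.map Complex.ofReal *ᵥ x = 0 := by simpa [Lm] using this
      exact h'
    have h2 : U *ᵥ x = 0 := by
      rw [hU, KL_T, hB, Matrix.map_mul, Matrix.map_mul, ← Matrix.mulVec_mulVec, ← Matrix.mulVec_mulVec, h1]
      simp
    have h3 : U * U = 1 := by
      rw [hU, ← Matrix.map_mul, ← Matrix.transpose_mul, KL_sq hw hw0 hi]
      simp
    rw [← Matrix.one_mulVec x, ← h3, ← Matrix.mulVec_mulVec, h2, Matrix.mulVec_zero]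
  have hmain := det_bd (T0ᵀ.map Complex.ofRealHom) (Lm B) (12 * (n + M + 1)) hN (fun x => by
    have e : T0ᵀ.map Complex.ofRealHom *ᵥ x = U *ᵥ ((fun j => (w j : ℂ) ^ k) * x) +
        (fun j => (c j : ℂ)) * x := by
      ext j
      have e1 : ∀ i, T0 i j = w i ^ k * KL w i j + if i = j then c j else 0 := by
        intro i
        rw [hT0, Matrix.add_apply, Matrix.diagonal_mul, Matrix.diagonal_apply]
        split_ifs with h
        · rw [h]
        · rfl
      simp only [hU, Matrix.mulVec, dotProduct, Matrix.map_apply, Matrix.transpose_apply, e1,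
        Pi.add_apply, Pi.mul_apply, Complex.ofRealHom_eq_coe]
      have e2 : ∀ i, ((w i ^ k * KL w i j + if i = j then c j else 0 : ℝ) : ℂ) * x i =
          (KL w i j : ℂ) * ((w i : ℂ) ^ k * x i) + if i = j then (c j : ℂ) * x j else 0 := by
        intro i
        split_ifs with h
        · rw [h]; push_cast; ring
        · push_cast; ring
      simp only [e2, Finset.sum_add_distrib, Finset.sum_ite_eq', Finset.mem_univ, if_true]
    rw [e, map_add]
    refine (norm_add_le _ _).trans ?_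
    rw [hUn]
    have h1 := Bd.pow hw hB k x
    have h2 := c_bd hw hw0 hB M hM x
    have h3 : (0 : ℝ) ≤ M := Nat.cast_nonneg _
    have h4 := norm_nonneg (Lm B x)
    nlinarith [mul_nonneg h3 h4])
  have e : (T0ᵀ.map Complex.ofRealHom).det = (T0.det : ℂ) := by
    rw [← Matrix.det_transpose T0]
    exact (RingHom.map_det Complex.ofRealHom T0ᵀ).symm
  rwa [e, Complex.norm_real, Real.norm_eq_abs] at hmain

end

end PickAux

theorem pick : Pick := by
  refine ⟨12, by norm_num, fun n k M w hw hw0 hM => ?_⟩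
  by_cases hi : Function.Injective w
  · refine (PickAux.main_inj k M hw hw0 hi hM).trans (mul_le_mul_of_nonneg_right ?_ (abs_nonneg _))
    refine pow_le_pow_right₀ ?_ (by omega)
    have h3 : (0 : ℝ) ≤ M := Nat.cast_nonneg _
    have h4 : (0 : ℝ) ≤ n := Nat.cast_nonneg _
    linarith
  · obtain ⟨a, b, hab, hne⟩ := Function.not_injective_iff.mp hi
    rw [Matrix.det_zero_of_row_eq hne (by ext l; simp [hab]), abs_zero]
    positivity

end Crest.Agent.R6
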