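import Crest.Agent.R6.Defs

/-! # Row 6: the pointwise bound -/

set_option autoImplicit false

open Finset

namespace Crest.Agent.R6

namespace PointAux

theorem sum_erase_const {n : ℕ} (f : Fin n → ℝ) :
    ∑ i : Fin n, ∑ _k ∈ univ.erase i, f i = ((n : ℝ) - 1) * ∑ i, f i := by
  rw [mul_sum]
  refine sum_congr rfl fun i _ => ?_
  rw [sum_const, card_erase_of_mem (mem_univ i), card_univ, Fintype.card_fin, nsmul_eq_mul,
    Nat.cast_sub i.pos, Nat.cast_one]

theorem sum_erase_const' {n : ℕ} (f : Fin n → ℝ) :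
    ∑ i : Fin n, ∑ k ∈ univ.erase i, f k = ((n : ℝ) - 1) * ∑ i, f i := by
  have h : ∀ i : Fin n, ∑ k ∈ univ.erase i, f k = ∑ k, f k - f i := fun i => by
    rw [← add_sum_erase univ f (mem_univ i)]; ring
  simp only [h, sum_sub_distrib, sum_const, card_univ, Fintype.card_fin, nsmul_eq_mul]
  ring

theorem log_vand {n : ℕ} (v : Fin n → ℝ) (hinj : Function.Injective v) :
    2 * Real.log |(Matrix.vandermonde v).det| = ∑ i, ∑ k ∈ univ.erase i, Real.log |v i - v k| := by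
  have h1 : |(Matrix.vandermonde v).det| ^ 2 = ∏ i, ∏ k ∈ univ.erase i, |v i - v k| := by
    have h4 := prod_prod_Ioi_mul_eq_prod_prod_off_diag (fun k i : Fin n => |v i - v k|)
    simp only [compl_singleton] at h4
    rw [← h4, Matrix.det_vandermonde, abs_prod, ← prod_pow]
    refine prod_congr rfl fun i _ => ?_
    rw [abs_prod, ← prod_pow]
    refine prod_congr rfl fun j _ => ?_
    rw [abs_sub_comm (v i), sq]
  have hne : ∀ i, ∀ k ∈ univ.erase i, |v i - v k| ≠ 0 := fun i k hk =>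
    abs_ne_zero.2 (sub_ne_zero.2 fun h => (ne_of_mem_erase hk) (hinj h).symm)
  have h2 := congrArg Real.log h1
  rw [Real.log_pow, Real.log_prod fun i _ => prod_ne_zero_iff.2 (hne i)] at h2
  rw [show (2 : ℝ) = ((2 : ℕ) : ℝ) by norm_num, h2]
  exact sum_congr rfl fun i _ => Real.log_prod (hne i)

theorem log_vand2 {n : ℕ} (v : Fin n → ℝ) (hinj : Function.Injective v) :
    2 * Real.log |(Matrix.vandermonde v).det| =
      ∑ i, ∑ k ∈ univ.erase i, Real.log (2 * |v i - v k|) - n * (n - 1) * Real.log 2 := by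
  rw [log_vand v hinj]
  have h : ∑ i, ∑ k ∈ univ.erase i, Real.log (2 * |v i - v k|) =
      ∑ i : Fin n, ∑ _k ∈ univ.erase i, Real.log 2 + ∑ i, ∑ k ∈ univ.erase i, Real.log |v i - v k| := by
    rw [← sum_add_distrib]
    refine sum_congr rfl fun i _ => ?_
    rw [← sum_add_distrib]
    refine sum_congr rfl fun k hk => ?_
    exact Real.log_mul two_ne_zero
      (abs_ne_zero.2 (sub_ne_zero.2 fun h => (ne_of_mem_erase hk) (hinj h).symm))
  rw [h, sum_erase_const]
  simp only [sum_const, card_univ, Fintype.card_fin, nsmul_eq_mul]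
  ring

theorem tt_sub (a b : ℝ) : tt a - tt b = 2 * (a - b) * (1 - a * b) / ((1 + a ^ 2) * (1 + b ^ 2)) := by
  unfold tt
  field_simp
  ring

theorem one_sub_mul_pos {a b : ℝ} (ha : a ∈ Set.Ioo (-1 : ℝ) 1) (hb : b ∈ Set.Ioo (-1 : ℝ) 1) :
    0 < 1 - a * b := by
  obtain ⟨a1, a2⟩ := ha
  obtain ⟨b1, b2⟩ := hb
  nlinarith [mul_pos (sub_pos.2 a2) (show 0 < b + 1 by linarith),
    mul_pos (show 0 < a + 1 by linarith) (sub_pos.2 b2)]

theorem tt_inj {n : ℕ} (w : Fin n → ℝ) (hw : ∀ j, w j ∈ Set.Ioo (-1 : ℝ) 1)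
    (hinj : Function.Injective w) : Function.Injective fun j => tt (w j) := by
  intro a b hab
  have h : tt (w a) - tt (w b) = 0 := sub_eq_zero.2 hab
  rw [tt_sub, div_eq_zero_iff] at h
  rcases h with h | h
  · rcases mul_eq_zero.1 h with h | h
    · exact hinj (by linarith)
    · exact absurd h (one_sub_mul_pos (hw a) (hw b)).ne'
  · exact absurd h (by positivity)

theorem log_vand_tt {n : ℕ} (w : Fin n → ℝ) (hw : ∀ j, w j ∈ Set.Ioo (-1 : ℝ) 1)
    (hinj : Function.Injective w) :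
    2 * Real.log |(Matrix.vandermonde fun j => tt (w j)).det| =
      ∑ i, ∑ k ∈ univ.erase i, Real.log (2 * |w i - w k|) +
        ∑ i, ∑ k ∈ univ.erase i, Real.log (1 - w i * w k) -
        2 * ((n : ℝ) - 1) * ∑ j, Real.log (1 + w j ^ 2) := by
  rw [log_vand _ (tt_inj w hw hinj), two_mul ((n : ℝ) - 1), add_mul]
  nth_rewrite 1 [← sum_erase_const]
  rw [← sum_erase_const', ← sum_add_distrib, ← sum_add_distrib, ← sum_sub_distrib]
  refine sum_congr rfl fun i _ => ?_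
  rw [← sum_add_distrib, ← sum_add_distrib, ← sum_sub_distrib]
  refine sum_congr rfl fun k hk => ?_
  have h1 : |w i - w k| ≠ 0 :=
    abs_ne_zero.2 (sub_ne_zero.2 fun h => (ne_of_mem_erase hk) (hinj h).symm)
  have h2 := one_sub_mul_pos (hw i) (hw k)
  have h3 : 0 < 1 + w i ^ 2 := by positivity
  have h4 : 0 < 1 + w k ^ 2 := by positivity
  have h5 : 2 * |w i - w k| ≠ 0 := mul_ne_zero two_ne_zero h1
  rw [tt_sub, abs_div, abs_mul, abs_mul, abs_two, abs_of_pos h2, abs_of_pos (mul_pos h3 h4),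
    Real.log_div (mul_ne_zero h5 h2.ne') (mul_pos h3 h4).ne', Real.log_mul h5 h2.ne',
    Real.log_mul h3.ne' h4.ne']

theorem den_pos {s w : ℝ} (hs : s ∈ Set.Ioo (0 : ℝ) 1) : 0 < 1 - 2 * s * w + w ^ 2 := by
  obtain ⟨hs0, hs1⟩ := hs
  nlinarith [sq_nonneg (w - s)]

theorem one_sub_tt (s w : ℝ) : 1 - s * tt w = (1 - 2 * s * w + w ^ 2) / (1 + w ^ 2) := by
  unfold tt
  field_simp
  ring

theorem log_rowf (N : ℕ) (s : Fin (36 * N) → ℝ) (hs : ∀ i, s i ∈ Set.Ioo (0 : ℝ) 1)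
    (hinj : Function.Injective s) :
    Real.log |(Matrix.of fun i k : Fin (36 * N) => rowf N k (s i)).det| =
      6 * N * ∑ i, Real.log (s i) + 2 * N * ∑ i, Real.log (1 - s i) +
        Real.log |(Matrix.vandermonde s).det| := by
  have h1 : (Matrix.of fun i k : Fin (36 * N) => rowf N k (s i)) =
      Matrix.of fun i k => (s i ^ (6 * N) * (1 - s i) ^ (2 * N)) * Matrix.vandermonde s i k := by
    ext i k
    simp only [Matrix.of_apply, rowf, Matrix.vandermonde_apply]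
    ring
  have hp : ∀ i, 0 < s i ^ (6 * N) * (1 - s i) ^ (2 * N) := fun i =>
    mul_pos (pow_pos (hs i).1 _) (pow_pos (sub_pos.2 (hs i).2) _)
  rw [h1, Matrix.det_mul_column, abs_mul, abs_of_pos (prod_pos fun i _ => hp i),
    Real.log_mul (prod_pos fun i _ => hp i).ne'
      (abs_ne_zero.2 (Matrix.det_vandermonde_ne_zero_iff.2 hinj)),
    Real.log_prod fun i _ => (hp i).ne', mul_sum, mul_sum, ← sum_add_distrib]
  congr 1
  refine sum_congr rfl fun i _ => ?_
  rw [Real.log_mul (pow_pos (hs i).1 _).ne' (pow_pos (sub_pos.2 (hs i).2) _).ne', Real.log_pow,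
    Real.log_pow]
  push_cast
  ring

theorem tt_ne {w : ℝ} (hw : w ≠ 0) : tt w ≠ 0 := by
  unfold tt
  positivity

theorem log_kern (hC : Cauchy) (n : ℕ) (s w : Fin n → ℝ) (hs : ∀ i, s i ∈ Set.Ioo (0 : ℝ) 1)
    (hw : ∀ j, w j ∈ Set.Ioo (-1 : ℝ) 1) (hw0 : ∀ j, w j ≠ 0)
    (hinj : Function.Injective s) (hinjw : Function.Injective w) :
    Real.log |(Matrix.of fun i j : Fin n => kern (s i) (w j)).det| =
      n * Real.log 2 + Real.log |(Matrix.vandermonde s).det| +
        (∑ i, ∑ k ∈ univ.erase i, Real.log (2 * |w i - w k|) +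
          ∑ i, ∑ k ∈ univ.erase i, Real.log (1 - w i * w k)) / 2 -
        ∑ i, ∑ j, Real.log (1 - 2 * s i * w j + w j ^ 2) := by
  have hd : ∀ i j, 0 < 1 - s i * tt (w j) := fun i j => by
    rw [one_sub_tt]
    exact div_pos (den_pos (hs i)) (by positivity)
  have h1 : (Matrix.of fun i j : Fin n => kern (s i) (w j)) =
      Matrix.of fun i j => (2 / (1 + w j ^ 2)) *
        (Matrix.of fun i j => 1 / (1 - s i * tt (w j))) i j := by
    ext i j
    simp only [Matrix.of_apply, kern, one_sub_tt]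
    have := den_pos (w := w j) (hs i)
    field_simp
  have h2 := hC n s (fun j => tt (w j)) (fun j => tt_ne (hw0 j)) (fun i j => (hd i j).ne')
  have hVs : |(Matrix.vandermonde s).det| ≠ 0 :=
    abs_ne_zero.2 (Matrix.det_vandermonde_ne_zero_iff.2 hinj)
  have hVt : |(Matrix.vandermonde fun j => tt (w j)).det| ≠ 0 :=
    abs_ne_zero.2 (Matrix.det_vandermonde_ne_zero_iff.2 (tt_inj w hw hinjw))
  have hK : |(Matrix.of fun i j => 1 / (1 - s i * tt (w j))).det| ≠ 0 := by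
    intro h
    rw [h, zero_mul] at h2
    exact mul_ne_zero hVs hVt h2.symm
  have hP : ∀ i, ∏ j, |1 - s i * tt (w j)| ≠ 0 := fun i =>
    prod_ne_zero_iff.2 fun j _ => abs_ne_zero.2 (hd i j).ne'
  have h3 := congrArg Real.log h2
  rw [Real.log_mul hK (prod_ne_zero_iff.2 fun i _ => hP i), Real.log_mul hVs hVt,
    Real.log_prod fun i _ => hP i] at h3
  have h4 : ∑ i, Real.log (∏ j, |1 - s i * tt (w j)|) =
      ∑ i, ∑ j, Real.log (1 - 2 * s i * w j + w j ^ 2) - n * ∑ j, Real.log (1 + w j ^ 2) := by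
    have : (n : ℝ) * ∑ j, Real.log (1 + w j ^ 2) = ∑ _i : Fin n, ∑ j, Real.log (1 + w j ^ 2) := by
      simp
    rw [this, ← sum_sub_distrib]
    refine sum_congr rfl fun i _ => ?_
    rw [Real.log_prod fun j _ => abs_ne_zero.2 (hd i j).ne', ← sum_sub_distrib]
    refine sum_congr rfl fun j _ => ?_
    rw [abs_of_pos (hd i j), one_sub_tt, Real.log_div (den_pos (hs i)).ne' (by positivity)]
  have hp : ∀ j, 0 < 2 / (1 + w j ^ 2) := fun j => by positivity
  have h5 : Real.log (∏ j, 2 / (1 + w j ^ 2)) = n * Real.log 2 - ∑ j, Real.log (1 + w j ^ 2) := by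
    have : (n : ℝ) * Real.log 2 = ∑ _i : Fin n, Real.log 2 := by simp
    rw [Real.log_prod fun j _ => (hp j).ne', this, ← sum_sub_distrib]
    exact sum_congr rfl fun j _ => Real.log_div two_ne_zero (by positivity)
  have h6 := log_vand_tt w hw hinjw
  rw [h1, Matrix.det_mul_row, abs_mul, abs_of_pos (prod_pos fun j _ => hp j),
    Real.log_mul (prod_pos fun j _ => hp j).ne' hK, h5]
  linarith

/-- the row factor of the `psi` matrix -/
noncomputable def gf (N k : ℕ) (w : ℝ) : ℝ :=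
  tt w ^ (47 * N) * (1 - tt w) ^ (2 * N) * (if 0 < w then -1 / 4 else -1 / 2) * (w ^ (33 * N - 1 + k))⁻¹

theorem psi_eq {N l : ℕ} (k : ℕ) (hN : 1 ≤ N) (hl : l < 36 * N) {w : ℝ} (hw : w ≠ 0) :
    psi N l w = gf N k w * (w ^ k * w ^ (36 * N - 1 - l) +
      (if 0 < w then -5 else 1) * w ^ (30 * N - 1 + k) * w ^ l) := by
  have h1 : w ^ (3 * (N : ℤ) - l) = (w ^ (33 * N - 1 + k))⁻¹ * (w ^ k * w ^ (36 * N - 1 - l)) := by
    rw [← zpow_natCast, ← zpow_natCast, ← zpow_natCast, ← zpow_neg, ← zpow_add₀ hw, ← zpow_add₀ hw]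
    congr 1
    omega
  have h2 : w ^ ((l : ℤ) - 3 * N) = (w ^ (33 * N - 1 + k))⁻¹ * (w ^ (30 * N - 1 + k) * w ^ l) := by
    rw [← zpow_natCast, ← zpow_natCast, ← zpow_natCast, ← zpow_neg, ← zpow_add₀ hw, ← zpow_add₀ hw]
    congr 1
    omega
  unfold psi gf
  rw [h1, h2]
  split_ifs <;> ring

theorem log_gf {N : ℕ} (k : ℕ) (hN : 1 ≤ N) {w : ℝ} (hw : w ∈ Set.Ioo (-1 : ℝ) 1) (hw0 : w ≠ 0) :
    gf N k w ≠ 0 ∧ Real.log |gf N k w| ≤ 47 * N * Real.log 2 + (14 * N + 1 - k) * Real.log |w| +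
      4 * N * Real.log (1 - w) - 49 * N * Real.log (1 + w ^ 2) := by
  have h3 : 0 < 1 + w ^ 2 := by positivity
  have h4 : 0 < 1 - w := sub_pos.2 hw.2
  have h1 : 1 - tt w = (1 - w) ^ 2 / (1 + w ^ 2) := by
    unfold tt
    field_simp
    ring
  have h2 : 1 - tt w ≠ 0 := by rw [h1]; positivity
  have h5 : (if 0 < w then -1 / 4 else -1 / 2 : ℝ) ≠ 0 := by split_ifs <;> norm_num
  have h6 : Real.log (if 0 < w then -1 / 4 else -1 / 2 : ℝ) ≤ 0 := by
    rw [← Real.log_abs]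
    refine Real.log_nonpos (abs_nonneg _) ?_
    split_ifs <;> norm_num [abs_le]
  have h7 := tt_ne hw0
  have h8 : Real.log (tt w) = Real.log 2 + Real.log w - Real.log (1 + w ^ 2) := by
    unfold tt
    rw [Real.log_div (mul_ne_zero two_ne_zero hw0) h3.ne', Real.log_mul two_ne_zero hw0]
  have h9 : Real.log (1 - tt w) = 2 * Real.log (1 - w) - Real.log (1 + w ^ 2) := by
    rw [h1, Real.log_div (by positivity) h3.ne', Real.log_pow]
    norm_num
  refine ⟨by unfold gf; positivity, ?_⟩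
  unfold gf
  rw [Real.log_abs, Real.log_abs, Real.log_mul (by positivity) (by positivity),
    Real.log_mul (by positivity) h5, Real.log_mul (by positivity) (by positivity), Real.log_inv,
    Real.log_pow, Real.log_pow, Real.log_pow, h8, h9]
  have h10 : ((33 * N - 1 + k : ℕ) : ℝ) = 33 * N - 1 + k := by
    rw [Nat.cast_add, Nat.cast_sub (by omega)]
    push_cast
    ring
  rw [h10]
  push_cast
  nlinarith

theorem log_psi {c : ℝ} (hc1 : 1 ≤ c)
    (hP : ∀ (n k M : ℕ) (w : Fin n → ℝ), (∀ j, |w j| < 1) → (∀ j, w j ≠ 0) →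
      ∑ j, (1 - w j ^ 2) / (1 + w j ^ 2) ≤ (M : ℝ) →
      |(Matrix.of fun j l : Fin n => w j ^ k * w j ^ (n - 1 - l) +
        (if 0 < w j then -5 else 1) * w j ^ M * w j ^ (l : ℕ)).det| ≤
      (c * (n + M + 1)) ^ (2 * n) * |(Matrix.vandermonde w).det|)
    {N : ℕ} (k : ℕ) (hN : 1 ≤ N) (hk : k ≤ 6 * N + 1) (w : Fin (36 * N) → ℝ)
    (hw : ∀ j, w j ∈ Set.Ioo (-1 : ℝ) 1) (hw0 : ∀ j, w j ≠ 0) (hinjw : Function.Injective w)
    (hr : ∑ j, (1 - w j ^ 2) / (1 + w j ^ 2) ≤ ((30 * N - 1 + k : ℕ) : ℝ))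
    (hne : (Matrix.of fun j l : Fin (36 * N) => psi N l (w j)).det ≠ 0) :
    Real.log |(Matrix.of fun j l : Fin (36 * N) => psi N l (w j)).det| ≤
      36 * 47 * (N : ℝ) ^ 2 * Real.log 2 + (14 * N + 1 - k) * ∑ j, Real.log |w j| +
        4 * N * ∑ j, Real.log (1 - w j) - 49 * N * ∑ j, Real.log (1 + w j ^ 2) +
        72 * N * Real.log (73 * c * (N + 1)) + Real.log |(Matrix.vandermonde w).det| := by
  set P : Matrix (Fin (36 * N)) (Fin (36 * N)) ℝ := Matrix.of fun j l : Fin (36 * N) =>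
    w j ^ k * w j ^ (36 * N - 1 - l) +
      (if 0 < w j then -5 else 1) * w j ^ (30 * N - 1 + k) * w j ^ (l : ℕ) with hPdef
  have h1 : (Matrix.of fun j l : Fin (36 * N) => psi N l (w j)) =
      Matrix.of fun j l => gf N k (w j) * P j l := by
    ext j l
    simp only [Matrix.of_apply, hPdef]
    exact psi_eq k hN l.2 (hw0 j)
  rw [h1, Matrix.det_mul_column] at hne ⊢
  have hg : ∀ j, gf N k (w j) ≠ 0 := fun j => (log_gf k hN (hw j) (hw0 j)).1
  have hP0 : P.det ≠ 0 := right_ne_zero_of_mul hne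
  have hV : |(Matrix.vandermonde w).det| ≠ 0 :=
    abs_ne_zero.2 (Matrix.det_vandermonde_ne_zero_iff.2 hinjw)
  have h2 := hP (36 * N) k (30 * N - 1 + k) w (fun j => abs_lt.2 (hw j)) hw0 hr
  have hN' : (1 : ℝ) ≤ N := by exact_mod_cast hN
  have h3 : c * (((36 * N : ℕ) : ℝ) + ((30 * N - 1 + k : ℕ) : ℝ) + 1) ≤ 73 * c * (N + 1) := by
    have : ((30 * N - 1 + k : ℕ) : ℝ) ≤ ((36 * N : ℕ) : ℝ) := by
      exact_mod_cast (by omega)
    push_cast at this ⊢
    nlinarith
  have h4 : |P.det| ≤ (73 * c * (N + 1)) ^ (2 * (36 * N)) * |(Matrix.vandermonde w).det| := by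
    refine h2.trans ?_
    gcongr
  have h5 := Real.log_le_log (abs_pos.2 hP0) h4
  rw [Real.log_mul (by positivity) hV, Real.log_pow] at h5
  have h6 : ∑ j, Real.log |gf N k (w j)| ≤ ∑ j : Fin (36 * N), (47 * N * Real.log 2 +
      (14 * N + 1 - k) * Real.log |w j| + 4 * N * Real.log (1 - w j) -
        49 * N * Real.log (1 + w j ^ 2)) :=
    sum_le_sum fun j _ => (log_gf k hN (hw j) (hw0 j)).2
  simp only [sum_sub_distrib, sum_add_distrib, ← mul_sum,
    sum_const, card_univ, Fintype.card_fin, nsmul_eq_mul] at h6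
  rw [abs_mul, abs_prod, Real.log_mul (prod_ne_zero_iff.2 fun j _ => abs_ne_zero.2 (hg j))
    (abs_ne_zero.2 hP0), Real.log_prod fun j _ => abs_ne_zero.2 (hg j)]
  push_cast at h5 h6
  linarith

theorem U_bdd (T : Trial) : ∃ B : ℝ, ∀ s ∈ Set.Ioo (0 : ℝ) 1, T.U s ≤ B := by
  have hc : ContinuousOn T.U (Set.Icc 0 1) := by
    unfold Trial.U
    refine continuousOn_finsetSum _ fun a _ => ContinuousOn.mul continuousOn_const ?_
    unfold lq
    refine ContinuousOn.log (by fun_prop) fun s hs h => ?_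
    have hin := T.inside a
    have e1 : 1 - 2 * T.x a * s + T.x a ^ 2 - T.y a ^ 2 = 0 := by
      nlinarith [sq_nonneg (1 - 2 * T.x a * s + T.x a ^ 2 - T.y a ^ 2),
        sq_nonneg (2 * T.x a * T.y a - 2 * T.y a * s)]
    have e2 : T.y a * (T.x a - s) = 0 := by
      have : (2 * T.x a * T.y a - 2 * T.y a * s) ^ 2 = 0 := by rw [e1] at h; linarith
      have := pow_eq_zero_iff two_ne_zero |>.1 this
      linarith
    rcases mul_eq_zero.1 e2 with h0 | h0
    · rw [h0] at e1 hin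
      obtain ⟨s0, s1⟩ := hs
      have : T.x a < 1 := by nlinarith
      nlinarith [sq_nonneg (T.x a - s), mul_nonneg s0 (sub_nonneg.2 s1)]
    · have : s = T.x a := by linarith
      rw [this] at e1
      nlinarith
  obtain ⟨B, hB⟩ := isCompact_Icc.bddAbove_image hc
  exact ⟨B, fun s hs => hB ⟨s, Set.Ioo_subset_Icc_self hs, rfl⟩⟩

theorem log_le_r (w : ℝ) (hw : w ∈ Set.Ioo (-1 : ℝ) 1) :
    Real.log (1 + w ^ 2) ≤ Real.log 2 * (1 - (1 - w ^ 2) / (1 + w ^ 2)) := by
  have h3 : 0 < 1 + w ^ 2 := by positivity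
  have hw2 : w ^ 2 ≤ 1 := by nlinarith [hw.1, hw.2]
  set r := (1 - w ^ 2) / (1 + w ^ 2) with hr
  have r0 : 0 ≤ r := div_nonneg (by linarith) h3.le
  have r1 : r ≤ 1 := by rw [hr, div_le_one h3]; nlinarith
  have h := strictConcaveOn_log_Ioi.concaveOn.2 (show (1 : ℝ) ∈ Set.Ioi 0 by norm_num)
    (show (2⁻¹ : ℝ) ∈ Set.Ioi 0 by norm_num) r0 (sub_nonneg.2 r1) (by ring)
  have e : r • (1 : ℝ) + (1 - r) • (2⁻¹ : ℝ) = (1 + w ^ 2)⁻¹ := by
    simp only [smul_eq_mul, hr]
    field_simp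
    ring
  rw [e, Real.log_one, Real.log_inv, Real.log_inv] at h
  simp only [smul_eq_mul] at h
  linarith

theorem le_log (N : ℕ) (hN : 1 ≤ N) (a : ℝ) : a * N ≤ (2 * |a|) * N * Real.log (N + 1) := by
  have hN' : (1 : ℝ) ≤ N := by exact_mod_cast hN
  have h1 : 1 / 2 ≤ Real.log (N + 1) :=
    le_trans (by linarith [Real.log_two_gt_d9]) (Real.log_le_log two_pos (by linarith))
  have h2 := le_abs_self a
  have h3 : 0 ≤ |a| * N := by positivity
  nlinarith

theorem cert_bound {a D e : ℝ} (hC : Cert a D e) (h1 : EL1) (h2 : EL2) :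
    ∃ c : ℝ, ∀ (N : ℕ) (s w : Fin (36 * N) → ℝ), 1 ≤ N →
      (∀ i, s i ∈ Set.Ioo (0 : ℝ) 1) → (∀ j, w j ∈ Set.Ioo (-1 : ℝ) 1) → (∀ j, w j ≠ 0) →
      Function.Injective s → Function.Injective w →
      (∑ i, ∑ k ∈ univ.erase i, Real.log (2 * |s i - s k|) -
        ∑ i, ∑ j, Real.log (1 - 2 * s i * w j + w j ^ 2) +
        1 / 2 * ∑ j, ∑ l ∈ univ.erase j, Real.log (1 - w j * w l)) +
      ∑ j, ∑ l ∈ univ.erase j, Real.log (2 * |w j - w l|) +
      6 * N * ∑ i, Real.log (s i) + 2 * N * ∑ i, Real.log (1 - s i) +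
      a * N * ∑ j, Real.log |w j| + 4 * N * ∑ j, Real.log (1 - w j) -
      D * N * ∑ j, Real.log (1 + w j ^ 2) + e * (N : ℝ) ^ 2 * Real.log 2 ≤
      -2505 * (N : ℝ) ^ 2 + c * N * Real.log (N + 1) - 1 / 2 * ∑ j, Real.log (1 - w j ^ 2) := by
  obtain ⟨T₁, T₂, c₁, c₂, hs1, hw1, hsum⟩ := hC
  obtain ⟨k₁, hk₁⟩ := h1 T₁
  obtain ⟨k₂, hk₂⟩ := h2 T₂
  obtain ⟨B, hB⟩ := U_bdd T₁
  refine ⟨k₁ + k₂ + 2 * |36 * (B - c₁)|, fun N s w hN hs hw hw0 hinj hinjw => ?_⟩
  have e1 := hk₁ N s w hN hs hw hinj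
  have e2 := hk₂ N w hN hw hinjw
  have hN' : (1 : ℝ) ≤ N := by exact_mod_cast hN
  have e3 : ∑ i, (6 * N * Real.log (s i) + 2 * N * Real.log (1 - s i) + N * T₁.U (s i) -
      Real.log (1 - s i ^ 2)) ≤ ∑ _i : Fin (36 * N), (N * c₁ + (B - c₁)) := by
    refine sum_le_sum fun i _ => ?_
    obtain ⟨s0, s1⟩ := hs i
    have a1 := hs1 (s i) (hs i)
    have a2 := hB (s i) (hs i)
    have a3 : Real.log (s i) ≤ 0 := Real.log_nonpos s0.le s1.le
    have a4 : Real.log (1 - s i) ≤ 0 := Real.log_nonpos (by linarith) (by linarith)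
    have a5 : Real.log (1 - s i) ≤ Real.log (1 - s i ^ 2) :=
      Real.log_le_log (by linarith) (by nlinarith)
    have a6 := mul_le_mul_of_nonneg_left a1 (sub_nonneg.2 hN')
    nlinarith
  have e4 : ∑ j, (a * N * Real.log |w j| + 4 * N * Real.log (1 - w j) -
      D * N * Real.log (1 + w j ^ 2) - N * T₁.V (w j) + N * T₂.U (w j)) ≤
      ∑ _j : Fin (36 * N), N * c₂ := by
    refine sum_le_sum fun j _ => ?_
    have a1 := mul_le_mul_of_nonneg_left (hw1 (w j) (hw j) (hw0 j)) (le_trans zero_le_one hN')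
    nlinarith
  simp only [sum_sub_distrib, sum_add_distrib, ← mul_sum, sum_const, card_univ, Fintype.card_fin,
    nsmul_eq_mul] at e3 e4
  push_cast at e3 e4
  have e5 := le_log N hN (36 * (B - c₁))
  have e6 := mul_le_mul_of_nonneg_left hsum (sq_nonneg (N : ℝ))
  nlinarith

end PointAux

open PointAux in
theorem point (hC : Cauchy) (hP : Pick) (h1 : EL1) (h2 : EL2) (hCe : Certs) : Point := by
  obtain ⟨c, hc1, hP⟩ := hP
  obtain ⟨ca, hca⟩ := cert_bound hCe.1 h1 h2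
  obtain ⟨cb, hcb⟩ := cert_bound hCe.2 h1 h2
  refine ⟨max ca cb + 2 * |198 * Real.log 2 + 72 * Real.log (73 * c)| + 72, fun N s w hN hs hw => ?_⟩
  have hw2 : ∀ j, 0 < 1 - w j ^ 2 := fun j => by nlinarith [(hw j).1, (hw j).2]
  have hpos : ∀ j, 0 < (Real.sqrt (1 - w j ^ 2))⁻¹ := fun j => inv_pos.2 (Real.sqrt_pos.2 (hw2 j))
  set A := (Matrix.of fun i k : Fin (36 * N) => rowf N k (s i)).det with hA
  set B := (Matrix.of fun i j : Fin (36 * N) => kern (s i) (w j)).det with hB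
  set C := (Matrix.of fun j l : Fin (36 * N) => psi N l (w j)).det with hCd
  by_cases h0 : |A| * |B| * |C| = 0
  · rw [h0]
    exact mul_nonneg (Real.exp_pos _).le (prod_pos fun j _ => hpos j).le
  have hA0 : A ≠ 0 := fun h => h0 (by simp [h])
  have hB0 : B ≠ 0 := fun h => h0 (by simp [h])
  have hC0 : C ≠ 0 := fun h => h0 (by simp [h])
  have hinj : Function.Injective s := by
    intro a b hab
    by_contra hne
    exact hA0 (Matrix.det_zero_of_row_eq hne (by ext k; simp [hab]))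
  have hinjw : Function.Injective w := by
    intro a b hab
    by_contra hne
    exact hC0 (Matrix.det_zero_of_row_eq hne (by ext k; simp [hab]))
  have hw0 : ∀ j, w j ≠ 0 := by
    intro j hj
    refine hC0 (Matrix.det_eq_zero_of_row_eq_zero j fun l => ?_)
    simp only [Matrix.of_apply, hj]
    unfold psi tt
    rw [mul_zero, zero_div, zero_pow (by omega), zero_mul, zero_mul]
  have hN' : (1 : ℝ) ≤ N := by exact_mod_cast hN
  have lA := log_rowf N s hs hinj
  have lB := log_kern hC (36 * N) s w hs hw hw0 hinj hinjw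
  have lVs := log_vand2 s hinj
  have lVw := log_vand2 w hinjw
  have lR : Real.log (∏ j, (Real.sqrt (1 - w j ^ 2))⁻¹) = -(1 / 2 * ∑ j, Real.log (1 - w j ^ 2)) := by
    rw [Real.log_prod fun j _ => (hpos j).ne', mul_sum, ← sum_neg_distrib]
    refine sum_congr rfl fun j _ => ?_
    rw [Real.log_inv, Real.log_sqrt (hw2 j).le]
    ring
  have l1 : Real.log (73 * c * (N + 1)) = Real.log (73 * c) + Real.log (N + 1) :=
    Real.log_mul (by positivity) (by positivity)
  have l2 := le_log N hN (198 * Real.log 2 + 72 * Real.log (73 * c))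
  have l3 : 0 ≤ (N : ℝ) * Real.log (N + 1) :=
    mul_nonneg (by positivity) (Real.log_nonneg (by linarith))
  have l4 := mul_le_mul_of_nonneg_right (le_max_left ca cb) l3
  have l5 := mul_le_mul_of_nonneg_right (le_max_right ca cb) l3
  have l6 : 0 ≤ (N : ℝ) * Real.log 2 := mul_nonneg (by positivity) (Real.log_nonneg (by norm_num))
  have lw : ∑ j, Real.log |w j| ≤ 0 :=
    sum_nonpos fun j _ => Real.log_nonpos (abs_nonneg _) (abs_lt.2 (hw j)).le
  rw [← Real.exp_log (prod_pos fun j _ => hpos j), ← Real.exp_add,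
    ← Real.log_le_iff_le_exp (lt_of_le_of_ne (by positivity) (Ne.symm h0)), lR,
    Real.log_mul (by positivity) (by positivity), Real.log_mul (by positivity) (by positivity)]
  rw [← hA] at lA
  rw [← hB] at lB
  push_cast at lB lVs lVw
  by_cases hg : ∑ j, (1 - w j ^ 2) / (1 + w j ^ 2) ≤ ((30 * N - 1 + 0 : ℕ) : ℝ)
  · have lC := log_psi hc1 hP 0 hN (by omega) w hw hw0 hinjw hg hC0
    rw [← hCd] at lC
    have e := hca N s w hN hs hw hw0 hinj hinjw
    rw [l1] at lC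
    push_cast at lC
    linarith
  · have hr : ∑ j, (1 - w j ^ 2) / (1 + w j ^ 2) ≤ ((30 * N - 1 + (6 * N + 1) : ℕ) : ℝ) := by
      have : ∑ j, (1 - w j ^ 2) / (1 + w j ^ 2) ≤ ∑ _j : Fin (36 * N), (1 : ℝ) :=
        sum_le_sum fun j _ => by
          rw [div_le_one (by positivity)]; nlinarith [sq_nonneg (w j)]
      rw [show 30 * N - 1 + (6 * N + 1) = 36 * N by omega]
      simpa using this
    have lC := log_psi hc1 hP (6 * N + 1) hN le_rfl w hw hw0 hinjw hr hC0
    rw [← hCd] at lC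
    have e := hcb N s w hN hs hw hw0 hinj hinjw
    have hy : ∑ j, Real.log (1 + w j ^ 2) ≤ (6 * N + 1) * Real.log 2 := by
      have a1 : ∑ j, Real.log (1 + w j ^ 2) ≤
          ∑ j, Real.log 2 * (1 - (1 - w j ^ 2) / (1 + w j ^ 2)) :=
        sum_le_sum fun j _ => log_le_r (w j) (hw j)
      rw [← mul_sum, sum_sub_distrib, sum_const, card_univ, Fintype.card_fin, nsmul_eq_mul] at a1
      rw [not_le, add_zero, Nat.cast_sub (by omega)] at hg
      push_cast at a1 hg
      have a2 := mul_le_mul_of_nonneg_left hg.le (Real.log_pos (show (1 : ℝ) < 2 by norm_num)).le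
      linarith
    have hy2 := mul_le_mul_of_nonneg_left hy (show (0 : ℝ) ≤ 108 * N by positivity)
    rw [l1] at lC
    push_cast at lC
    linarith

end Crest.Agent.R6
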