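import Crest.Agent.R6.Defs

/-! # Row 6, task PRIMESUM -/

set_option autoImplicit false

open Filter Topology MeasureTheory Finset

namespace Crest.Agent.R6

namespace PSAux

theorem int_ind {a : ℝ} (ha : 0 < a) :
    ∫ u in Set.Ioc (0 : ℝ) 1, Set.indicator (Set.Ici a) (1 : ℝ → ℝ) u = max (1 - a) 0 := by
  rw [setIntegral_indicator measurableSet_Ici]
  have : Set.Ioc (0 : ℝ) 1 ∩ Set.Ici a = Set.Icc a 1 := by
    ext u
    simp only [Set.mem_inter_iff, Set.mem_Ioc, Set.mem_Ici, Set.mem_Icc]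
    constructor
    · rintro ⟨⟨-, h2⟩, h3⟩; exact ⟨h3, h2⟩
    · rintro ⟨h1, h2⟩; exact ⟨⟨ha.trans_le h1, h2⟩, h1⟩
  rw [this]
  simp

theorem theta_eq {x t : ℝ} {M : ℕ} (ht0 : 0 ≤ t) (ht : t ≤ x) (hM : x ≤ M) :
    Chebyshev.theta t = ∑ p ∈ (range (M + 1)).filter Nat.Prime,
      if (p : ℝ) ≤ t then Real.log p else 0 := by
  rw [← sum_filter, Chebyshev.theta]
  refine sum_congr ?_ fun _ _ => rfl
  ext p
  simp only [mem_filter, mem_Ioc, mem_range, Nat.le_floor_iff ht0]
  constructor
  · rintro ⟨⟨-, h2⟩, h3⟩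
    refine ⟨⟨?_, h3⟩, h2⟩
    have : (p : ℝ) ≤ M := h2.trans (ht.trans hM)
    have : p ≤ M := by exact_mod_cast this
    omega
  · rintro ⟨⟨-, h2⟩, h3⟩
    exact ⟨⟨h2.pos, h3⟩, h2⟩

theorem int_eq {x : ℝ} {M : ℕ} (hx : 0 < x) (hM : x ≤ M) :
    ∫ u in Set.Ioc (0 : ℝ) 1, Chebyshev.theta (x * u) / x =
      (∑ p ∈ (range (M + 1)).filter Nat.Prime, max (x - p) 0 * Real.log p) / x ^ 2 := by
  have h1 : ∀ u ∈ Set.Ioc (0 : ℝ) 1, Chebyshev.theta (x * u) / x =
      ∑ p ∈ (range (M + 1)).filter Nat.Prime,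
        Real.log p / x * Set.indicator (Set.Ici ((p : ℝ) / x)) (1 : ℝ → ℝ) u := by
    intro u hu
    rw [theta_eq (mul_pos hx hu.1).le (mul_le_of_le_one_right hx.le hu.2) hM, sum_div]
    refine sum_congr rfl fun p _ => ?_
    rw [Set.indicator_apply]
    simp only [Set.mem_Ici, div_le_iff₀' hx]
    split_ifs <;> simp
  rw [setIntegral_congr_fun measurableSet_Ioc h1, integral_finsetSum, sum_div]
  · refine sum_congr rfl fun p hp => ?_
    have hp0 : (0 : ℝ) < p := by exact_mod_cast (mem_filter.1 hp).2.pos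
    rw [integral_const_mul, int_ind (div_pos hp0 hx)]
    have : max (1 - p / x) 0 = max (x - p) 0 / x := by
      rw [max_div_div_right hx.le (x - p) 0 |>.symm, zero_div, sub_div, div_self hx.ne']
    rw [this]
    field_simp
  · intro p _
    exact ((integrable_const (1 : ℝ)).indicator measurableSet_Ici).const_mul _

theorem int_lim (h : PNT) :
    Tendsto (fun x : ℝ => ∫ u in Set.Ioc (0 : ℝ) 1, Chebyshev.theta (x * u) / x) atTop
      (𝓝 (1 / 2)) := by
  have h0 : ∫ u in Set.Ioc (0 : ℝ) 1, u = 1 / 2 := by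
    rw [← intervalIntegral.integral_of_le zero_le_one]
    simp
  rw [← h0]
  refine tendsto_integral_filter_of_dominated_convergence (fun _ => Real.log 4)
    (Eventually.of_forall fun x => Measurable.aestronglyMeasurable
      ((Chebyshev.theta_mono.measurable.comp (measurable_const.mul measurable_id)).div_const _))
    ?_ (integrable_const _) ?_
  · filter_upwards [eventually_gt_atTop 0] with x hx
    filter_upwards [ae_restrict_mem measurableSet_Ioc] with u hu
    rw [Real.norm_of_nonneg (div_nonneg (Chebyshev.theta_nonneg _) hx.le), div_le_iff₀ hx]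
    refine (Chebyshev.theta_le_log4_mul_x (mul_pos hx hu.1).le).trans ?_
    exact mul_le_mul_of_nonneg_left (mul_le_of_le_one_right hx.le hu.2)
      (Real.log_nonneg (by norm_num))
  · filter_upwards [ae_restrict_mem measurableSet_Ioc] with u hu
    have h1 := (Tendsto.comp h (tendsto_id.atTop_mul_const hu.1)).mul_const u
    rw [one_mul] at h1
    refine h1.congr fun x => ?_
    simp only [Function.comp, id]
    rw [div_mul_eq_mul_div, mul_div_mul_right _ _ hu.1.ne']

theorem part (h : PNT) {c : ℝ} (hc : 0 < c) (hc' : c ≤ 49) :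
    Tendsto (fun N : ℕ => (∑ p ∈ (range (49 * N + 1)).filter Nat.Prime,
      max (c * N - p) 0 * Real.log p) / (N : ℝ) ^ 2) atTop (𝓝 (c ^ 2 * (1 / 2))) := by
  have h1 := ((int_lim h).comp
    (tendsto_natCast_atTop_atTop.const_mul_atTop hc)).const_mul (c ^ 2)
  refine h1.congr' ?_
  filter_upwards [eventually_gt_atTop 0] with N hN
  have hN0 : (0 : ℝ) < N := by exact_mod_cast hN
  simp only [Function.comp]
  rw [int_eq (M := 49 * N) (mul_pos hc hN0) (by push_cast; nlinarith)]
  field_simp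

theorem cast_sub (a b : ℕ) : ((a - b : ℕ) : ℝ) = max ((a : ℝ) - b) 0 := by
  rcases le_total b a with h | h
  · rw [Nat.cast_sub h, max_eq_left (sub_nonneg.2 (by exact_mod_cast h))]
  · rw [Nat.sub_eq_zero_of_le h, max_eq_right (sub_nonpos.2 (by exact_mod_cast h)), Nat.cast_zero]

theorem Fex_eq (N p : ℕ) : (Fex N p : ℝ) =
    max (49 * N - p : ℝ) 0 + max (44 * N - p : ℝ) 0 + max (43 * N - p : ℝ) 0 +
      max (30 * N - p : ℝ) 0 - 4 * max (25 * N - p : ℝ) 0 + 2 * max (43 / 2 * N - p : ℝ) 0 -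
      2 * max (37 / 2 * N - p : ℝ) 0 := by
  have hN : (0 : ℝ) ≤ N := Nat.cast_nonneg _
  unfold Fex
  split_ifs with h1 h2
  · have : (2 * p : ℝ) < 37 * N := by exact_mod_cast h1
    rw [max_eq_left (by linarith), max_eq_left (by linarith), max_eq_left (by linarith),
      max_eq_left (by linarith), max_eq_left (by linarith), max_eq_left (by linarith),
      max_eq_left (by linarith)]
    push_cast
    ring
  · have a1 : (37 * N : ℝ) ≤ 2 * p := by exact_mod_cast not_lt.1 h1
    have a2 : (p : ℝ) < 25 * N := by exact_mod_cast h2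
    rw [max_eq_left (a := (49 * N - p : ℝ)) (by linarith),
      max_eq_left (a := (44 * N - p : ℝ)) (by linarith),
      max_eq_left (a := (43 * N - p : ℝ)) (by linarith),
      max_eq_left (a := (30 * N - p : ℝ)) (by linarith),
      max_eq_left (a := (25 * N - p : ℝ)) (by linarith),
      max_eq_right (a := (37 / 2 * N - p : ℝ)) (by linarith)]
    push_cast [cast_sub]
    simp only [max_def]
    split_ifs <;> linarith
  · have a1 : (25 * N : ℝ) ≤ p := by exact_mod_cast not_lt.1 h2
    rw [max_eq_right (a := (25 * N - p : ℝ)) (by linarith),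
      max_eq_right (a := (43 / 2 * N - p : ℝ)) (by linarith),
      max_eq_right (a := (37 / 2 * N - p : ℝ)) (by linarith)]
    push_cast [cast_sub]
    ring

end PSAux

open PSAux in
theorem primeSum (h : PNT) : PrimeSum := by
  have h1 := ((((((part h (c := 49) (by norm_num) (by norm_num)).add
    (part h (c := 44) (by norm_num) (by norm_num))).add
    (part h (c := 43) (by norm_num) (by norm_num))).add
    (part h (c := 30) (by norm_num) (by norm_num))).sub
    ((part h (c := 25) (by norm_num) (by norm_num)).const_mul 4)).add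
    ((part h (c := 43 / 2) (by norm_num) (by norm_num)).const_mul 2)).sub
    ((part h (c := 37 / 2) (by norm_num) (by norm_num)).const_mul 2)
  have e : (49 : ℝ) ^ 2 * (1 / 2) + 44 ^ 2 * (1 / 2) + 43 ^ 2 * (1 / 2) + 30 ^ 2 * (1 / 2) -
      4 * (25 ^ 2 * (1 / 2)) + 2 * ((43 / 2) ^ 2 * (1 / 2)) - 2 * ((37 / 2) ^ 2 * (1 / 2)) =
      2413 := by norm_num
  rw [e] at h1
  refine h1.congr fun N => ?_
  simp only [Fex_eq, add_mul, sub_mul, sum_add_distrib, sum_sub_distrib, mul_assoc, ← mul_sum]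
  ring

end Crest.Agent.R6
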