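import Crest.Agent.R6.Defs

/-! # Row 6: the real bound for the determinant -/

set_option autoImplicit false

open Finset MeasureTheory

namespace Crest.Agent.R6

namespace RealBdAux

theorem meas_tt : Measurable tt := by
  unfold tt
  fun_prop

theorem meas_rowf (N k : ℕ) : Measurable (rowf N k) := by
  unfold rowf
  fun_prop

theorem meas_psi (N l : ℕ) : Measurable (psi N l) := by
  unfold psi
  have h := meas_tt
  refine Measurable.mul (by fun_prop) ?_
  refine Measurable.ite (measurableSet_lt measurable_const measurable_id) ?_ ?_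
  · fun_prop
  · fun_prop

theorem meas_kern : Measurable (Function.uncurry kern) := by
  unfold kern Function.uncurry
  fun_prop

theorem abs_tt_le (w : ℝ) : |tt w| ≤ 2 * |w| := by
  unfold tt
  rw [abs_div, abs_mul, abs_of_pos (by positivity : (0 : ℝ) < 1 + w ^ 2), abs_two]
  exact div_le_self (by positivity) (by nlinarith [sq_nonneg w])

theorem abs_tt_le_one (w : ℝ) : |tt w| ≤ 1 := by
  unfold tt
  rw [abs_div, abs_mul, abs_of_pos (by positivity : (0 : ℝ) < 1 + w ^ 2), abs_two,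
    div_le_one (by positivity)]
  nlinarith [sq_nonneg (|w| - 1), sq_abs w]

theorem pow_mul_zpow_le {w : ℝ} (hw : |w| ≤ 1) (hw0 : w ≠ 0) (m : ℕ) (e : ℤ) (he : -(m : ℤ) ≤ e) :
    |tt w ^ m * w ^ e| ≤ 2 ^ m := by
  have hpos : 0 < |w| := abs_pos.2 hw0
  rw [abs_mul, abs_pow, abs_zpow]
  calc |tt w| ^ m * |w| ^ e ≤ (2 * |w|) ^ m * |w| ^ e := by
        gcongr
        exact abs_tt_le w
    _ = 2 ^ m * |w| ^ ((m : ℤ) + e) := by
        rw [mul_pow, zpow_add₀ hpos.ne', zpow_natCast, mul_assoc]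
    _ ≤ 2 ^ m * 1 := by
        gcongr
        exact zpow_le_one₀ hpos hw (by omega)
    _ = 2 ^ m := mul_one _

theorem kern_mul_le {s w : ℝ} (hs : s ∈ Set.Ioo (0 : ℝ) 1) (hw : w ∈ Set.Ioo (-1 : ℝ) 1) :
    |kern s w * (1 - tt w)| ≤ 4 := by
  obtain ⟨hs0, hs1⟩ := hs
  obtain ⟨hw0, hw1⟩ := hw
  have hd : 0 < 1 - 2 * s * w + w ^ 2 := by nlinarith [sq_nonneg (w - s)]
  have h1 : kern s w * (1 - tt w) = 2 * (1 - w) ^ 2 / ((1 - 2 * s * w + w ^ 2) * (1 + w ^ 2)) := by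
    unfold kern tt
    field_simp
    ring
  rw [h1, abs_of_nonneg (by positivity), div_le_iff₀ (by positivity)]
  rcases le_total 0 w with h | h
  · have : (1 - w) ^ 2 ≤ 1 - 2 * s * w + w ^ 2 := by nlinarith
    nlinarith [sq_nonneg w, mul_nonneg hd.le (sq_nonneg w)]
  · have h2 : 1 + w ^ 2 ≤ 1 - 2 * s * w + w ^ 2 := by nlinarith
    have h3 : (1 - w) ^ 2 ≤ 2 * (1 + w ^ 2) := by nlinarith [sq_nonneg (1 + w)]
    nlinarith [sq_nonneg w, mul_nonneg hd.le (sq_nonneg w)]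

theorem kern_psi_le {N l : ℕ} (hN : 1 ≤ N) (hl : l < 36 * N) {s w : ℝ} (hs : s ∈ Set.Ioo (0 : ℝ) 1)
    (hw : w ∈ Set.Ioo (-1 : ℝ) 1) : |kern s w * psi N l w| ≤ 8 * 2 ^ (2 * N) * 2 ^ (47 * N) := by
  by_cases hw0 : w = 0
  · subst hw0
    have : psi N l 0 = 0 := by
      unfold psi tt
      rw [mul_zero, zero_div, zero_pow (by omega), zero_mul, zero_mul]
    rw [this, mul_zero, abs_zero]
    positivity
  have hw1 : |w| ≤ 1 := abs_le.2 ⟨hw.1.le, hw.2.le⟩
  have a1 := pow_mul_zpow_le hw1 hw0 (47 * N) ((l : ℤ) - 3 * N) (by push_cast; omega)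
  have a2 := pow_mul_zpow_le hw1 hw0 (47 * N) (3 * (N : ℤ) - l) (by push_cast; omega)
  have a3 := kern_mul_le hs hw
  have a4 : |(1 - tt w) ^ (2 * N - 1)| ≤ 2 ^ (2 * N) := by
    rw [abs_pow]
    have h := abs_le.1 (abs_tt_le_one w)
    calc |1 - tt w| ^ (2 * N - 1) ≤ 2 ^ (2 * N - 1) := by
          gcongr
          rw [abs_le]; constructor <;> linarith [h.1, h.2]
      _ ≤ 2 ^ (2 * N) := pow_le_pow_right₀ (by norm_num) (by omega)
  have hp : (1 - tt w) ^ (2 * N) = (1 - tt w) * (1 - tt w) ^ (2 * N - 1) := by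
    rw [← pow_succ']; congr 1; omega
  set A := tt w ^ (47 * N) * w ^ ((l : ℤ) - 3 * N) with hA
  set B := tt w ^ (47 * N) * w ^ (3 * (N : ℤ) - l) with hB
  obtain ⟨Y, hY, hY2⟩ : ∃ Y : ℝ, kern s w * psi N l w =
      (kern s w * (1 - tt w)) * (1 - tt w) ^ (2 * N - 1) * Y ∧ |Y| ≤ 2 * 2 ^ (47 * N) := by
    have b1 := abs_le.1 a1
    have b2 := abs_le.1 a2
    have hpos : (0 : ℝ) < 2 ^ (47 * N) := by positivity
    by_cases h : 0 < w
    · refine ⟨(5 * A - B) / 4, ?_, ?_⟩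
      · unfold psi
        rw [if_pos h, hp, hA, hB]; ring
      · rw [abs_le]; constructor <;> linarith [b1.1, b1.2, b2.1, b2.2]
    · refine ⟨-(A + B) / 2, ?_, ?_⟩
      · unfold psi
        rw [if_neg h, hp, hA, hB]; ring
      · rw [abs_le]; constructor <;> linarith [b1.1, b1.2, b2.1, b2.2]
  rw [hY, abs_mul, abs_mul]
  have : |kern s w * (1 - tt w)| * |(1 - tt w) ^ (2 * N - 1)| * |Y| ≤
      4 * 2 ^ (2 * N) * (2 * 2 ^ (47 * N)) := by gcongr
  linarith

theorem rowf_le {N k : ℕ} {s : ℝ} (hs : s ∈ Set.Ioo (0 : ℝ) 1) : |rowf N k s| ≤ 1 := by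
  unfold rowf
  rw [abs_mul, abs_pow, abs_pow]
  have h1 : |s| ≤ 1 := abs_le.2 ⟨by linarith [hs.1], hs.2.le⟩
  have h2 : |1 - s| ≤ 1 := abs_le.2 ⟨by linarith [hs.2], by linarith [hs.1]⟩
  exact mul_le_one₀ (pow_le_one₀ (abs_nonneg _) h1) (by positivity) (pow_le_one₀ (abs_nonneg _) h2)

end RealBdAux

open RealBdAux in
theorem realBd (hR : RealId) (hA : AndBd) (hP : Point) : RealBd := by
  intro G hG
  obtain ⟨c, hc⟩ := hP
  refine ⟨c + 72, fun N hN => ?_⟩
  have h1 : (Dl N G : ℝ) = (Matrix.of fun k l : Fin (36 * N) =>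
      ∫ s in Set.Ioo (0 : ℝ) 1, rowf N k s * ∫ w in Set.Ioo (-1 : ℝ) 1, kern s w * psi N l w).det := by
    unfold Dl
    rw [Rat.cast_det]
    congr 1
    ext k l
    simp only [Matrix.map_apply, Matrix.of_apply]
    exact hR G hG N k l hN k.2 l.2
  have hone : (1 : ℝ) ≤ 8 * 2 ^ (2 * N) * 2 ^ (47 * N) := by
    have a : (1 : ℝ) ≤ 2 ^ (2 * N) := one_le_pow₀ (by norm_num)
    have b : (1 : ℝ) ≤ 2 ^ (47 * N) := one_le_pow₀ (by norm_num)
    nlinarith
  have h2 := hA (36 * N) (fun k => rowf N k) (fun l => psi N l) kern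
    (Real.exp (-2505 * (N : ℝ) ^ 2 + c * N * Real.log (N + 1))) (8 * 2 ^ (2 * N) * 2 ^ (47 * N))
    (Real.exp_pos _).le (fun k => meas_rowf N k) (fun l => meas_psi N l) meas_kern
    (fun k s hs => (rowf_le hs).trans hone) (fun l s hs w hw => kern_psi_le hN l.2 hs hw)
    (fun s w hs hw => hc N s w hN hs hw)
  rw [h1]
  refine h2.trans ?_
  have h3 : (4 : ℝ) ^ (36 * N) ≤ Real.exp (72 * N * Real.log (N + 1)) := by
    have hN' : (1 : ℝ) ≤ N := by exact_mod_cast hN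
    have h4 : (4 : ℝ) ^ (36 * N) = Real.exp (72 * N * Real.log 2) := by
      rw [show (72 : ℝ) * N * Real.log 2 = ((72 * N : ℕ) : ℝ) * Real.log 2 by push_cast; ring,
        Real.exp_nat_mul, Real.exp_log (by norm_num), show (4 : ℝ) = 2 ^ 2 by norm_num, ← pow_mul]
      congr 1; ring
    rw [h4]
    gcongr
    linarith
  calc _ ≤ Real.exp (-2505 * (N : ℝ) ^ 2 + c * N * Real.log (N + 1)) *
        Real.exp (72 * N * Real.log (N + 1)) := by gcongr
    _ = _ := by rw [← Real.exp_add]; congr 1; ring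

end Crest.Agent.R6
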