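import Crest.Agent.R6.Defs

/-! Row 6, task REALID: the entries are double integrals. -/

set_option autoImplicit false

open Finset Polynomial Filter Topology MeasureTheory

namespace Crest.Agent.R6

namespace RealIdAux

theorem den_pos (w : ℝ) : 0 < 1 + w ^ 2 := by positivity

theorem tt_neg (w : ℝ) : tt (-w) = -tt w := by
  simp only [tt, neg_sq]
  ring

theorem abs_tt (w : ℝ) : |tt w| ≤ 1 := by
  rw [tt, abs_div, abs_of_pos (den_pos w), div_le_one (den_pos w), abs_le]
  constructor <;> nlinarith [sq_nonneg (w - 1), sq_nonneg (w + 1)]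

theorem cont_tt : Continuous tt :=
  (continuous_const.mul continuous_id).div (continuous_const.add (continuous_pow 2))
    fun w => (den_pos w).ne'

theorem cont_d : Continuous fun w : ℝ => 2 / (1 + w ^ 2) :=
  continuous_const.div (continuous_const.add (continuous_pow 2)) fun w => (den_pos w).ne'

theorem cont_r : Continuous fun w : ℝ => (1 - w ^ 2) / (1 + w ^ 2) :=
  (continuous_const.sub (continuous_pow 2)).div (continuous_const.add (continuous_pow 2))
    fun w => (den_pos w).ne'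

theorem abs_d (w : ℝ) : |2 / (1 + w ^ 2)| ≤ 2 := by
  rw [abs_of_pos (div_pos two_pos (den_pos w)), div_le_iff₀ (den_pos w)]
  nlinarith [sq_nonneg w]

theorem abs_r (w : ℝ) : |(1 - w ^ 2) / (1 + w ^ 2)| ≤ 1 := by
  rw [abs_div, abs_of_pos (den_pos w), div_le_one (den_pos w), abs_le]
  constructor <;> nlinarith [sq_nonneg w]

theorem kden_pos {s : ℝ} (hs : s ∈ Set.Ioo (0 : ℝ) 1) (w : ℝ) : 0 < 1 - 2 * s * w + w ^ 2 := by
  nlinarith [sq_nonneg (w - s), hs.1, hs.2]

theorem cont_kern {s : ℝ} (hs : s ∈ Set.Ioo (0 : ℝ) 1) : Continuous (kern s) :=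
  continuous_const.div ((continuous_const.sub (continuous_const.mul continuous_id)).add
    (continuous_pow 2)) fun w => (kden_pos hs w).ne'

theorem hasSum_kern {s : ℝ} (hs : s ∈ Set.Ioo (0 : ℝ) 1) (w : ℝ) :
    HasSum (fun n : ℕ => s ^ n * (tt w ^ n * (2 / (1 + w ^ 2)))) (kern s w) := by
  have h1 : |s * tt w| < 1 := by
    rw [abs_mul, abs_of_pos hs.1]
    exact (mul_le_of_le_one_right hs.1.le (abs_tt w)).trans_lt hs.2
  have h2 := (hasSum_geometric_of_abs_lt_one h1).mul_right (2 / (1 + w ^ 2))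
  have h3 : (1 - s * tt w)⁻¹ * (2 / (1 + w ^ 2)) = kern s w := by
    have h4 : 1 - s * tt w = (1 - 2 * s * w + w ^ 2) / (1 + w ^ 2) := by
      have := (den_pos w).ne'
      rw [tt]
      field_simp
      ring
    have := (den_pos w).ne'
    have := (kden_pos hs w).ne'
    rw [h4, kern]
    field_simp
  rw [h3] at h2
  simpa only [mul_pow, mul_assoc] using h2

theorem hs_congr {f g : ℕ → ℝ} {a : ℝ} (h : HasSum f a) (e : ∀ n, g n = f n) : HasSum g a :=
  (funext e : g = f) ▸ h

/-- termwise integration in `w` -/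
theorem inner_aux {s : ℝ} (hs : s ∈ Set.Ioo (0 : ℝ) 1) {F : ℕ → ℝ → ℝ} {f : ℝ → ℝ} {C : ℝ}
    (hF : ∀ n, Continuous (F n)) (hC : ∀ n w, |F n w| ≤ C)
    (h : ∀ w, HasSum (fun n => s ^ n * F n w) (f w)) :
    HasSum (fun n => s ^ n * ∫ w in (0 : ℝ)..1, F n w) (∫ w in (0 : ℝ)..1, f w) := by
  have h1 := intervalIntegral.hasSum_integral_of_dominated_convergence (μ := volume) (a := 0) (b := 1)
    (F := fun n w => s ^ n * F n w) (f := f) (fun n _ => s ^ n * C)
    (fun n => (continuous_const.mul (hF n)).aestronglyMeasurable)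
    (fun n => Eventually.of_forall fun w _ => by
      rw [Real.norm_eq_abs, abs_mul, abs_of_pos (pow_pos hs.1 n)]
      exact mul_le_mul_of_nonneg_left (hC n w) (pow_pos hs.1 n).le)
    (Eventually.of_forall fun w _ => (summable_geometric_of_lt_one hs.1.le hs.2).mul_right C)
    intervalIntegrable_const (Eventually.of_forall fun w _ => h w)
  simpa only [intervalIntegral.integral_const_mul] using h1

theorem momA (hM : Mom) (m : ℕ) :
    ∫ w in (0 : ℝ)..1, (tt w ^ m - (-tt w) ^ m) * (2 / (1 + w ^ 2)) = (mt m : ℝ) := by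
  rcases Nat.even_or_odd' m with ⟨k, rfl | rfl⟩
  · have : mt (2 * k) = 0 := by simp [mt]
    simp [this, pow_mul]
  · rw [← hM.1 k]
    refine intervalIntegral.integral_congr fun w _ => ?_
    rw [Odd.neg_pow ⟨k, rfl⟩]
    ring

theorem innerA (hM : Mom) {s : ℝ} (hs : s ∈ Set.Ioo (0 : ℝ) 1) (j : ℕ) :
    HasSum (fun n : ℕ => s ^ n * (mt (n + j) : ℝ))
      (∫ w in (0 : ℝ)..1, (kern s w * tt w ^ j - kern s (-w) * (-tt w) ^ j)) := by
  have h := inner_aux hs (F := fun n w => (tt w ^ (n + j) - (-tt w) ^ (n + j)) * (2 / (1 + w ^ 2)))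
    (f := fun w => kern s w * tt w ^ j - kern s (-w) * (-tt w) ^ j) (C := 2 * 2)
    (fun n => ((cont_tt.pow _).sub (cont_tt.neg.pow _)).mul cont_d)
    (fun n w => by
      rw [abs_mul]
      refine mul_le_mul ((abs_sub _ _).trans ?_) (abs_d w) (abs_nonneg _) two_pos.le
      rw [abs_pow, abs_pow, abs_neg]
      linarith [pow_le_one₀ (abs_nonneg (tt w)) (abs_tt w) (n := n + j)])
    (fun w => by
      have h1 := ((hasSum_kern hs w).mul_right (tt w ^ j)).sub
        ((hasSum_kern hs (-w)).mul_right ((-tt w) ^ j))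
      refine hs_congr h1 fun n => ?_
      rw [tt_neg, neg_sq, pow_add, pow_add]
      ring)
  simpa only [momA hM] using h

theorem innerB (hM : Mom) {s : ℝ} (hs : s ∈ Set.Ioo (0 : ℝ) 1) (j : ℕ) :
    HasSum (fun n : ℕ => s ^ n * (1 / ((n : ℝ) + j + 1)))
      (∫ w in (0 : ℝ)..1, kern s w * (tt w ^ j * ((1 - w ^ 2) / (1 + w ^ 2)))) := by
  have h := inner_aux hs
    (F := fun n w => tt w ^ (n + j) * ((1 - w ^ 2) / (1 + w ^ 2)) * (2 / (1 + w ^ 2)))
    (f := fun w => kern s w * (tt w ^ j * ((1 - w ^ 2) / (1 + w ^ 2)))) (C := 1 * 1 * 2)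
    (fun n => ((cont_tt.pow _).mul cont_r).mul cont_d)
    (fun n w => by
      rw [abs_mul, abs_mul, abs_pow]
      exact mul_le_mul (mul_le_mul (pow_le_one₀ (abs_nonneg (tt w)) (abs_tt w)) (abs_r w)
        (abs_nonneg _) one_pos.le) (abs_d w) (abs_nonneg _) (by norm_num))
    (fun w => by
      have h1 := (hasSum_kern hs w).mul_right (tt w ^ j * ((1 - w ^ 2) / (1 + w ^ 2)))
      refine hs_congr h1 fun n => ?_
      rw [pow_add]
      ring)
  simpa only [hM.2.1, Nat.cast_add] using h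

theorem split {φ ψ g : ℝ → ℝ} (hφ : Continuous φ) (hψ : Continuous ψ)
    (h1 : ∀ w ∈ Set.Ioo (0 : ℝ) 1, g w = φ w) (h2 : ∀ w ∈ Set.Ioo (-1 : ℝ) 0, g w = ψ w) :
    ∫ w in Set.Ioo (-1 : ℝ) 1, g w = ∫ w in (0 : ℝ)..1, (φ w + ψ (-w)) := by
  have i1 : IntervalIntegrable g volume 0 1 := by
    rw [intervalIntegrable_iff_integrableOn_Ioo_of_le zero_le_one]
    exact ((hφ.integrableOn_Icc).mono_set Set.Ioo_subset_Icc_self).congr_fun
      (fun w hw => (h1 w hw).symm) measurableSet_Ioo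
  have i2 : IntervalIntegrable g volume (-1) 0 := by
    rw [intervalIntegrable_iff_integrableOn_Ioo_of_le (by norm_num)]
    exact ((hψ.integrableOn_Icc).mono_set Set.Ioo_subset_Icc_self).congr_fun
      (fun w hw => (h2 w hw).symm) measurableSet_Ioo
  have e1 : ∫ w in (0 : ℝ)..1, g w = ∫ w in (0 : ℝ)..1, φ w := by
    rw [intervalIntegral.integral_of_le zero_le_one, intervalIntegral.integral_of_le zero_le_one,
      integral_Ioc_eq_integral_Ioo, integral_Ioc_eq_integral_Ioo]
    exact setIntegral_congr_fun measurableSet_Ioo h1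
  have e2 : ∫ w in (-1 : ℝ)..0, g w = ∫ w in (-1 : ℝ)..0, ψ w := by
    rw [intervalIntegral.integral_of_le (by norm_num), intervalIntegral.integral_of_le (by norm_num),
      integral_Ioc_eq_integral_Ioo, integral_Ioc_eq_integral_Ioo]
    exact setIntegral_congr_fun measurableSet_Ioo h2
  rw [← integral_Ioc_eq_integral_Ioo, ← intervalIntegral.integral_of_le (by norm_num),
    ← intervalIntegral.integral_add_adjacent_intervals i2 i1, e1, e2,
    intervalIntegral.integral_add (g := fun w => ψ (-w)) (hφ.intervalIntegrable _ _)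
      ((hψ.comp continuous_neg).intervalIntegrable _ _), intervalIntegral.integral_comp_neg ψ,
    neg_zero, add_comm]

theorem cols (hC : Col) {N l : ℕ} (hl : l < 36 * N) {w : ℝ} (hw : w ≠ 0) :
    aeval (tt w) (cE N l) + aeval (tt w) (cO N l) * ((1 - w ^ 2) / (1 + w ^ 2)) =
        tt w ^ (47 * N) * w ^ ((l : ℤ) - 3 * N) ∧
      aeval (tt w) (cE N l) - aeval (tt w) (cO N l) * ((1 - w ^ 2) / (1 + w ^ 2)) =
        tt w ^ (47 * N) * w ^ (3 * (N : ℤ) - l) := by
  have hd := (den_pos w).ne'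
  have hr : ((1 - w ^ 2) / (1 + w ^ 2)) ^ 2 = 1 - tt w ^ 2 := by
    rw [tt]
    field_simp
    ring
  have r1 : 1 + (1 - w ^ 2) / (1 + w ^ 2) = tt w * w⁻¹ := by
    rw [tt]
    field_simp
    ring
  have r2 : 1 + -((1 - w ^ 2) / (1 + w ^ 2)) = tt w * w := by
    rw [tt]
    field_simp
    ring
  have p1 := fun u => hC.1 ℝ (tt w) _ hr u
  have p2 := fun u => hC.1 ℝ (tt w) (-((1 - w ^ 2) / (1 + w ^ 2))) (by rw [neg_sq, hr]) u
  rw [r1] at p1
  rw [r2] at p2
  generalize (1 - w ^ 2) / (1 + w ^ 2) = r at p1 p2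
  generalize tt w = t at p1 p2
  have q : ∀ u, u ≤ 47 * N → t ^ (47 * N - u) * t ^ u = t ^ (47 * N) := fun u hu => by
    rw [← pow_add, Nat.sub_add_cancel hu]
  simp only [cE, cO, map_mul, map_pow, aeval_X]
  by_cases h : 3 * N ≤ l
  · obtain ⟨u, rfl⟩ := Nat.exists_eq_add_of_le h
    have e1 : Nat.dist (3 * N + u) (3 * N) = u := by simp [Nat.dist]
    have e2 : ((3 * N + u : ℕ) : ℤ) - 3 * N = u := by push_cast; ring
    have e3 : 3 * (N : ℤ) - ((3 * N + u : ℕ) : ℤ) = -(u : ℤ) := by push_cast; ring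
    rw [e1, e2, e3, if_pos h, zpow_neg, zpow_natCast, ← inv_pow, ← q u (by omega)]
    have a1 := p1 u
    have a2 := p2 u
    rw [mul_pow] at a1 a2
    simp only [map_neg, map_one]
    constructor
    · linear_combination (-t ^ (47 * N - u)) * a2
    · linear_combination (-t ^ (47 * N - u)) * a1
  · obtain ⟨u, hu⟩ := Nat.exists_eq_add_of_le (not_le.1 h).le
    have e1 : Nat.dist l (3 * N) = u := by rw [hu]; simp [Nat.dist]
    have hu' : 3 * (N : ℤ) = l + u := by exact_mod_cast hu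
    have e2 : (l : ℤ) - 3 * N = -(u : ℤ) := by rw [hu']; ring
    have e3 : 3 * (N : ℤ) - l = u := by rw [hu']; ring
    rw [e1, e2, e3, if_neg h, zpow_neg, zpow_natCast, ← inv_pow, ← q u (by omega)]
    have a1 := p1 u
    have a2 := p2 u
    rw [mul_pow] at a1 a2
    simp only [map_one]
    constructor
    · linear_combination (-t ^ (47 * N - u)) * a1
    · linear_combination (-t ^ (47 * N - u)) * a2

theorem aeval_sum {P : ℤ[X]} {n : ℕ} (hn : 1 ≤ n) (h : ∀ j, n ≤ j → P.coeff j = 0) (t : ℝ) :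
    aeval t P = ∑ j ∈ range n, (P.coeff j : ℝ) * t ^ j := by
  have h1 : P.natDegree < n :=
    (natDegree_le_iff_coeff_eq_zero.2 fun j (hj : n - 1 < j) => h j (by omega)).trans_lt (by omega)
  rw [aeval_eq_sum_range' h1]
  simp only [zsmul_eq_mul]

theorem psi_eq (hC : Col) {N l : ℕ} (hN : 1 ≤ N) (hl : l < 36 * N) {w : ℝ} (hw : w ≠ 0) :
    psi N l w = if 0 < w then ∑ j ∈ range (49 * N + 1), (((colE N l).coeff j : ℝ) * tt w ^ j +
        3 / 2 * ((colO N l).coeff j : ℝ) * (tt w ^ j * ((1 - w ^ 2) / (1 + w ^ 2))))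
      else ∑ j ∈ range (49 * N + 1), -(((colE N l).coeff j : ℝ) * tt w ^ j) := by
  obtain ⟨h1, h2⟩ := cols hC hl hw
  have e1 := aeval_sum (P := colE N l) (n := 49 * N + 1) (by omega)
    (fun j hj => (hC.2.2.1 N l j hN hl).2.2.1 (Or.inr (by omega))) (tt w)
  have e2 := aeval_sum (P := colO N l) (n := 49 * N + 1) (by omega)
    (fun j hj => (hC.2.2.1 N l j hN hl).2.2.2 (Or.inr (by omega))) (tt w)
  have e3 : ∑ j ∈ range (49 * N + 1), (((colE N l).coeff j : ℝ) * tt w ^ j +
      3 / 2 * ((colO N l).coeff j : ℝ) * (tt w ^ j * ((1 - w ^ 2) / (1 + w ^ 2)))) =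
      aeval (tt w) (colE N l) + 3 / 2 * aeval (tt w) (colO N l) * ((1 - w ^ 2) / (1 + w ^ 2)) := by
    rw [e1, e2, mul_sum, sum_mul, ← sum_add_distrib]
    exact sum_congr rfl fun j _ => by ring
  rw [e3, sum_neg_distrib, ← e1, psi]
  simp only [colE, colO, map_mul, map_pow, map_sub, map_one, aeval_X]
  split_ifs
  · linear_combination (-(1 - tt w) ^ (2 * N)) * (5 / 4 * h1 - 1 / 4 * h2)
  · linear_combination ((1 - tt w) ^ (2 * N)) * (1 / 2 * h1 + 1 / 2 * h2)

/-- the coefficients of the inner integral -/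
noncomputable def mu (N l n : ℕ) : ℝ :=
  ∑ j ∈ range (49 * N + 1), (((colE N l).coeff j : ℝ) * (mt (n + j) : ℝ) +
    3 / 2 * ((colO N l).coeff j : ℝ) * (1 / ((n : ℝ) + j + 1)))

theorem inner (hC : Col) (hM : Mom) {N l : ℕ} (hN : 1 ≤ N) (hl : l < 36 * N) {s : ℝ}
    (hs : s ∈ Set.Ioo (0 : ℝ) 1) : HasSum (fun n : ℕ => s ^ n * mu N l n)
      (∫ w in Set.Ioo (-1 : ℝ) 1, kern s w * psi N l w) := by
  have ck := cont_kern hs
  have e := split (g := fun w => kern s w * psi N l w)
    (φ := fun w => kern s w * ∑ j ∈ range (49 * N + 1), (((colE N l).coeff j : ℝ) * tt w ^ j +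
        3 / 2 * ((colO N l).coeff j : ℝ) * (tt w ^ j * ((1 - w ^ 2) / (1 + w ^ 2)))))
    (ψ := fun w => kern s w * ∑ j ∈ range (49 * N + 1), -(((colE N l).coeff j : ℝ) * tt w ^ j))
    (ck.mul (continuous_finsetSum _ fun j _ => (continuous_const.mul (cont_tt.pow j)).add
      (continuous_const.mul ((cont_tt.pow j).mul cont_r))))
    (ck.mul (continuous_finsetSum _ fun j _ => (continuous_const.mul (cont_tt.pow j)).neg))
    (fun w hw => by rw [psi_eq hC hN hl hw.1.ne', if_pos hw.1])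
    (fun w hw => by rw [psi_eq hC hN hl hw.2.ne, if_neg (not_lt.2 hw.2.le)])
  have cA : ∀ j : ℕ, Continuous fun w => kern s w * tt w ^ j - kern s (-w) * (-tt w) ^ j := fun j =>
    (ck.mul (cont_tt.pow j)).sub ((ck.comp continuous_neg).mul (cont_tt.neg.pow j))
  have cB : ∀ j : ℕ, Continuous fun w => kern s w * (tt w ^ j * ((1 - w ^ 2) / (1 + w ^ 2))) :=
    fun j => ck.mul ((cont_tt.pow j).mul cont_r)
  have e2 : ∫ w in Set.Ioo (-1 : ℝ) 1, kern s w * psi N l w = ∑ j ∈ range (49 * N + 1),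
      (((colE N l).coeff j : ℝ) * (∫ w in (0 : ℝ)..1,
          (kern s w * tt w ^ j - kern s (-w) * (-tt w) ^ j)) + 3 / 2 * ((colO N l).coeff j : ℝ) *
        ∫ w in (0 : ℝ)..1, kern s w * (tt w ^ j * ((1 - w ^ 2) / (1 + w ^ 2)))) := by
    have iA : ∀ j : ℕ, IntervalIntegrable (fun w => ((colE N l).coeff j : ℝ) *
        (kern s w * tt w ^ j - kern s (-w) * (-tt w) ^ j)) volume 0 1 := fun j =>
      (continuous_const.mul (cA j)).intervalIntegrable _ _
    have iB : ∀ j : ℕ, IntervalIntegrable (fun w => 3 / 2 * ((colO N l).coeff j : ℝ) *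
        (kern s w * (tt w ^ j * ((1 - w ^ 2) / (1 + w ^ 2))))) volume 0 1 := fun j =>
      (continuous_const.mul (cB j)).intervalIntegrable _ _
    rw [e]
    simp only [← intervalIntegral.integral_const_mul]
    rw [sum_congr rfl fun j _ => (intervalIntegral.integral_add (iA j) (iB j)).symm,
      ← intervalIntegral.integral_finsetSum fun j _ => (iA j).add (iB j)]
    refine intervalIntegral.integral_congr fun w _ => ?_
    rw [mul_sum, mul_sum, ← sum_add_distrib, tt_neg]
    exact sum_congr rfl fun j _ => by ring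
  rw [e2]
  have h := hasSum_sum (s := range (49 * N + 1)) fun j _ =>
    ((innerA hM hs j).mul_left ((colE N l).coeff j : ℝ)).add
      ((innerB hM hs j).mul_left (3 / 2 * ((colO N l).coeff j : ℝ)))
  refine hs_congr h fun n => ?_
  rw [mu, mul_sum]
  exact sum_congr rfl fun j _ => by ring

theorem int_pow (m : ℕ) : ∫ s in Set.Ioo (0 : ℝ) 1, s ^ m = 1 / ((m : ℝ) + 1) := by
  rw [← integral_Ioc_eq_integral_Ioo, ← intervalIntegral.integral_of_le zero_le_one, integral_pow]
  simp

theorem intOn {f : ℝ → ℝ} (hf : Continuous f) : IntegrableOn f (Set.Ioo (0 : ℝ) 1) :=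
  hf.integrableOn_Icc.mono_set Set.Ioo_subset_Icc_self

theorem mu_sum (hS : SerId) (N l i : ℕ) : HasSum (fun n : ℕ => mu N l n * (1 / ((n : ℝ) + i + 1)))
    (∑ j ∈ range (49 * N + 1), (((colE N l).coeff j : ℝ) *
      ((Mr i j : ℝ) + 4 * catalan * (gam i j : ℝ) + Real.pi ^ 2 / 4 * (pii i j : ℝ)) +
      3 / 2 * ((colO N l).coeff j : ℝ) * ((Zr i j : ℝ) + if i = j then Real.pi ^ 2 / 6 else 0))) := by
  have h := hasSum_sum (s := range (49 * N + 1)) fun j _ =>
    ((hS i j).1.mul_left ((colE N l).coeff j : ℝ)).add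
      ((hS i j).2.mul_left (3 / 2 * ((colO N l).coeff j : ℝ)))
  refine hs_congr h fun n => ?_
  rw [mu, sum_mul]
  refine sum_congr rfl fun j _ => ?_
  have : (n : ℝ) + i + 1 ≠ 0 := by positivity
  have : (n : ℝ) + j + 1 ≠ 0 := by positivity
  field_simp

theorem mu_abs (hM : Mom) (hS : SerId) (N l : ℕ) :
    Summable fun n : ℕ => |mu N l n| * (1 / ((n : ℝ) + 1)) := by
  have h := summable_sum (s := range (49 * N + 1)) fun j _ =>
    ((hS 0 j).1.summable.mul_left |((colE N l).coeff j : ℝ)|).add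
      ((hS 0 j).2.summable.mul_left (3 / 2 * |((colO N l).coeff j : ℝ)|))
  refine Summable.of_nonneg_of_le (fun n => by positivity) (fun n => ?_) h
  rw [mu]
  refine (mul_le_mul_of_nonneg_right (abs_sum_le_sum_abs _ _) (by positivity)).trans ?_
  rw [sum_mul]
  refine sum_le_sum fun j _ => ?_
  refine (mul_le_mul_of_nonneg_right (abs_add_le _ _) (by positivity)).trans (le_of_eq ?_)
  have h1 : (0 : ℝ) < (n : ℝ) + j + 1 := by positivity
  have h2 : (0 : ℝ) < (n : ℝ) + 1 := by positivity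
  rw [abs_mul, abs_mul, abs_mul, abs_of_nonneg (hM.2.2 _).1, abs_of_pos (one_div_pos.2 h1),
    abs_of_pos (show (0 : ℝ) < 3 / 2 by norm_num), Nat.cast_zero, add_zero]
  field_simp

end RealIdAux

open RealIdAux in
theorem realId (hC : Col) (hM : Mom) (hS : SerId) : RealId := by
  intro G hG N k l hN hk hl
  have hrow : ∀ s : ℝ, rowf N k s = ∑ i ∈ range (44 * N), ((rowP N k).coeff i : ℝ) * s ^ i := by
    intro s
    rw [← aeval_sum (by omega) (fun i hi => hC.2.2.2.1 N k i hk (Or.inr hi)) s]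
    simp [rowf, rowP]
  have crow : Continuous (rowf N k) :=
    (continuous_pow _).mul ((continuous_const.sub continuous_id).pow _)
  have cF : ∀ n : ℕ, Continuous fun s : ℝ => rowf N k s * (s ^ n * mu N l n) := fun n =>
    crow.mul ((continuous_pow n).mul continuous_const)
  have h1 := hasSum_integral_of_summable_integral_norm (μ := volume.restrict (Set.Ioo (0 : ℝ) 1))
    (F := fun (n : ℕ) s => rowf N k s * (s ^ n * mu N l n)) (fun n => intOn (cF n)) (by
      refine Summable.of_nonneg_of_le (fun n => integral_nonneg fun s => norm_nonneg _)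
        (fun n => ?_) (mu_abs hM hS N l)
      rw [← int_pow, ← integral_const_mul]
      refine setIntegral_mono_on (intOn (cF n).norm)
        (intOn (continuous_const.mul (continuous_pow n))) measurableSet_Ioo fun s hs => ?_
      have a1 : |rowf N k s| ≤ 1 := by
        rw [rowf, abs_mul, abs_pow, abs_pow, abs_of_pos hs.1, abs_of_pos (sub_pos.2 hs.2)]
        exact mul_le_one₀ (pow_le_one₀ hs.1.le hs.2.le) (pow_nonneg (sub_pos.2 hs.2).le _)
          (pow_le_one₀ (sub_pos.2 hs.2).le (by linarith [hs.1]))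
      rw [Real.norm_eq_abs, abs_mul, abs_mul, abs_of_pos (pow_pos hs.1 n), mul_comm (s ^ n)]
      exact mul_le_of_le_one_left (mul_nonneg (abs_nonneg _) (pow_pos hs.1 n).le) a1)
  have e1 : ∫ s in Set.Ioo (0 : ℝ) 1, ∑' n : ℕ, rowf N k s * (s ^ n * mu N l n) =
      ∫ s in Set.Ioo (0 : ℝ) 1, rowf N k s * ∫ w in Set.Ioo (-1 : ℝ) 1, kern s w * psi N l w :=
    setIntegral_congr_fun measurableSet_Ioo fun s hs =>
      ((inner hC hM hN hl hs).mul_left (rowf N k s)).tsum_eq
  have e2 : ∀ n : ℕ, ∫ s in Set.Ioo (0 : ℝ) 1, rowf N k s * (s ^ n * mu N l n) =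
      ∑ i ∈ range (44 * N), ((rowP N k).coeff i : ℝ) * (mu N l n * (1 / ((n : ℝ) + i + 1))) := by
    intro n
    have : ∀ s : ℝ, rowf N k s * (s ^ n * mu N l n) =
        ∑ i ∈ range (44 * N), ((rowP N k).coeff i : ℝ) * mu N l n * s ^ (n + i) := fun s => by
      rw [hrow, sum_mul]
      exact sum_congr rfl fun i _ => by ring
    simp only [this]
    rw [integral_finsetSum (f := fun i s => ((rowP N k).coeff i : ℝ) * mu N l n * s ^ (n + i)) _
      fun i _ => intOn (continuous_const.mul (continuous_pow _))]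
    refine sum_congr rfl fun i _ => ?_
    rw [integral_const_mul, int_pow, Nat.cast_add, mul_assoc]
  rw [e1] at h1
  simp only [e2] at h1
  have h2 := hasSum_sum (s := range (44 * N)) fun i _ =>
    (mu_sum hS N l i).mul_left ((rowP N k).coeff i : ℝ)
  rw [← h2.unique h1, entry]
  push_cast
  refine sum_congr rfl fun i hi => ?_
  congr 1
  have hi' := mem_range.1 hi
  have h3 : ∑ j ∈ range (49 * N + 1), ((colE N l).coeff j : ℝ) * (pii i j : ℝ) +
      ((colO N l).coeff i : ℝ) = 0 := by exact_mod_cast hC.2.2.2.2.2 N l i hN hl hi'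
  have h4 : ∑ j ∈ range (49 * N + 1), (if i = j then ((colO N l).coeff j : ℝ) else 0) =
      ((colO N l).coeff i : ℝ) := by
    rw [sum_ite_eq, if_pos (mem_range.2 (by omega))]
  rw [← h4, ← sum_add_distrib] at h3
  rw [Bi]
  push_cast
  have h5 := congrArg (fun x => Real.pi ^ 2 / 4 * x) h3
  simp only [mul_zero, mul_sum] at h5
  rw [hG]
  refine (add_zero _).symm.trans ((congrArg _ h5.symm).trans ?_)
  rw [← sum_add_distrib]
  refine sum_congr rfl fun j _ => ?_
  split_ifs <;> ring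

end Crest.Agent.R6
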