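import Crest.Agent.R6.Defs

/-! # R6 REC -/

set_option autoImplicit false

open Finset

namespace Crest.Agent.R6

namespace RecAux

theorem Bk_pos (k : ℕ) : 0 < Bk k := by
  unfold Bk
  have : (0 : ℚ) < Nat.centralBinom k := by exact_mod_cast Nat.centralBinom_pos k
  positivity

theorem Bk_zero : Bk 0 = 1 := by simp [Bk]

theorem r1 (k : ℕ) : (2 * (k : ℚ) + 2) * Bk (k + 1) = (2 * (k : ℚ) + 1) * Bk k := by
  have h : ((k : ℚ) + 1) * Nat.centralBinom (k + 1) = 2 * (2 * k + 1) * Nat.centralBinom k := by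
    exact_mod_cast Nat.succ_mul_centralBinom_succ k
  unfold Bk
  rw [pow_succ]
  field_simp
  linear_combination 2 * h

theorem Bk_succ (k : ℕ) : Bk (k + 1) = (2 * (k : ℚ) + 1) / (2 * (k : ℚ) + 2) * Bk k := by
  have := r1 k
  field_simp
  linear_combination this

theorem mt_even (a : ℕ) : mt (2 * a) = 0 := by
  unfold mt; rw [if_neg (by omega)]

theorem mt_odd (a : ℕ) : mt (2 * a + 1) = 2 / ((2 * (a : ℚ) + 1) * Bk a) := by
  unfold mt
  rw [if_pos (by omega), show (2 * a + 1) / 2 = a by omega]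
  push_cast; rfl

theorem mt_zero : mt 0 = 0 := mt_even 0

theorem mt_one : mt 1 = 2 := by
  have := mt_odd 0
  simpa [Bk_zero] using this

theorem mt_odd_succ (a : ℕ) :
    mt (2 * (a + 1) + 1) = (2 * (a : ℚ) + 2) / (2 * (a : ℚ) + 3) * mt (2 * a + 1) := by
  rw [mt_odd, mt_odd, Bk_succ]
  have := (Bk_pos a).ne'
  push_cast
  field_simp
  ring

theorem r2 (k : ℕ) : ((k : ℚ) + 2) * mt (k + 2) = ((k : ℚ) + 1) * mt k := by
  rcases Nat.even_or_odd' k with ⟨a, rfl | rfl⟩
  · rw [show 2 * a + 2 = 2 * (a + 1) by ring, mt_even, mt_even]; simp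
  · rw [show 2 * a + 1 + 2 = 2 * (a + 1) + 1 by ring, mt_odd_succ]
    push_cast
    field_simp
    ring

theorem Mr_zero (j : ℕ) : Mr 0 j = thm j := by
  cases j with
  | zero => simp [Mr, thp, thm]
  | succ j => simp [Mr]

theorem r3 : ∀ i j : ℕ,
    ((j : ℚ) + 1 - i) * Mr i (j + 2) = ((j : ℚ) - i) * Mr i j + mt j + mt (j + 1)
  | 0, j => by
    rw [Mr_zero, Mr_zero, thm]
    push_cast
    field_simp
    ring
  | 1, 0 => by simp [Mr, thp, mt_zero, mt_one]
  | i + 2, 0 => by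
    simp only [Mr, thp, mt_zero, mt_one, zero_add]
    push_cast
    field_simp
    ring
  | i + 1, j + 1 => by
    have h := r3 i j
    have h2 := r2 j
    rw [show j + 1 + 2 = (j + 2) + 1 by ring, Mr, Mr]
    push_cast
    have : (i : ℚ) + 1 ≠ 0 := by positivity
    field_simp
    linear_combination ((i : ℚ) + 1) * h - h2

theorem sum_Icc_succ (g : ℕ → ℚ) (m : ℕ) :
    ∑ a ∈ Icc 1 (m + 1), g a = g 1 + ∑ a ∈ Icc 1 m, g (a + 1) := by
  induction m with
  | zero => simp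
  | succ m ih => rw [sum_Icc_succ_top (by omega), ih, sum_Icc_succ_top (by omega), add_assoc]

theorem r4 : ∀ i j : ℕ,
    Mr i j = Th i j - ∑ a ∈ Icc 1 (min i j), mt (j - a) / ((i + 1 - a : ℕ) : ℚ)
  | i, 0 => by simp [Mr, Th]
  | 0, j + 1 => by simp [Mr, Th]
  | i + 1, j + 1 => by
    rw [Mr, r4 i j, Nat.succ_min_succ, sum_Icc_succ]
    have e : Th (i + 1) (j + 1) = Th i j := by simp [Th]
    rw [e]
    simp only [Nat.add_sub_add_right, Nat.add_sub_cancel]
    push_cast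
    ring

theorem r5 : ∀ i j : ℕ, Zr i j =
    Tz i j - ∑ a ∈ Icc 1 (min i j), 1 / (((i + 1 - a : ℕ) : ℚ) * ((j + 1 - a : ℕ) : ℚ))
  | i, 0 => by simp [Zr, Tz, Nat.dist_zero_right]
  | 0, j + 1 => by simp [Zr, Tz, Nat.dist_zero_left]
  | i + 1, j + 1 => by
    rw [Zr, r5 i j, Nat.succ_min_succ, sum_Icc_succ]
    have e : Tz (i + 1) (j + 1) = Tz i j := by simp [Tz, Nat.dist_succ_succ]
    rw [e]
    simp only [Nat.add_sub_add_right, Nat.add_sub_cancel]
    push_cast
    ring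

theorem r6 (a : ℕ) : thp (2 * a) = Bk a * ∑ l ∈ range a, mt (2 * l + 1) / (2 * (l : ℚ) + 2) := by
  induction a with
  | zero => simp [thp]
  | succ a ih =>
    rw [show 2 * (a + 1) = 2 * a + 2 by ring, thp, ih, sum_range_succ, mt_odd, Bk_succ]
    have := (Bk_pos a).ne'
    push_cast
    field_simp

theorem r7 (a : ℕ) :
    thp (2 * a + 1) = mt (2 * a + 1) * ∑ l ∈ range (a + 1), Bk l / (2 * (l : ℚ) + 1) := by
  induction a with
  | zero => simp [thp, mt_one, Bk_zero]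
  | succ a ih =>
    have h1 : mt (2 * (a + 1) + 1) * (Bk (a + 1) / (2 * ((a + 1 : ℕ) : ℚ) + 1)) =
        2 / (2 * (a : ℚ) + 3) ^ 2 := by
      rw [mt_odd]
      have := (Bk_pos (a + 1)).ne'
      push_cast
      field_simp
      ring
    rw [sum_range_succ, mul_add (mt _), h1, mt_odd_succ, show 2 * (a + 1) + 1 = 2 * a + 1 + 2 by ring, thp,
      ih]
    push_cast
    field_simp
    ring

theorem r8 (a : ℕ) : thm (2 * a + 1) = Bk a / 2 * ∑ l ∈ range a, mt (2 * l + 1) ^ 2 := by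
  induction a with
  | zero => simp [thm]
  | succ a ih =>
    have h1 : Bk (a + 1) / 2 * mt (2 * a + 1) ^ 2 = mt (2 * a + 1) / (2 * (a : ℚ) + 2) := by
      rw [mt_odd, Bk_succ]
      have := (Bk_pos a).ne'
      field_simp
    rw [sum_range_succ, mul_add (Bk _ / 2), h1, show 2 * (a + 1) + 1 = 2 * a + 1 + 2 by ring, thm, ih,
      show 2 * a + 1 + 1 = 2 * (a + 1) by ring, mt_even, Bk_succ]
    push_cast
    field_simp
    ring

theorem r9 (a : ℕ) :
    thm (2 * a + 2) = mt (2 * a + 1) * ∑ l ∈ range (a + 1), 1 / (2 * (l : ℚ) + 1) := by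
  induction a with
  | zero => simp [thm, mt_one, mt_zero]
  | succ a ih =>
    have e : mt (2 * a + 2) = 0 := mt_even (a + 1)
    rw [sum_range_succ, show 2 * (a + 1) + 2 = 2 * a + 2 + 2 by ring, thm, ih, e,
      show 2 * a + 2 + 1 = 2 * (a + 1) + 1 by ring, mt_odd_succ]
    push_cast
    field_simp
    ring

end RecAux

open RecAux in
theorem rec_ : Rec := ⟨r1, r2, r3, r4, r5, r6, r7, r8, r9⟩

end Crest.Agent.R6
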