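import Crest.Agent.R6.Col

set_option autoImplicit false

open Finset Filter Topology

namespace Crest.Agent.R6

namespace SerIdAux

noncomputable section

lemma cv {f g : ℕ → ℝ} {a b : ℝ} (h : HasSum g b) (h1 : ∀ n, f n = g n) (h2 : a = b) : HasSum f a := by
  rw [funext h1, h2]; exact h

lemma tele (g : ℕ → ℝ) (h0 : ∀ n, 0 ≤ g n - g (n + 1)) (h1 : Tendsto g atTop (𝓝 0)) :
    HasSum (fun n => g n - g (n + 1)) (g 0) := by
  rw [hasSum_iff_tendsto_nat_of_nonneg h0]
  simp only [Finset.sum_range_sub']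
  simpa using h1.const_sub (g 0)

lemma mt_rec (hR : Rec) (k : ℕ) : ((k : ℝ) + 2) * (mt (k + 2) : ℝ) = ((k : ℝ) + 1) * (mt k : ℝ) := by
  exact_mod_cast hR.2.1 k

lemma mt_lim (hM : Mom) : Tendsto (fun k : ℕ => (mt k : ℝ)) atTop (𝓝 0) := by
  refine squeeze_zero (fun k => (hM.2.2 k).1) (fun k => (hM.2.2 k).2) ?_
  refine Tendsto.div_atTop tendsto_const_nhds (Real.tendsto_sqrt_atTop.comp ?_)
  exact tendsto_atTop_add_const_right _ _ tendsto_natCast_atTop_atTop

lemma tel2 (hR : Rec) (hM : Mom) (j : ℕ) :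
    HasSum (fun n => (mt (n + j) : ℝ) - mt (n + j + 2)) ((mt j : ℝ) + mt (j + 1)) := by
  have e : ∀ n, ((mt (n + j) : ℝ) + mt (n + j + 1)) - (mt (n + 1 + j) + mt (n + 1 + j + 1)) =
      (mt (n + j) : ℝ) - mt (n + j + 2) := by
    intro n
    rw [show n + 1 + j = n + j + 1 by omega]
    ring
  have := tele (fun n => (mt (n + j) : ℝ) + mt (n + j + 1)) (fun n => ?_) ?_
  · simpa only [e, zero_add] using this
  · rw [e]
    have h1 := mt_rec hR (n + j)
    have h2 := (hM.2.2 (n + j)).1
    have h3 : (0 : ℝ) ≤ ((n + j : ℕ) : ℝ) := Nat.cast_nonneg _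
    by_contra hc
    nlinarith
  · have h1 := (mt_lim hM).comp (tendsto_add_atTop_nat j)
    have h2 := (mt_lim hM).comp (tendsto_add_atTop_nat (j + 1))
    simpa [Function.comp_def, add_assoc] using h1.add h2

lemma mt0 : mt 0 = 0 := by simp [mt]
lemma mt1 : mt 1 = 2 := by simp [mt, Bk]

lemma rowA (hR : Rec) (hM : Mom) (hS : SerVal) (i : ℕ) :
    HasSum (fun n : ℕ => (mt n : ℝ) / ((n : ℝ) + i + 1))
      ((thp i : ℝ) + Real.pi ^ 2 / 4 * (pii i 0 : ℝ)) := by
  induction i using Nat.twoStepInduction with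
  | zero => simpa [thp, pii, Bk] using hS.2
  | one =>
    have h := tel2 hR hM 0
    simp only [add_zero, zero_add, mt0, mt1] at h
    refine cv (h) ?_ ?_
    · intro n
      have h1 := mt_rec hR n
      have : (n : ℝ) + 2 ≠ 0 := by positivity
      rw [div_eq_iff (by positivity)]
      push_cast
      linear_combination h1
    · simp [thp, pii]
  | more i h1 _ =>
    have h := tel2 hR hM 0
    simp only [add_zero, zero_add, mt0, mt1] at h
    have h2 := (hasSum_nat_add_iff' 2).mpr h1
    have h3 := (h.add (h2.mul_left ((i : ℝ) + 1))).div_const ((i : ℝ) + 2)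
    refine cv (h3) ?_ ?_
    · intro n
      have h4 := mt_rec hR n
      have a1 : (i : ℝ) + 2 ≠ 0 := by positivity
      have a2 : (n : ℝ) + i + 3 ≠ 0 := by positivity
      push_cast
      rw [show (n : ℝ) + (i + 2) + 1 = n + i + 3 by ring, show (n : ℝ) + 2 + i + 1 = n + i + 3 by ring]
      field_simp
      linear_combination h4
    · have h5 : ((i : ℝ) + 2) * (pii (i + 2) 0 : ℝ) = ((i : ℝ) + 1) * (pii i 0 : ℝ) := by
        exact_mod_cast ColAux.s_rec i
      have a1 : (i : ℝ) + 2 ≠ 0 := by positivity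
      have h6 : (pii (i + 2) 0 : ℝ) = ((i : ℝ) + 1) * (pii i 0 : ℝ) / ((i : ℝ) + 2) := by
        rw [← h5]; field_simp
      rw [h6, thp]
      simp only [Finset.sum_range_succ, Finset.sum_range_zero, mt0, mt1]
      push_cast
      rw [show (1 : ℝ) + i + 1 = i + 2 by ring]
      field_simp
      ring

lemma gam_rec (j : ℕ) : ((j : ℚ) + 1) * gam 0 (j + 2) = j * gam 0 j := by
  unfold gam
  obtain ⟨k, rfl | rfl⟩ := Nat.even_or_odd' j
  · rw [if_neg (by omega), if_neg (by omega)]; simp
  · rw [if_pos (by omega), if_pos (by omega), show (2 * k + 1 + 2 - 1 - 0) / 2 = k + 1 by omega,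
      show (2 * k + 1 - 1 - 0) / 2 = k by omega]
    push_cast
    linear_combination ColAux.Bk_rec k

lemma colA (hR : Rec) (hM : Mom) (hS : SerVal) (j : ℕ) :
    HasSum (fun n : ℕ => (mt (n + j) : ℝ) / ((n : ℝ) + 1))
      ((thm j : ℝ) + 4 * catalan * (gam 0 j : ℝ) + Real.pi ^ 2 / 4 * (pii 0 j : ℝ)) := by
  induction j using Nat.twoStepInduction with
  | zero => simpa [thm, pii, gam, Bk] using hS.2
  | one => simpa [thm, pii, gam, Bk] using hS.1
  | more j h1 _ =>
    have h3 := ((tel2 hR hM j).add (h1.mul_left (j : ℝ))).div_const ((j : ℝ) + 1)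
    refine cv (h3) ?_ ?_
    · intro n
      have h4 := mt_rec hR (n + j)
      have a1 : (j : ℝ) + 1 ≠ 0 := by positivity
      have a2 : (n : ℝ) + 1 ≠ 0 := by positivity
      push_cast at h4
      rw [← add_assoc]
      field_simp
      linear_combination h4
    · have h5 : ((j : ℝ) + 1) * (gam 0 (j + 2) : ℝ) = j * (gam 0 j : ℝ) := by
        exact_mod_cast gam_rec j
      have a1 : (j : ℝ) + 1 ≠ 0 := by positivity
      have h6 : (gam 0 (j + 2) : ℝ) = j * (gam 0 j : ℝ) / ((j : ℝ) + 1) := by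
        rw [← h5]; field_simp
      have h7 : (j : ℝ) * (pii 0 j : ℝ) = 0 := by
        rcases j with _ | j
        · simp
        · simp [pii]
      have h8 : pii 0 (j + 2) = 0 := by simp [pii]
      rw [h6, h8, thm]
      push_cast
      field_simp
      linear_combination (-Real.pi ^ 2) * h7

lemma partA (hR : Rec) (hM : Mom) (hS : SerVal) (i : ℕ) : ∀ j : ℕ,
    HasSum (fun n : ℕ => (mt (n + j) : ℝ) / ((n : ℝ) + i + 1))
      ((Mr i j : ℝ) + 4 * catalan * (gam i j : ℝ) + Real.pi ^ 2 / 4 * (pii i j : ℝ)) := by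
  induction i with
  | zero =>
    intro j
    have : Mr 0 j = thm j := by rcases j with _ | j <;> simp [Mr, thp, thm]
    simpa [this] using colA hR hM hS j
  | succ i ih =>
    intro j
    rcases j with _ | j
    · simpa [Mr, gam] using rowA hR hM hS (i + 1)
    · have h2 := (hasSum_nat_add_iff' 1).mpr (ih j)
      have e1 : gam (i + 1) (j + 1) = gam i j := by
        unfold gam
        rw [show j + 1 - 1 - (i + 1) = j - 1 - i by omega]
        simp
      have e2 : pii (i + 1) (j + 1) = pii i j := by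
        unfold pii
        rw [show i + 1 - (j + 1) = i - j by omega]
        simp
      refine cv (h2) ?_ ?_
      · intro n
        rw [show n + 1 + j = n + (j + 1) by omega]
        push_cast
        ring
      · rw [e1, e2, Mr]
        simp
        ring

lemma harm (i : ℕ) : HasSum (fun n : ℕ => 1 / ((n : ℝ) + 1) - 1 / ((n : ℝ) + i + 1)) (harmonic i : ℝ) := by
  induction i with
  | zero => simpa using (hasSum_zero (α := ℝ) (β := ℕ))
  | succ i ih =>
    have h := tele (fun n : ℕ => 1 / ((n : ℝ) + i + 1)) (fun n => ?_) ?_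
    · refine cv (ih.add h) ?_ ?_
      · intro n; push_cast; ring
      · rw [harmonic_succ]; push_cast; ring
    · rw [sub_nonneg]
      exact one_div_le_one_div_of_le (by positivity) (by push_cast; linarith)
    · refine Tendsto.div_atTop tendsto_const_nhds ?_
      exact tendsto_atTop_add_const_right _ _ (tendsto_atTop_add_const_right _ _ tendsto_natCast_atTop_atTop)

lemma harm' (i : ℕ) : HasSum (fun n : ℕ => 1 / (((n : ℝ) + (i + 1) + 1) * ((n : ℝ) + 1)))
    ((harmonic (i + 1) : ℝ) / ((i : ℝ) + 1)) := by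
  refine cv ((harm (i + 1)).div_const ((i : ℝ) + 1)) (fun n => ?_) rfl
  push_cast
  field_simp
  ring

lemma partZ (i : ℕ) : ∀ j : ℕ, HasSum (fun n : ℕ => 1 / (((n : ℝ) + i + 1) * ((n : ℝ) + j + 1)))
      ((Zr i j : ℝ) + if i = j then Real.pi ^ 2 / 6 else 0) := by
  induction i with
  | zero =>
    intro j
    rcases j with _ | j
    · have h2 := (hasSum_nat_add_iff' 1).mpr hasSum_zeta_two
      refine cv (h2) ?_ ?_
      · intro n; push_cast; ring
      · simp [Zr]
    · refine cv (harm' j) ?_ ?_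
      · intro n; push_cast; ring
      · simp [Zr]
  | succ i ih =>
    intro j
    rcases j with _ | j
    · refine cv (harm' i) ?_ ?_
      · intro n; push_cast; ring
      · simp [Zr]
    · have h2 := (hasSum_nat_add_iff' 1).mpr (ih j)
      refine cv (h2) ?_ ?_
      · intro n; push_cast; ring
      · rw [Zr]
        simp
        ring

end

end SerIdAux

theorem serId (hR : Rec) (hM : Mom) (hS : SerVal) : SerId :=
  fun i j => ⟨SerIdAux.partA hR hM hS i j, SerIdAux.partZ i j⟩

end Crest.Agent.R6
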