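import Crest.Agent.R6.Defs

/-! # R6 TWOA: the 2-adic splitting of the table -/

set_option autoImplicit false

open Finset

namespace Crest.Agent.R6

namespace TwoAAux

local notation "K" => ℚ_[2]

theorem norm_inv_nat {m : ℕ} (hm : m ≠ 0) : ‖(m : K)⁻¹‖ = ((2 ^ padicValNat 2 m : ℕ) : ℝ) := by
  rw [norm_inv, Padic.norm_eq_zpow_neg_valuation (by exact_mod_cast hm), Padic.valuation_natCast]
  simp

theorem norm_inv_le (m : ℕ) : ‖(m : K)⁻¹‖ ≤ m := by
  rcases eq_or_ne m 0 with rfl | hm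
  · simp
  · rw [norm_inv_nat hm]
    exact_mod_cast Nat.le_of_dvd (Nat.pos_of_ne_zero hm) pow_padicValNat_dvd

theorem norm_two : ‖(2 : K)‖ = 2⁻¹ := by simpa using Padic.norm_p (p := 2)

theorem norm_mt (k : ℕ) : ‖(mt k : K)‖ ≤ k / 2 ^ k := by
  unfold mt
  split_ifs with h
  swap
  · simp only [Rat.cast_zero, norm_zero]; positivity
  obtain ⟨l, rfl⟩ : ∃ l, k = 2 * l + 1 := ⟨k / 2, by omega⟩
  rw [show (2 * l + 1) / 2 = l by omega]
  have h1 : ‖((2 * l + 1 : ℕ) : K)‖ = 1 :=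
    Padic.norm_natCast_eq_one_iff.2 (by simp)
  have h2 : ‖(l.centralBinom : K)⁻¹‖ ≤ (2 * l + 1 : ℕ) := by
    rcases Nat.eq_zero_or_pos l with rfl | hl
    · simp
    · rw [norm_inv_nat l.centralBinom_ne_zero, ← Nat.factorization_def _ Nat.prime_two]
      exact_mod_cast (Nat.pow_factorization_choose_le (by omega)).trans (Nat.le_succ _)
  have e : ((2 / (((2 * l + 1 : ℕ) : ℚ) * Bk l) : ℚ) : K) =
      (l.centralBinom : K)⁻¹ * 2 ^ (2 * l + 1) / ((2 * l + 1 : ℕ) : K) := by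
    unfold Bk
    rw [pow_succ, pow_mul]
    simp only [Rat.cast_div, Rat.cast_mul, Rat.cast_natCast, Rat.cast_pow, Rat.cast_ofNat]
    field_simp
    norm_num
  rw [e, norm_div, h1, div_one, norm_mul, norm_pow, norm_two, inv_pow, ← div_eq_mul_inv]
  gcongr

theorem norm_Bk (a : ℕ) : ‖(Bk a : K)‖ ≤ 4 ^ a := by
  have e : (Bk a : K) = (a.centralBinom : ℤ) * ((2 : K) ^ 2)⁻¹ ^ a := by
    unfold Bk
    push_cast
    rw [inv_pow, div_eq_mul_inv]
    norm_num
  rw [e, norm_mul, norm_pow, norm_inv, norm_pow, norm_two]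
  refine (mul_le_of_le_one_left (by positivity) (Padic.norm_int_le_one _)).trans (le_of_eq ?_)
  norm_num

theorem term_le {D j : ℕ} (n : ℕ) (hj : j ≤ D) {x : K} (hx : ‖x‖ ≤ n + D + 1) :
    ‖(mt (n + j) : K) * x‖ ≤ 16 * (D + 1) ^ 2 / 2 ^ j * (25 / 32) ^ n := by
  have h1 : (1 : ℝ) + n * (1 / 4) ≤ (1 + 1 / 4) ^ n := one_add_mul_le_pow (by norm_num) n
  have hj' : (j : ℝ) ≤ D := by exact_mod_cast hj
  have h0 : (0 : ℝ) ≤ n * D := by positivity
  have h2 : (n : ℝ) + D + 1 ≤ 4 * (D + 1) * (1 + 1 / 4) ^ n := by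
    have : (0 : ℝ) ≤ D := by positivity
    nlinarith
  rw [norm_mul]
  calc _ ≤ ((n + j : ℕ) : ℝ) / 2 ^ (n + j) * (n + D + 1) :=
        mul_le_mul (norm_mt _) hx (norm_nonneg _) (by positivity)
    _ ≤ (4 * (D + 1) * (1 + 1 / 4) ^ n) / 2 ^ (n + j) * (4 * (D + 1) * (1 + 1 / 4) ^ n) := by
        gcongr
        push_cast
        linarith
    _ = _ := by
        rw [show (25 / 32 : ℝ) = (1 + 1 / 4) * (1 + 1 / 4) / 2 by norm_num, div_pow, mul_pow,
          pow_add]
        field_simp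
        norm_num

theorem termT_le {D i j : ℕ} (n : ℕ) (hi : i ≤ D) (hj : j ≤ D) :
    ‖(mt (n + j) : K) / (n + i + 1)‖ ≤ 16 * (D + 1) ^ 2 / 2 ^ j * (25 / 32) ^ n := by
  rw [div_eq_mul_inv]
  refine term_le n hj ?_
  have := norm_inv_le (n + i + 1)
  have hi' : (i : ℝ) ≤ D := by exact_mod_cast hi
  push_cast at this
  linarith

theorem sumT (i j : ℕ) : Summable fun n : ℕ => (mt (n + j) : K) / (n + i + 1) :=
  Summable.of_norm_bounded ((summable_geometric_of_lt_one (by norm_num) (by norm_num)).mul_left _)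
    fun n => termT_le n (le_max_left i j) (le_max_right i j)

theorem sumU (j : ℕ) : Summable fun n : ℕ => (mt (n + j) : K) :=
  Summable.of_norm_bounded ((summable_geometric_of_lt_one (r := 25 / 32) (by norm_num)
    (by norm_num)).mul_left (16 * ((j : ℝ) + 1) ^ 2 / 2 ^ j)) fun n => by
      have : (0 : ℝ) ≤ n + j := by positivity
      simpa using term_le n (le_refl j) (x := 1) (by rw [norm_one]; linarith)

/-- the 2-adic sum -/
noncomputable def TT (i j : ℕ) : K := ∑' n : ℕ, (mt (n + j) : K) / (n + i + 1)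

theorem norm_TT' {D i j : ℕ} (hi : i ≤ D) (hj : j ≤ D) : ‖TT i j‖ ≤ 16 * (D + 1) ^ 2 / 2 ^ j :=
  IsUltrametricDist.norm_tsum_le_of_forall_le fun n => (termT_le n hi hj).trans
    (mul_le_of_le_one_right (by positivity) (pow_le_one₀ (by norm_num) (by norm_num)))

theorem norm_sub_le_max (x y : K) : ‖x - y‖ ≤ max ‖x‖ ‖y‖ := by
  simpa [sub_eq_add_neg] using IsUltrametricDist.norm_add_le_max x (-y)

theorem norm_TT {D i j : ℕ} (hi : i ≤ D) (hj : j ≤ D) : ‖TT i j‖ ≤ ((D : ℝ) + 2) ^ 6 / 2 ^ j := by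
  refine (norm_TT' hi hj).trans ?_
  have h : (2 : ℝ) ^ 4 ≤ (D + 2) ^ 4 := pow_le_pow_left₀ (by norm_num) (by simp) _
  rw [show ((D : ℝ) + 2) ^ 6 = (D + 2) ^ 4 * (D + 2) ^ 2 by ring]
  gcongr
  · linarith
  · norm_num

theorem TT_shift (i j : ℕ) : TT (i + 1) (j + 1) = TT i j - mt j / (i + 1) := by
  unfold TT
  rw [(sumT i j).tsum_eq_zero_add]
  simp only [zero_add, Nat.cast_zero, add_sub_cancel_left]
  refine tsum_congr fun n => ?_
  rw [show n + 1 + j = n + (j + 1) by ring]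
  push_cast
  ring

theorem TT_rec (h : ∀ k : ℕ, ((k : ℚ) + 2) * mt (k + 2) = ((k : ℚ) + 1) * mt k) (i j : ℕ) :
    ((j : K) + 1 - i) * TT i (j + 2) = ((j : K) - i) * TT i j + mt j + mt (j + 1) := by
  have U : ∀ j, ∑' n : ℕ, (mt (n + j) : K) = mt j + ∑' n : ℕ, (mt (n + (j + 1)) : K) := by
    intro j
    rw [(sumU j).tsum_eq_zero_add, zero_add]
    simp only [add_assoc, add_comm 1 j]
  have h1 := ((sumT i (j + 2)).hasSum.mul_left ((j : K) + 1 - i)).sub
    ((sumT i j).hasSum.mul_left ((j : K) - i))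
  have h2 := (sumU j).hasSum.sub (sumU (j + 2)).hasSum
  have h3 := h1.unique (by
    convert h2 using 2 with n
    have a : ((((n + j : ℕ) : ℚ) + 2) * mt (n + j + 2) : ℚ) = _ := h (n + j)
    have b := congrArg (fun q : ℚ => (q : K)) a
    have c : (n : K) + i + 1 ≠ 0 := by exact_mod_cast Nat.succ_ne_zero (n + i)
    push_cast at b
    rw [← add_assoc]
    field_simp
    linear_combination b)
  rw [U j, U (j + 1)] at h3
  unfold TT
  linear_combination h3

theorem split (hB : ∀ k : ℕ, (2 * (k : ℚ) + 2) * Bk (k + 1) = (2 * (k : ℚ) + 1) * Bk k)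
    (δ : ℕ → ℕ → K) (h1 : ∀ i j, δ (i + 1) (j + 1) = δ i j)
    (h2 : ∀ i j : ℕ, ((j : K) + 1 - i) * δ i (j + 2) = ((j : K) - i) * δ i j) (i j : ℕ) :
    δ i j = δ 0 1 * gam i j + δ 0 0 * pii i j := by
  have hB' : ∀ k : ℕ, (2 * (k : K) + 2) * Bk (k + 1) = (2 * (k : K) + 1) * Bk k := fun k => by
    exact_mod_cast congrArg (fun q : ℚ => (q : K)) (hB k)
  have B0 : Bk 0 = 1 := by simp [Bk]
  have a1 : ∀ a, δ 0 (2 * a + 1) = δ 0 1 * Bk a := by
    intro a
    induction a with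
    | zero => simp [B0]
    | succ a ih =>
      have c : 2 * (a : K) + 2 ≠ 0 := by exact_mod_cast Nat.succ_ne_zero (2 * a + 1)
      have := h2 0 (2 * a + 1)
      refine mul_left_cancel₀ c ?_
      rw [ih] at this
      push_cast at this
      rw [show 2 * (a + 1) + 1 = 2 * a + 1 + 2 by ring]
      linear_combination this - δ 0 1 * hB' a
  have a2 : ∀ a, δ 0 (2 * a + 2) = 0 := by
    intro a
    induction a with
    | zero => simpa using h2 0 0
    | succ a ih =>
      have c : ((2 * a + 2 : ℕ) : K) + 1 ≠ 0 := by exact_mod_cast Nat.succ_ne_zero (2 * a + 2)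
      have := h2 0 (2 * a + 2)
      rw [ih, mul_zero, Nat.cast_zero, sub_zero] at this
      exact (mul_eq_zero.1 this).resolve_left c
  have h3 : ∀ i : ℕ, ((i : K) + 2) * δ (i + 2) 0 = (i + 1) * δ i 0 := by
    intro i
    have := h2 (i + 2) 0
    rw [zero_add, h1 (i + 1) 1, h1 i 0] at this
    push_cast at this
    linear_combination this
  have a3 : ∀ a, δ (2 * a) 0 = δ 0 0 * Bk a := by
    intro a
    induction a with
    | zero => simp [B0]
    | succ a ih =>
      have c : 2 * (a : K) + 2 ≠ 0 := by exact_mod_cast Nat.succ_ne_zero (2 * a + 1)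
      have := h3 (2 * a)
      refine mul_left_cancel₀ c ?_
      rw [ih] at this
      push_cast at this
      rw [show 2 * (a + 1) = 2 * a + 2 by ring]
      linear_combination this - δ 0 0 * hB' a
  have a4 : ∀ a, δ (2 * a + 1) 0 = 0 := by
    intro a
    induction a with
    | zero => simpa using h2 1 0
    | succ a ih =>
      have c : ((2 * a + 1 : ℕ) : K) + 2 ≠ 0 := by exact_mod_cast Nat.succ_ne_zero (2 * a + 2)
      have := h3 (2 * a + 1)
      rw [ih, mul_zero] at this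
      exact (mul_eq_zero.1 this).resolve_left c
  induction i generalizing j with
  | zero =>
    rcases j with _ | j
    · simp [gam, pii, B0]
    · obtain ⟨a, rfl | rfl⟩ := Nat.even_or_odd' j
      · simp [gam, pii, a1]
      · simp [gam, pii, a2]
  | succ i ih =>
    rcases j with _ | j
    · obtain ⟨a, e | e⟩ := Nat.even_or_odd' (i + 1)
      · rw [e]; simp [gam, pii, a3]
      · rw [e]; simp [gam, pii, a4]
    · rw [h1, ih]
      unfold gam pii
      simp only [add_lt_add_iff_right, add_le_add_iff_right, Nat.add_sub_add_right,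
        show j + 1 - 1 - (i + 1) = j - 1 - i by omega]

theorem norm_harm {D : ℕ} (i : ℕ) (hi : i ≤ D) : ‖((harmonic i / (i : ℚ) : ℚ) : K)‖ ≤ D ^ 2 := by
  have hi' : (i : ℝ) ≤ D := by exact_mod_cast hi
  have h : ‖(harmonic i : K)‖ ≤ D := by
    unfold harmonic
    push_cast
    refine IsUltrametricDist.norm_sum_le_of_forall_le_of_nonneg (by positivity) fun k hk => ?_
    have h1 := norm_inv_le (k + 1)
    have h2 : ((k + 1 : ℕ) : ℝ) ≤ i := by exact_mod_cast mem_range.1 hk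
    push_cast at h1 h2
    linarith
  push_cast
  rw [div_eq_mul_inv, norm_mul, sq]
  exact mul_le_mul h ((norm_inv_le i).trans hi') (norm_nonneg _) (by positivity)

theorem norm_Zr {D : ℕ} : ∀ i j : ℕ, i ≤ D → j ≤ D → ‖(Zr i j : K)‖ ≤ D ^ 2
  | i, 0, hi, _ => by rw [Zr]; exact norm_harm i hi
  | 0, j + 1, _, hj => by rw [Zr]; exact_mod_cast norm_harm (j + 1) hj
  | i + 1, j + 1, hi, hj => by
    rw [Zr]
    push_cast
    refine (norm_sub_le_max _ _).trans (max_le
      (norm_Zr i j (by omega) (by omega)) ?_)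
    have h1 := (norm_inv_le (i + 1)).trans (Nat.cast_le.2 hi)
    have h2 := (norm_inv_le (j + 1)).trans (Nat.cast_le.2 hj)
    push_cast at h1 h2
    rw [one_div, mul_inv, norm_mul, sq]
    exact mul_le_mul h1 h2 (norm_nonneg _) (by positivity)

theorem norm_gam {D i j : ℕ} (hj : j ≤ D) : ‖(gam i j : K)‖ ≤ 4 ^ D := by
  unfold gam
  split_ifs
  · exact (norm_Bk _).trans (pow_le_pow_right₀ (by norm_num) (by omega))
  · simp

theorem norm_pii {D i j : ℕ} (hi : i ≤ D) : ‖(pii i j : K)‖ ≤ 4 ^ D := by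
  unfold pii
  split_ifs
  · exact (norm_Bk _).trans (pow_le_pow_right₀ (by norm_num) (by omega))
  · simp

end TwoAAux

open TwoAAux in
theorem twoA (hR : Rec) : TwoA := by
  refine ⟨6, fun D => ?_⟩
  set δ : ℕ → ℕ → ℚ_[2] := fun i j => Mr i j - TT i j with hδ
  have hs := split hR.1 δ (fun i j => by
    simp only [hδ]
    rw [TT_shift, Mr]
    push_cast
    ring) (fun i j => by
    have a := congrArg (fun q : ℚ => (q : ℚ_[2])) (hR.2.2.1 i j)
    have b := TT_rec hR.2.1 i j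
    push_cast at a
    simp only [hδ]
    linear_combination a - b)
  have hε : (0 : ℝ) < 1 / 8 ^ D := by positivity
  obtain ⟨c₁, h₁⟩ := Padic.rat_dense 2 (δ 0 1) hε
  obtain ⟨c₂, h₂⟩ := Padic.rat_dense 2 (δ 0 0) hε
  have P1 : (1 : ℝ) ≤ (D + 2) ^ 6 := one_le_pow₀ (by linarith [Nat.cast_nonneg (α := ℝ) D])
  have e1 : (1 : ℝ) / 8 ^ D ≤ 1 := div_le_one_of_le₀ (one_le_pow₀ (by norm_num)) (by positivity)
  have cast : ∀ q r : ℚ, ‖(q : ℚ_[2])‖ ≤ r → padicNorm 2 q ≤ r := fun q r h => by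
    rw [Padic.eq_padicNorm] at h
    exact_mod_cast h
  have near : ∀ (x : ℚ_[2]) (c : ℚ), ‖x - c‖ < 1 / 8 ^ D → ‖x‖ ≤ (D + 2) ^ 6 →
      padicNorm 2 c ≤ ((D : ℚ) + 2) ^ 6 := by
    intro x c a b
    refine cast _ _ ?_
    push_cast
    rw [show (c : ℚ_[2]) = x - (x - c) by ring]
    exact (norm_sub_le_max _ _).trans (max_le b (by linarith))
  have T00 : ‖TT 0 0‖ ≤ (D + 2) ^ 6 := by simpa using norm_TT (D := D) D.zero_le D.zero_le
  refine ⟨c₁, c₂, near _ _ h₁ ?_, near _ _ h₂ ?_, fun i j hi hj => ⟨cast _ _ ?_, cast _ _ ?_⟩⟩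
  · have a := norm_TT' (D := 1) (i := 0) (j := 1) zero_le_one le_rfl
    have b : (2 : ℝ) ^ 6 ≤ (D + 2) ^ 6 := pow_le_pow_left₀ (by norm_num) (by simp) _
    simp only [hδ, Mr, thm, Rat.cast_zero, zero_sub, norm_neg]
    norm_num at a b
    linarith
  · simpa [hδ, Mr, thp] using T00
  · push_cast
    refine (norm_Zr i j hi hj).trans ?_
    have : (0 : ℝ) ≤ D := by positivity
    exact (pow_le_pow_left₀ this (by linarith) 2).trans
      (pow_le_pow_right₀ (by linarith) (by norm_num))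
  · have e : ((Mr i j - c₁ * gam i j - c₂ * pii i j : ℚ) : ℚ_[2]) =
        TT i j + ((δ 0 1 - c₁) * gam i j + (δ 0 0 - c₂) * pii i j) := by
      have := hs i j
      push_cast
      linear_combination this
    have small : ∀ x y : ℚ_[2], ‖x‖ < 1 / 8 ^ D → ‖y‖ ≤ 4 ^ D → ‖x * y‖ ≤ (D + 2) ^ 6 / 2 ^ j := by
      intro x y a b
      rw [norm_mul]
      calc _ ≤ 1 / 8 ^ D * 4 ^ D := mul_le_mul a.le b (norm_nonneg _) hε.le
        _ = 1 / 2 ^ D := by
          rw [show (8 : ℝ) = 4 * 2 by norm_num, mul_pow]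
          field_simp
        _ ≤ _ := by gcongr; norm_num
    rw [e]
    push_cast
    exact (IsUltrametricDist.norm_add_le_max _ _).trans (max_le (norm_TT hi hj)
      ((IsUltrametricDist.norm_add_le_max _ _).trans
        (max_le (small _ _ h₁ (norm_gam hj)) (small _ _ h₂ (norm_pii hi)))))

end Crest.Agent.R6
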