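import Crest.Agent.R6.Defs

/-! # R6 TWOB: the 2-adic bound for the determinant -/

set_option autoImplicit false

open Finset Polynomial

namespace Crest.Agent.R6

namespace TwoBAux

local notation "ν" => padicNorm 2

theorem conv {p q : ℤ[X]} {m n M : ℕ} (hp : ∀ j, m ≤ j → p.coeff j = 0)
    (hq : ∀ j, n ≤ j → q.coeff j = 0) (hM : m + n ≤ M + 1) (F : ℕ → ℚ) :
    ∑ j ∈ range M, ((p * q).coeff j : ℚ) * F j =
      ∑ b ∈ range n, (q.coeff b : ℚ) * ∑ a ∈ range m, (p.coeff a : ℚ) * F (b + a) := by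
  have ex : ∀ {p : ℤ[X]} {m : ℕ}, (∀ j, m ≤ j → p.coeff j = 0) →
      p = ∑ a ∈ range m, monomial a (p.coeff a) := by
    intro p m h
    ext j
    simp only [finsetSum_coeff, coeff_monomial, sum_ite_eq', mem_range]
    split_ifs with h'
    · rfl
    · exact h j (by omega)
  have e : ∀ j, ((p * q).coeff j : ℚ) * F j = ∑ b ∈ range n, ∑ a ∈ range m,
      if b + a = j then (q.coeff b : ℚ) * (p.coeff a * F (b + a)) else 0 := by
    intro j
    conv_lhs => rw [mul_comm p, ex hp, ex hq, sum_mul_sum]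
    simp only [finsetSum_coeff, monomial_mul_monomial, coeff_monomial]
    push_cast
    simp only [sum_mul]
    refine sum_congr rfl fun b _ => sum_congr rfl fun a _ => ?_
    split_ifs with h
    · rw [h]; ring
    · simp
  simp only [e, mul_sum]
  rw [sum_comm]
  refine sum_congr rfl fun b hb => ?_
  rw [sum_comm]
  refine sum_congr rfl fun a ha => ?_
  rw [sum_ite_eq, if_pos]
  simp only [mem_range] at *
  omega

theorem nu_two : ν 2 = 2⁻¹ := by simpa using padicNorm.padicNorm_p_of_prime (p := 2)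

theorem nu_mul_le {x y a b : ℚ} (hx : ν x ≤ a) (hy : ν y ≤ b) : ν (x * y) ≤ a * b := by
  rw [padicNorm.mul]
  exact mul_le_mul hx hy (padicNorm.nonneg _) ((padicNorm.nonneg _).trans hx)

theorem nu_int_mul (z : ℤ) {y b : ℚ} (hy : ν y ≤ b) : ν (z * y) ≤ b := by
  simpa using nu_mul_le (padicNorm.of_int z) hy

theorem nu_add_le {x y b : ℚ} (hx : ν x ≤ b) (hy : ν y ≤ b) : ν (x + y) ≤ b :=
  padicNorm.nonarchimedean.trans (max_le hx hy)

theorem nu_sub_le {x y b : ℚ} (hx : ν x ≤ b) (hy : ν y ≤ b) : ν (x - y) ≤ b :=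
  padicNorm.sub.trans (max_le hx hy)

theorem nu_gam (i j : ℕ) : ν (gam i j) ≤ 2 ^ ((j : ℤ) - 1 - i) := by
  unfold gam
  split_ifs with h
  swap
  · rw [padicNorm.zero]; positivity
  obtain ⟨a, ha⟩ : ∃ a, j = i + 1 + 2 * a := ⟨(j - 1 - i) / 2, by omega⟩
  rw [show (j - 1 - i) / 2 = a by omega, show (j : ℤ) - 1 - i = (2 * a : ℕ) by omega, zpow_natCast,
    Bk, padicNorm.div, show (4 : ℚ) ^ a = 2 ^ (2 * a) by rw [pow_mul]; norm_num,
    IsAbsoluteValue.abv_pow ν, nu_two, inv_pow, div_inv_eq_mul]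
  exact mul_le_of_le_one_left (by positivity) (padicNorm.of_nat _)

theorem nu_coeff {p : ℤ[X]} {u M : ℕ} (hu : u ≤ M) (h : ∀ j, (2 : ℤ) ^ (u - 1 - j) ∣ p.coeff j)
    (b : ℕ) : ν ((X ^ (M - u) * p).coeff b : ℤ) ≤ 2 ^ ((b : ℤ) + 1 - M) := by
  rw [coeff_X_pow_mul']
  split_ifs with hb
  · have := padicNorm.dvd_iff_norm_le (p := 2).1 (by exact_mod_cast h (b - (M - u)))
    exact this.trans (zpow_le_zpow_right₀ (by norm_num) (by omega))
  · rw [Int.cast_zero, padicNorm.zero]; positivity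

theorem inj_sum {ι : Type} (s : Finset ι) (f : ι → ℕ) (hf : Set.InjOn f s) :
    (s.card : ℤ) ^ 2 - s.card ≤ 2 * ∑ i ∈ s, (f i : ℤ) := by
  have : ∀ t : Finset ℕ, (t.card : ℤ) ^ 2 - t.card ≤ 2 * ∑ x ∈ t, (x : ℤ) := by
    intro t
    induction t using Finset.induction_on_max with
    | empty => simp
    | insert a t h ih =>
      have ha : a ∉ t := fun h' => lt_irrefl _ (h a h')
      have hc : t.card ≤ a := by
        simpa using card_le_card (fun x hx => mem_range.2 (h x hx) : t ⊆ range a)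
      have hc' : (t.card : ℤ) ≤ a := by exact_mod_cast hc
      rw [card_insert_of_notMem ha, sum_insert ha]
      push_cast
      nlinarith
  have h := this (s.image f)
  rwa [card_image_of_injOn hf, sum_image hf] at h

/-- the valuation attached to row `k` and index `x` -/
def val (N k : ℕ) (x : Fin 3 × Fin (47 * N + 1)) : ℤ :=
  if x.1 = 0 then 2 * ((47 * N - x.2 : ℕ) : ℤ) + k - 43 * N
  else if x.1 = 1 then ((47 * N - x.2 : ℕ) : ℤ) - 1 else 47 * N

theorem val_sum (N : ℕ) (κ : Fin (36 * N) → Fin 3 × Fin (47 * N + 1))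
    (hκ : Function.Injective κ) :
    -∑ k : Fin (36 * N), val N k (κ k) ≤ ((1057 * N ^ 2 + 480 * N) / 8 : ℕ) := by
  have inj : ∀ (e : Fin 3) (s : Finset (Fin (36 * N))), (∀ k ∈ s, (κ k).1 = e) →
      Set.InjOn (fun k => 47 * N - (κ k).2) s := by
    intro e s hs k hk k' hk' h
    refine hκ (Prod.ext ((hs k hk).trans (hs k' hk').symm) (Fin.ext ?_))
    have := (κ k).2.2
    have := (κ k').2.2
    simp only at h
    omega
  set A := univ.filter fun k => (κ k).1 = 0 with hA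
  set B := univ.filter fun k => ¬ (κ k).1 = 0 with hB
  set Z := B.filter fun k => (κ k).1 = 1 with hZ
  set R := B.filter fun k => ¬ (κ k).1 = 1 with hR
  have c1 : A.card + B.card = 36 * N := by
    rw [hA, hB, card_filter_add_card_filter_not, card_univ, Fintype.card_fin]
  have c2 : Z.card + R.card = B.card := card_filter_add_card_filter_not _
  have h1 := inj_sum A _ (inj 0 A fun k hk => (mem_filter.1 hk).2)
  have h2 := inj_sum A Fin.val Fin.val_injective.injOn
  have h3 := inj_sum Z _ (inj 1 Z fun k hk => (mem_filter.1 hk).2)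
  unfold val
  rw [sum_ite, sum_ite, ← hA, ← hB, ← hZ, ← hR, sum_sub_distrib, sum_add_distrib, ← mul_sum,
    sum_sub_distrib]
  simp only [sum_const, nsmul_eq_mul, mul_one]
  have c3 : (A.card : ℤ) + Z.card + R.card = 36 * N := by omega
  generalize (∑ k ∈ A, ((47 * N - (κ k).2 : ℕ) : ℤ)) = S1 at *
  generalize (∑ k ∈ A, ((k : ℕ) : ℤ)) = S2 at *
  generalize (∑ k ∈ Z, ((47 * N - (κ k).2 : ℕ) : ℤ)) = S3 at *
  have r0 : (0 : ℤ) ≤ R.card := by positivity
  have n0 : (0 : ℤ) ≤ N := by positivity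
  generalize (A.card : ℤ) = a at *
  generalize (Z.card : ℤ) = z at *
  generalize (R.card : ℤ) = r at *
  have key : 8 * -(2 * S1 + S2 - a * (43 * N) + (S3 - z + r * (47 * N))) ≤
      ((1057 * N ^ 2 + 480 * N : ℕ) : ℤ) := by
    push_cast
    have e : (N : ℤ) * (a + z + r) = N * (36 * N) := by rw [c3]
    nlinarith [sq_nonneg (4 * a - 79 * N), sq_nonneg (4 * z - 65 * N), mul_nonneg n0 r0]
  omega

theorem main (hC : Col) (hD : Det) {N : ℕ} (hN : 1 ≤ N) (G c₁ c₂ Q P : ℚ) (hQ : 1 ≤ Q)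
    (hP : 2 * Q ≤ P) (hG : ν G ≤ P) (h₁ : ν c₁ ≤ Q) (h₂ : ν c₂ ≤ Q)
    (h : ∀ i j, i ≤ 49 * N → j ≤ 49 * N → ν (Zr i j) ≤ Q ∧
      ν (Mr i j - c₁ * gam i j - c₂ * pii i j) ≤ Q / 2 ^ j) :
    ν (Dl N G) ≤ P ^ (36 * N) * 2 ^ ((1057 * N ^ 2 + 480 * N) / 8) := by
  obtain ⟨-, C2, C3, C4, -, C6⟩ := hC
  have P0 : 0 ≤ P := by linarith
  set ω : ℤ[X] := (1 - X) ^ (2 * N) with hω
  have ω0 : ∀ j, 2 * N + 1 ≤ j → ω.coeff j = 0 := fun j hj => by
    refine coeff_eq_zero_of_natDegree_lt (natDegree_pow_le.trans_lt ?_)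
    have : (1 - X : ℤ[X]).natDegree ≤ 1 := by compute_degree
    nlinarith
  set W : ℕ → (ℕ → ℕ → ℚ) → ℕ → ℚ := fun k F b => ∑ i ∈ range (44 * N), ((rowP N k).coeff i : ℚ) *
    ∑ a ∈ range (2 * N + 1), (ω.coeff a : ℚ) * F i (b + a) with hW
  have nW : ∀ (k : Fin (36 * N)) F b t, 0 ≤ t →
      (∀ i a, 6 * N + k ≤ i → i < 44 * N → a ≤ 2 * N → ν (F i (b + a)) ≤ t) → ν (W k F b) ≤ t := by
    intro k F b t ht hF
    refine padicNorm.sum_le' (fun i hi => ?_) ht
    by_cases hik : i < 6 * N + k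
    · simp [C4 N k i k.2 (Or.inl hik), ht]
    · exact nu_int_mul _ (padicNorm.sum_le' (fun a ha => nu_int_mul _
        (hF i a (by omega) (mem_range.1 hi) (Nat.lt_succ_iff.1 (mem_range.1 ha)))) ht)
  set F₁ : ℕ → ℕ → ℚ := fun i j => (4 * G + c₁) * gam i j with hF₁
  set F₂ : ℕ → ℕ → ℚ := fun i j => 3 / 2 * Zr i j - c₂ * if i = j then 1 else 0 with hF₂
  set F₃ : ℕ → ℕ → ℚ := fun i j => Mr i j - c₁ * gam i j - c₂ * pii i j with hF₃
  set ρ : ℕ → ℕ → ℚ := fun k l => ∑ b ∈ range (47 * N + 1), ((cE N l).coeff b : ℚ) * W k F₃ b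
    with hρ
  have ent : ∀ k l : ℕ, l < 36 * N → entry N G k l =
      ∑ b ∈ range (47 * N + 1), W k F₁ b * ((cE N l).coeff b : ℚ) +
        ∑ b ∈ range (47 * N + 1), W k F₂ b * ((cO N l).coeff b : ℚ) + ρ k l := by
    intro k l hl
    have hE : ∀ j, 47 * N + 1 ≤ j → (cE N l).coeff j = 0 := fun j hj =>
      (C3 N l j hN hl).1 (Or.inr (by omega))
    have hO : ∀ j, 47 * N + 1 ≤ j → (cO N l).coeff j = 0 := fun j hj =>
      (C3 N l j hN hl).2.1 (Or.inr (by omega))
    have bi : ∀ i ∈ range (44 * N), Bi N G i l =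
        ∑ b ∈ range (47 * N + 1), ((cE N l).coeff b : ℚ) *
          ∑ a ∈ range (2 * N + 1), (ω.coeff a : ℚ) * F₁ i (b + a) +
        ∑ b ∈ range (47 * N + 1), ((cO N l).coeff b : ℚ) *
          ∑ a ∈ range (2 * N + 1), (ω.coeff a : ℚ) * F₂ i (b + a) +
        ∑ b ∈ range (47 * N + 1), ((cE N l).coeff b : ℚ) *
          ∑ a ∈ range (2 * N + 1), (ω.coeff a : ℚ) * F₃ i (b + a) := by
      intro i hi
      have hi' := mem_range.1 hi
      rw [← conv (M := 49 * N + 1) ω0 hE (by omega), ← conv (M := 49 * N + 1) ω0 hO (by omega),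
        ← conv (M := 49 * N + 1) ω0 hE (by omega)]
      have a1 := C6 N l i hN hl hi'
      have a2 : ((colO N l).coeff i : ℚ) =
          ∑ j ∈ range (49 * N + 1), ((colO N l).coeff j : ℚ) * if i = j then 1 else 0 := by
        simp only [mul_ite, mul_one, mul_zero, sum_ite_eq, mem_range]
        rw [if_pos (by omega)]
      rw [a2, ← sum_add_distrib] at a1
      rw [← sum_add_distrib, ← sum_add_distrib, ← sub_eq_zero, ← mul_zero c₂, ← a1, mul_sum, Bi,
        ← sum_sub_distrib]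
      refine sum_congr rfl fun j _ => ?_
      simp only [hF₁, hF₂, hF₃, colE, colO, ← hω]
      ring
    unfold entry
    rw [sum_congr rfl fun i hi => by rw [bi i hi]]
    simp only [hρ, hW, mul_add, sum_add_distrib, mul_sum, sum_mul]
    congr 1
    · congr 1 <;>
      · rw [sum_comm]
        exact sum_congr rfl fun _ _ => sum_congr rfl fun _ _ => sum_congr rfl fun _ _ => by ring
    · rw [sum_comm]
      exact sum_congr rfl fun _ _ => sum_congr rfl fun _ _ => sum_congr rfl fun _ _ => by ring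
  have nE : ∀ l b : ℕ, l < 36 * N → ν ((cE N l).coeff b : ℤ) ≤ 2 ^ ((b : ℤ) + 1 - (47 * N : ℕ)) :=
    fun l b hl => nu_coeff (by unfold Nat.dist; omega) (fun j => (C2 _ j).1) b
  have nO : ∀ l b : ℕ, l < 36 * N → ν ((cO N l).coeff b : ℤ) ≤ 2 ^ ((b : ℤ) + 1 - (47 * N : ℕ)) := by
    intro l b hl
    have := nu_coeff (M := 47 * N) (u := Nat.dist l (3 * N)) (by unfold Nat.dist; omega)
      (fun j => (C2 _ j).2) b
    unfold cO
    split_ifs
    · rwa [neg_one_mul, coeff_neg, Int.cast_neg, padicNorm.neg]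
    · rwa [one_mul]
  let α : Matrix (Fin (36 * N)) (Fin 3 × Fin (47 * N + 1)) ℚ := fun k x =>
    ![W k F₁ x.2, W k F₂ x.2, if (k : ℕ) = x.2 then 1 else 0] x.1
  let β : Matrix (Fin 3 × Fin (47 * N + 1)) (Fin (36 * N)) ℚ := fun x l =>
    ![((cE N l).coeff x.2 : ℚ), ((cO N l).coeff x.2 : ℚ), if (x.2 : ℕ) < 36 * N then ρ x.2 l else 0]
      x.1
  have hM : (Matrix.of fun k l : Fin (36 * N) => entry N G k l) = α * β := by
    ext k l
    rw [Matrix.of_apply, ent k l l.2, Matrix.mul_apply, Fintype.sum_prod_type, Fin.sum_univ_three]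
    simp only [α, β, Matrix.cons_val_zero, Matrix.cons_val_one, Matrix.cons_val]
    rw [Fin.sum_univ_eq_sum_range (fun b => W k F₁ b * ((cE N l).coeff b : ℚ)),
      Fin.sum_univ_eq_sum_range (fun b => W k F₂ b * ((cO N l).coeff b : ℚ)),
      Fin.sum_univ_eq_sum_range (fun b => (if (k : ℕ) = b then 1 else 0) *
        if b < 36 * N then ρ b l else 0)]
    have := k.2
    simp only [ite_mul, one_mul, zero_mul, sum_ite_eq, mem_range]
    rw [if_pos (by omega), if_pos this]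
  unfold Dl
  rw [hM]
  refine hD.1 2 _ _ α β
    (fun k x => ![P * 2 ^ ((x.2 : ℤ) + 2 * N - 1 - (6 * N + k)), P, 1] x.1)
    (fun x => ![2 ^ ((x.2 : ℤ) + 1 - (47 * N : ℕ)), 2 ^ ((x.2 : ℤ) + 1 - (47 * N : ℕ)),
      P * 2 ^ (-(47 * N : ℤ))] x.1) _ (by positivity) ?_ ?_ ?_
  · rintro k ⟨e, b⟩
    fin_cases e
    · refine nW k F₁ b _ (by simp only [Matrix.cons_val_zero, Fin.zero_eta]; positivity)
        fun i a h1 _ h3 => nu_mul_le (nu_add_le ?_ (by linarith)) ((nu_gam _ _).trans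
          (zpow_le_zpow_right₀ (by norm_num) (by push_cast; omega)))
      exact_mod_cast nu_int_mul 4 hG
    · refine nW k F₂ b _ P0 fun i a _ h2 h3 => nu_sub_le ?_ ?_
      · have := b.2
        refine (nu_mul_le (a := 2) ?_ (h i (b + a) (by omega) (by omega)).1).trans hP
        rw [padicNorm.div, nu_two, div_inv_eq_mul]
        exact mul_le_of_le_one_left (by norm_num) (by exact_mod_cast padicNorm.of_nat (p := 2) 3)
      · show _ ≤ P
        split_ifs
        · rw [mul_one]; linarith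
        · simp [P0]
    · show ν (if _ then _ else _) ≤ 1
      split_ifs <;> simp
  · rintro ⟨e, b⟩ l
    fin_cases e
    · exact nE l b l.2
    · exact nO l b l.2
    · show ν (if _ then _ else _) ≤ P * _
      split_ifs with hb
      swap
      · rw [padicNorm.zero]; positivity
      refine padicNorm.sum_le' (fun j hj => ?_) (by positivity)
      have hj' := mem_range.1 hj
      refine (nu_mul_le (nE l j l.2) (nW ⟨b, hb⟩ F₃ j (Q / 2 ^ j) (by positivity)
        fun i a _ h2 h3 => (h i (j + a) (by omega) (by omega)).2.trans ?_)).trans ?_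
      · gcongr
        · norm_num
        · omega
      · refine le_trans (le_of_eq ?_) (mul_le_mul_of_nonneg_right hP (by positivity))
        rw [sub_eq_add_neg, zpow_add₀ (by norm_num), zpow_add₀ (by norm_num), zpow_natCast]
        push_cast
        field_simp
  · intro κ hκ
    have one : ∀ (k : Fin (36 * N)) (x : Fin 3 × Fin (47 * N + 1)),
        ![P * 2 ^ ((x.2 : ℤ) + 2 * N - 1 - (6 * N + k)), P, 1] x.1 *
          ![2 ^ ((x.2 : ℤ) + 1 - (47 * N : ℕ)), 2 ^ ((x.2 : ℤ) + 1 - (47 * N : ℕ)),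
            P * 2 ^ (-(47 * N : ℤ))] x.1 = P * (2 : ℚ) ^ (-val N k x) := by
      rintro k ⟨e, b⟩
      have := b.2
      fin_cases e
      · simp only [Fin.zero_eta, Matrix.cons_val_zero, val, if_true]
        rw [mul_assoc, ← zpow_add₀ (by norm_num)]
        congr 2
        omega
      · simp only [Fin.mk_one, Matrix.cons_val_one, Matrix.cons_val_zero, val, one_ne_zero,
          if_true, if_false]
        congr 2
        omega
      · simp [val]
    simp only [one]
    rw [prod_mul_distrib, prod_const, card_univ, Fintype.card_fin, ← zpow_natCast (2 : ℚ)]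
    refine mul_le_mul_of_nonneg_left ?_ (by positivity)
    refine le_trans (le_of_eq ?_) (zpow_le_zpow_right₀ (by norm_num) (val_sum N κ hκ))
    rw [← sum_neg_distrib]
    generalize (univ : Finset (Fin (36 * N))) = s
    induction s using Finset.induction_on with
    | empty => simp
    | insert a s ha ih => rw [prod_insert ha, sum_insert ha, ih, zpow_add₀ (by norm_num)]

end TwoBAux

open TwoBAux in
theorem twoAdic (hC : Col) (hD : Det) (hA : TwoA) : TwoAdic := by
  obtain ⟨C, hA⟩ := hA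
  intro G
  obtain ⟨m, hm⟩ := pow_unbounded_of_one_lt (padicNorm 2 G) (by norm_num : (1 : ℚ) < 2)
  refine ⟨36 * (7 * C + (m + 1) : ℕ) + 60, fun N hN => ?_⟩
  obtain ⟨c₁, c₂, h₁, h₂, h⟩ := hA (49 * N)
  have hN' : (2 : ℚ) ≤ N + 1 := by exact_mod_cast Nat.succ_le_succ hN
  have q1 : (1 : ℚ) ≤ (((49 * N : ℕ) : ℚ) + 2) ^ C :=
    one_le_pow₀ (by linarith [Nat.cast_nonneg (α := ℚ) (49 * N)])
  have q2 : (((49 * N : ℕ) : ℚ) + 2) ^ C ≤ (N + 1) ^ (7 * C) := by
    rw [pow_mul]
    refine pow_le_pow_left₀ (by positivity) ?_ _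
    have : (2 : ℚ) ^ 6 ≤ (N + 1) ^ 6 := pow_le_pow_left₀ (by norm_num) hN' _
    push_cast
    rw [pow_succ]
    nlinarith
  have q3 : (2 : ℚ) ^ (m + 1) ≤ (N + 1) ^ (m + 1) := pow_le_pow_left₀ (by norm_num) hN' _
  have q4 : (1 : ℚ) ≤ 2 ^ m := one_le_pow₀ (by norm_num)
  rw [pow_succ 2] at q3
  have := main hC hD hN G c₁ c₂ _ ((N + 1) ^ (7 * C + (m + 1))) q1
    (by rw [pow_add]; nlinarith) (by rw [pow_add]; nlinarith) h₁ h₂ h
  refine (Rat.cast_le.2 this).trans ?_
  have l1 : Real.log 2 ≤ Real.log (N + 1) := Real.log_le_log two_pos (by exact_mod_cast hN')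
  have l2 : 0 < Real.log 2 := Real.log_pos one_lt_two
  have l3 : (((1057 * N ^ 2 + 480 * N) / 8 : ℕ) : ℝ) ≤ (1057 * N ^ 2 + 480 * N) / 8 := by
    exact_mod_cast Nat.cast_div_le (α := ℝ) (m := 1057 * N ^ 2 + 480 * N) (n := 8)
  rw [← Real.log_le_iff_le_exp (by positivity)]
  push_cast
  rw [Real.log_mul (by positivity) (by positivity), Real.log_pow, Real.log_pow, Real.log_pow]
  have l4 := mul_le_mul_of_nonneg_right l3 l2.le
  have l5 := mul_le_mul_of_nonneg_left l1 (Nat.cast_nonneg (α := ℝ) N)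
  push_cast
  linarith

end Crest.Agent.R6
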