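import Crest.Agent.R6.LevelA
import Crest.Agent.R6.Det

/-! # R6 VAL and CRUDE -/

set_option autoImplicit false

open Finset

namespace Crest.Agent.R6

namespace ValAux

open Lv

variable {p : ℕ} [hp : Fact p.Prime]

theorem divpow {e : ℕ} {x : ℚ} (h : Nm p e x) (v : ℕ) : Nm p (e + v) (x / (p : ℚ) ^ v) := by
  induction v with
  | zero => simpa using h
  | succ v ih => rw [pow_succ, ← div_div]; exact ih.divp

theorem div_log {e c D : ℕ} {x : ℚ} (h : Nm p e x) (h0 : 0 < c) (hc : c ≤ D) :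
    Nm p (e + Nat.log p D) (x / c) := by
  obtain ⟨v, m, hm, rfl⟩ := Nat.exists_eq_pow_mul_and_not_dvd h0.ne' p hp.out.ne_one
  have hm0 : 0 < m := Nat.pos_of_mul_pos_left h0
  have hv : v ≤ Nat.log p D :=
    Nat.le_log_of_pow_le hp.out.one_lt ((Nat.le_mul_of_pos_right _ hm0).trans hc)
  have : x / ((p ^ v * m : ℕ) : ℚ) = x / m / (p : ℚ) ^ v := by
    push_cast; rw [div_div, mul_comm]
  rw [this]
  exact (divpow (h.div_nat hm) v).mono (by omega)

theorem not_dvd_two (h2 : p ≠ 2) : ¬ p ∣ 2 := fun h =>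
  h2 ((Nat.prime_dvd_prime_iff_eq hp.out Nat.prime_two).1 h)

theorem div_four {e : ℕ} {x : ℚ} (h2 : p ≠ 2) (h : Nm p e x) (k : ℕ) : Nm p e (x / 4 ^ k) := by
  have h1 : ¬ p ∣ 2 ^ (2 * k) := fun h => not_dvd_two h2 (hp.out.dvd_of_dvd_pow h)
  have := h.div_nat h1
  rw [pow_mul] at this
  push_cast at this
  exact this

theorem Bk_nm (h2 : p ≠ 2) (k : ℕ) : Nm p 0 (Bk k) := div_four h2 (Nm.nat _) k

/-- `∑_k (-1)^k C(l,k)/(c+2k)` in closed form -/
noncomputable def FF (l c : ℕ) : ℚ :=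
  2 ^ l * (l.factorial : ℚ) / ∏ i ∈ range (l + 1), ((c : ℚ) + 2 * i)

omit hp in
theorem FF_succ (l c : ℕ) (hc : 0 < c) :
    FF (l + 1) c = (2 * (l : ℚ) + 2) / ((c : ℚ) + 2 * l + 2) * FF l c := by
  unfold FF
  have hc' : (0 : ℚ) < c := by exact_mod_cast hc
  have : 0 < ∏ i ∈ range (l + 1), ((c : ℚ) + 2 * i) := prod_pos fun i _ => by positivity
  rw [prod_range_succ _ (l + 1), Nat.factorial_succ]
  push_cast
  field_simp
  ring

omit hp in
theorem FF_shift (l c : ℕ) (hc : 0 < c) :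
    FF l (c + 2) = (c : ℚ) / ((c : ℚ) + 2 * l + 2) * FF l c := by
  have hc' : (0 : ℚ) < c := by exact_mod_cast hc
  induction l with
  | zero => simp [FF]; field_simp
  | succ l ih =>
    rw [FF_succ l (c + 2) (by omega), ih, FF_succ l c hc]
    push_cast
    field_simp
    ring

omit hp in
theorem FF_rec (l c : ℕ) (hc : 0 < c) : FF (l + 1) c = FF l c - FF l (c + 2) := by
  have hc' : (0 : ℚ) < c := by exact_mod_cast hc
  rw [FF_succ l c hc, FF_shift l c hc]
  field_simp
  ring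

theorem FF_nm (D : ℕ) : ∀ l c : ℕ, 0 < c → c + 2 * l ≤ D → Nm p (Nat.log p D) (FF l c)
  | 0, c, h0, h => by
    have := div_log (one_nm (p := p)) h0 (show c ≤ D by omega)
    simpa [FF] using this
  | l + 1, c, h0, h => by
    rw [FF_rec l c h0]
    exact (FF_nm D l c h0 (by omega)).sub (FF_nm D l (c + 2) (by omega) (by omega))

omit hp in
theorem mt_even (a : ℕ) : mt (2 * a) = 0 := by
  unfold mt; rw [if_neg (by omega)]

omit hp in
theorem mt_FF (hR : Rec) (l : ℕ) : mt (2 * l + 1) = 2 * FF l 1 := by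
  induction l with
  | zero => simp [mt, FF, Bk]
  | succ l ih =>
    have h := hR.2.1 (2 * l + 1)
    rw [show 2 * (l + 1) + 1 = 2 * l + 1 + 2 by ring, FF_succ l 1 one_pos]
    rw [ih] at h
    push_cast at h ⊢
    field_simp
    linear_combination h

theorem mt_log (hR : Rec) {k D : ℕ} (hk : k ≤ D) : Nm p (Nat.log p D) (mt k) := by
  rcases Nat.even_or_odd' k with ⟨a, rfl | rfl⟩
  · rw [mt_even]; exact Nm.zero _
  · rw [mt_FF hR]
    exact (Nm.nat 2).mul0 (FF_nm D a 1 one_pos (by omega))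

omit hp in
theorem cast1 (l : ℕ) : 2 * (l : ℚ) + 1 = ((2 * l + 1 : ℕ) : ℚ) := by push_cast; ring

omit hp in
theorem cast2 (l : ℕ) : 2 * (l : ℚ) + 2 = ((2 * l + 2 : ℕ) : ℚ) := by push_cast; ring

theorem thp_log (hR : Rec) (h2 : p ≠ 2) {k D : ℕ} (hk : k ≤ D) :
    Nm p (2 * Nat.log p D) (thp k) := by
  rw [two_mul]
  rcases Nat.even_or_odd' k with ⟨a, rfl | rfl⟩
  · rw [hR.2.2.2.2.2.1]
    refine (Bk_nm h2 a).mul0 (Nm.sum fun l hl => ?_)
    have := mem_range.1 hl
    rw [cast2]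
    exact div_log (mt_log hR (by omega)) (by omega) (by omega)
  · rw [hR.2.2.2.2.2.2.1]
    refine (mt_log hR hk).mul (Nm.sum fun l hl => ?_)
    have := mem_range.1 hl
    rw [cast1]
    simpa using div_log (D := D) (Bk_nm h2 l) (show 0 < 2 * l + 1 by omega) (by omega)

theorem thm_log (hR : Rec) (h2 : p ≠ 2) {k D : ℕ} (hk : k ≤ D + 1) :
    Nm p (2 * Nat.log p D) (thm k) := by
  rw [two_mul]
  rcases Nat.eq_zero_or_pos k with rfl | h0
  · exact Nm.zero _
  obtain ⟨k, rfl⟩ : ∃ k', k = k' + 1 := ⟨k - 1, by omega⟩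
  rcases Nat.even_or_odd' k with ⟨a, rfl | rfl⟩
  · rw [hR.2.2.2.2.2.2.2.1]
    refine ((Bk_nm h2 a).div_nat (not_dvd_two h2)).mul0 (Nm.sum fun l hl => ?_)
    have := mem_range.1 hl
    rw [pow_two]
    exact (mt_log hR (by omega)).mul (mt_log hR (by omega))
  · rw [show 2 * a + 1 + 1 = 2 * a + 2 by ring, hR.2.2.2.2.2.2.2.2]
    refine (mt_log hR (by omega)).mul (Nm.sum fun l hl => ?_)
    have := mem_range.1 hl
    rw [cast1]
    simpa using div_log (D := D) (one_nm (p := p)) (show 0 < 2 * l + 1 by omega) (by omega)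

theorem harm_log {k D : ℕ} (hk : k ≤ D) : Nm p (Nat.log p D) (harmonic k) := by
  unfold harmonic
  refine Nm.sum fun i hi => ?_
  have := mem_range.1 hi
  simpa using div_log (D := D) (one_nm (p := p)) (show 0 < i + 1 by omega) (by omega)

theorem hk_log {k D : ℕ} (hk : k ≤ D) : Nm p (2 * Nat.log p D) (harmonic k / (k : ℚ)) := by
  rcases Nat.eq_zero_or_pos k with rfl | h0
  · simpa using Nm.zero (p := p) _
  · rw [two_mul]; exact div_log (harm_log hk) h0 hk

omit hp in
theorem le_one_of {x : ℚ} {D : ℕ} (hD : D < p) (h : Nm p (2 * Nat.log p D) x) :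
    padicNorm p x ≤ 1 := by
  rw [Nat.log_of_lt hD] at h
  simpa [Nm] using h

omit hp in
theorem le_p_of {x : ℚ} (h : Nm p 1 x) : padicNorm p x ≤ p := by simpa [Nm] using h

theorem v6 (hR : Rec) (h2 : p ≠ 2) {k : ℕ} (h1 : 1 ≤ k) (hk : k ≤ 2 * p) :
    Nm p 1 (thm k - mt (k - 1) / p) := by
  have hp2 := hp.out.two_le
  have hpp : 3 * p ≤ p * p := Nat.mul_le_mul_right p (by omega)
  have hm1 : ∀ k, k < 2 * p → Nm p 1 (mt k) := fun k hk =>
    (mt_log hR le_rfl).mono (log_le_one (by omega))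
  obtain ⟨k, rfl⟩ : ∃ k', k = k' + 1 := ⟨k - 1, by omega⟩
  rw [Nat.add_sub_cancel]
  rcases Nat.even_or_odd' k with ⟨a, rfl | rfl⟩
  · rw [mt_even, zero_div, sub_zero]
    by_cases ha : 2 * a < p
    · exact (Nm.of_le_one (le_one_of ha (thm_log hR h2 le_rfl))).mono (Nat.zero_le 1)
    · obtain ⟨c, hc⟩ : p ∣ Nat.centralBinom a :=
        hp.out.dvd_choose (by omega) (by omega) (by omega)
      have e : Bk a / 2 = p * ((c : ℚ) / 4 ^ a / (2 : ℕ)) := by
        unfold Bk; rw [hc]; push_cast; ring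
      rw [hR.2.2.2.2.2.2.2.1, e, mul_assoc]
      refine Nm.pmul (((div_four h2 (Nm.nat c) a).div_nat (not_dvd_two h2)).mul0
        (Nm.sum fun l hl => ?_))
      have := mem_range.1 hl
      rw [pow_two]
      exact (hm1 _ (by omega)).mul (hm1 _ (by omega))
  · rw [show 2 * a + 1 + 1 = 2 * a + 2 by ring, hR.2.2.2.2.2.2.2.2, div_eq_mul_one_div (mt _),
      ← mul_sub]
    by_cases ha : 2 * a + 1 < p
    · refine Nm.mul0 ((mt_log hR le_rfl).mono (by rw [Nat.log_of_lt ha])) (Nm.sub ?_ one_nm.divp)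
      refine Nm.mono (e := 0) (Nm.sum fun l hl => ?_) (Nat.zero_le 1)
      have := mem_range.1 hl
      rw [cast1]
      exact one_nm.div_lt (by omega) (by omega)
    · obtain ⟨b, hb⟩ := hp.out.odd_of_ne_two h2
      have hmem : b ∈ range (a + 1) := mem_range.2 (by omega)
      rw [← add_sum_erase _ _ hmem, cast1, ← hb, add_sub_cancel_left]
      refine (hm1 _ (by omega)).mul0' (Nm.sum fun l hl => ?_)
      obtain ⟨h3, h4⟩ := mem_erase.1 hl
      have := mem_range.1 h4
      rw [cast1]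
      exact one_nm.div_lt2 (by omega) (by omega) (by omega)

theorem v8 (h2 : p ≠ 2) {k : ℕ} (h1 : 1 ≤ k) (hk : k < 2 * p) :
    Nm p 1 (harmonic k / (k : ℚ) - 1 / ((p : ℚ) * k)) := by
  have hp2 := hp.out.two_le
  have hpp : 3 * p ≤ p * p := Nat.mul_le_mul_right p (by omega)
  rw [← div_div, ← sub_div]
  by_cases h : k < p
  · refine Nm.div_lt (Nm.sub ?_ one_nm.divp) (by omega) h
    exact (harm_log le_rfl).mono (by rw [Nat.log_of_lt h]; omega)
  · refine Nm.div_sq (e := 0) ?_ (by omega) (by omega)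
    have hmem : p - 1 ∈ range k := mem_range.2 (by omega)
    unfold harmonic
    rw [← add_sum_erase _ _ hmem, show p - 1 + 1 = p by omega, one_div, add_sub_cancel_left]
    refine Nm.sum fun i hi => ?_
    obtain ⟨h3, h4⟩ := mem_erase.1 hi
    have := mem_range.1 h4
    rw [← one_div]
    exact one_nm.div_lt2 (by omega) (by omega) (by omega)

end ValAux

open ValAux Lv in
theorem val (hR : Rec) : Val := by
  intro p hp h2
  have hp2 := hp.out.two_le
  refine ⟨fun k => by simpa [Nm] using Bk_nm h2 k, fun k => mt_log hR le_rfl, fun i j D hi hj => ?_,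
    fun i hi => le_one_of hi (thp_log hR h2 le_rfl),
    fun k hk => le_one_of (D := p - 1) (by omega) (thm_log hR h2 (by omega)),
    fun k h1 hk => le_p_of (v6 hR h2 h1 hk), fun k hk => le_one_of hk (hk_log le_rfl),
    fun k h1 hk => le_p_of (v8 h2 h1 hk)⟩
  have a1 : Nm p (2 * Nat.log p D) (Th i j) := by
    unfold Th
    split_ifs
    · exact thp_log hR h2 (by omega)
    · exact thm_log hR h2 (by omega)
  have a2 : Nm p (2 * Nat.log p D) (Tz i j) := hk_log (by unfold Nat.dist; omega)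
  refine ⟨a1, a2, ?_, ?_⟩
  · rw [hR.2.2.2.1]
    refine a1.sub (Nm.sum fun a ha => ?_)
    have := mem_Icc.1 ha
    rw [two_mul]
    exact div_log (mt_log hR (by omega)) (by omega) (by omega)
  · rw [hR.2.2.2.2.1]
    refine a2.sub (Nm.sum fun a ha => ?_)
    have := mem_Icc.1 ha
    rw [two_mul, ← div_div]
    have h3 := div_log (D := D) (one_nm (p := p)) (show 0 < i + 1 - a by omega) (by omega)
    rw [zero_add] at h3
    exact div_log h3 (by omega) (by omega)

open Lv in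
theorem crude (hV : Val) : Crude := by
  intro p hp h2 N G
  set c := (p : ℚ) ^ (2 * Nat.log p (49 * N)) * max 1 (padicNorm p G) with hc
  have h1 : (1 : ℚ) ≤ (p : ℚ) ^ (2 * Nat.log p (49 * N)) := one_le_pow₀ p1
  have hc1 : (p : ℚ) ^ (2 * Nat.log p (49 * N)) ≤ c :=
    le_mul_of_one_le_right (by linarith) (le_max_left _ _)
  have hc2 : padicNorm p G ≤ c :=
    (le_max_right _ _).trans (le_mul_of_one_le_left (le_trans zero_le_one (le_max_left _ _)) h1)
  have hc0 : 0 ≤ c := by linarith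
  have hmul : ∀ x y : ℚ, Nm p 0 x → padicNorm p y ≤ c → padicNorm p (x * y) ≤ c := fun x y hx hy => by
    rw [padicNorm.mul]
    have hx' : padicNorm p x ≤ 1 := by simpa [Nm] using hx
    calc _ ≤ 1 * c := mul_le_mul hx' hy (padicNorm.nonneg _) zero_le_one
      _ = c := one_mul c
  have hadd : ∀ x y : ℚ, padicNorm p x ≤ c → padicNorm p y ≤ c → padicNorm p (x + y) ≤ c :=
    fun x y hx hy => le_trans padicNorm.nonarchimedean (max_le hx hy)
  have h := DetAux.norm_det_le (p := p) (Matrix.of fun k l : Fin (36 * N) => entry N G k l)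
    (fun _ => c) fun k l => ?_
  · rwa [prod_const, card_univ, Fintype.card_fin] at h
  rw [Matrix.of_apply]
  unfold entry
  refine padicNorm.sum_le' (fun i hi => hmul _ _ (Nm.int _) ?_) hc0
  refine padicNorm.sum_le' (fun j hj => ?_) hc0
  have hi' := mem_range.1 hi
  have hj' := mem_range.1 hj
  have h3 := (hV p h2).2.2.1 i j (49 * N) (by omega) (by omega)
  refine hadd _ _ (hmul _ _ (Nm.int _) (hadd _ _ (h3.2.2.1.trans hc1) ?_))
    (hmul _ _ ((Nm.three_half h2).mul0 (Nm.int _)) (h3.2.2.2.trans hc1))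
  rw [mul_right_comm]
  refine hmul _ _ ((Nm.nat 4).mul0 ?_) hc2
  unfold gam
  split_ifs
  · exact Nm.of_le_one ((hV p h2).1 _)
  · exact Nm.zero _

end Crest.Agent.R6
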