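import Crest.Agent.R6.AndBd
import Crest.Agent.R6.Cartier
import Crest.Agent.R6.Cauchy
import Crest.Agent.R6.Certs
import Crest.Agent.R6.Col
import Crest.Agent.R6.Det
import Crest.Agent.R6.EL
import Crest.Agent.R6.LevelB
import Crest.Agent.R6.LevelC
import Crest.Agent.R6.Mom
import Crest.Agent.R6.NVCert
import Crest.Agent.R6.PNT
import Crest.Agent.R6.Pick
import Crest.Agent.R6.Point
import Crest.Agent.R6.PrimeSum
import Crest.Agent.R6.RealBd
import Crest.Agent.R6.RealId
import Crest.Agent.R6.Rec
import Crest.Agent.R6.SerId
import Crest.Agent.R6.Top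
import Crest.Agent.R6.TwoA
import Crest.Agent.R6.TwoB
import Crest.Agent.R6.Val

set_option autoImplicit false

namespace Crest.Agent.R6

theorem main_of_nonVan (hN : NonVan) : Main :=
  main (crude (val rec_)) (levelB rec_ col det_ (val rec_)) (levelC rec_ col det_ (val rec_))
    (twoAdic col det_ (twoA rec_)) hN (primeSum pnt)
    (realBd (realId col mom (serId rec_ mom (serVal mom))) andBd
      (point cauchy pick (el1 negDef) (el2 negDef) certs))

end Crest.Agent.R6
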