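import Crest.Agent.R6.Defs

/-! # R6 AND: Andréief's identity, twice -/

set_option autoImplicit false

open Finset MeasureTheory

namespace Crest.Agent.R6

namespace AndAux

theorem andreief (μ : Measure ℝ) [SigmaFinite μ] {n : ℕ} (φ χ : Fin n → ℝ → ℝ)
    (h : ∀ i l, Integrable (fun x => φ i x * χ l x) μ) :
    ∫ x : Fin n → ℝ, (Matrix.of fun j i => φ i (x j)).det * (Matrix.of fun j l => χ l (x j)).det
      ∂(Measure.pi fun _ => μ) =
      n.factorial * (Matrix.of fun i l => ∫ x, φ i x * χ l x ∂μ).det := by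
  have e : ∀ x : Fin n → ℝ,
      (Matrix.of fun j i => φ i (x j)).det * (Matrix.of fun j l => χ l (x j)).det =
      ∑ σ : Equiv.Perm (Fin n), ∑ τ : Equiv.Perm (Fin n),
        ((Equiv.Perm.sign σ : ℤ) * (Equiv.Perm.sign τ : ℤ) : ℝ) *
          ∏ j, (φ (σ j) (x j) * χ (τ j) (x j)) := by
    intro x
    rw [← Matrix.det_transpose, ← Matrix.det_transpose (Matrix.of fun j l => χ l (x j)),
      Matrix.det_apply', Matrix.det_apply', sum_mul_sum]
    refine sum_congr rfl fun σ _ => sum_congr rfl fun τ _ => ?_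
    rw [prod_mul_distrib]
    simp only [Matrix.transpose_apply, Matrix.of_apply]
    ring
  have hi : ∀ σ τ : Equiv.Perm (Fin n), Integrable (fun x : Fin n → ℝ =>
      ((Equiv.Perm.sign σ : ℤ) * (Equiv.Perm.sign τ : ℤ) : ℝ) *
        ∏ j, (φ (σ j) (x j) * χ (τ j) (x j))) (Measure.pi fun _ => μ) := fun σ τ =>
    (Integrable.fintype_prod (f := fun j x => φ (σ j) x * χ (τ j) x) fun j => h _ _).const_mul _
  simp only [e]
  rw [integral_finsetSum _ fun σ _ => integrable_finsetSum _ fun τ _ => hi σ τ]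
  have e2 : ∀ σ : Equiv.Perm (Fin n), ∫ x : Fin n → ℝ, ∑ τ : Equiv.Perm (Fin n),
      ((Equiv.Perm.sign σ : ℤ) * (Equiv.Perm.sign τ : ℤ) : ℝ) *
        ∏ j, (φ (σ j) (x j) * χ (τ j) (x j)) ∂(Measure.pi fun _ => μ) =
      (Matrix.of fun i l => ∫ x, φ i x * χ l x ∂μ).det := by
    intro σ
    rw [integral_finsetSum _ fun τ _ => hi σ τ]
    have e3 := Matrix.det_permute σ (Matrix.of fun i l => ∫ x, φ i x * χ l x ∂μ)
    rw [← Matrix.det_transpose, Matrix.det_apply'] at e3
    have e4 : ((Equiv.Perm.sign σ : ℤ) : ℝ) * (Equiv.Perm.sign σ : ℤ) = 1 := by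
      rw [← Int.cast_mul, ← Units.val_mul, Int.units_mul_self]; simp
    rw [← one_mul (Matrix.det _), ← e4, mul_assoc, ← e3, mul_sum]
    refine sum_congr rfl fun τ _ => ?_
    rw [integral_const_mul,
      integral_fintype_prod_eq_prod (f := fun j x => φ (σ j) x * χ (τ j) x), mul_assoc]
    rfl
  simp only [e2]
  simp [Fintype.card_perm]

theorem andr_le (S : Set ℝ) (hS : MeasurableSet S) {n : ℕ} (φ χ : Fin n → ℝ → ℝ)
    (h : ∀ i l, Integrable (fun x => φ i x * χ l x) (volume.restrict S)) {a M : ℝ} (ha : 0 ≤ a)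
    {g : ℝ → ℝ} (hg : Integrable g (volume.restrict S))
    (hb : ∀ x : Fin n → ℝ, (∀ j, x j ∈ S) → a * |(Matrix.of fun j i => φ i (x j)).det| *
      |(Matrix.of fun j l => χ l (x j)).det| ≤ M * ∏ j, g (x j)) :
    a * |(Matrix.of fun i l => ∫ x in S, φ i x * χ l x).det| ≤ M * (∫ x in S, g x) ^ n := by
  have h1 := andreief (volume.restrict S) φ χ h
  have h2 : (1 : ℝ) ≤ n.factorial := by exact_mod_cast n.factorial_pos
  have h3 : ∀ᵐ x : Fin n → ℝ ∂(Measure.pi fun _ => volume.restrict S), ∀ j, x j ∈ S :=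
    ae_all_iff.2 fun j => Measure.tendsto_eval_ae_ae.eventually (ae_restrict_mem hS)
  have h4 := norm_integral_le_of_norm_le (μ := Measure.pi fun _ : Fin n => volume.restrict S)
    (f := fun x => a * ((Matrix.of fun j i => φ i (x j)).det *
      (Matrix.of fun j l => χ l (x j)).det)) (g := fun x => M * ∏ j, g (x j))
    ((Integrable.fintype_prod (f := fun _ => g) fun _ => hg).const_mul _)
    (h3.mono fun x hx => by
      rw [Real.norm_eq_abs, abs_mul, abs_mul, abs_of_nonneg ha, ← mul_assoc]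
      exact hb x hx)
  rw [integral_const_mul, integral_const_mul, h1, integral_fintype_prod_eq_pow, Fintype.card_fin,
    Real.norm_eq_abs, abs_mul, abs_mul, abs_of_nonneg ha, Nat.abs_cast] at h4
  refine le_trans (mul_le_mul_of_nonneg_left ?_ ha) h4
  exact le_mul_of_one_le_left (abs_nonneg _) h2

theorem int_g : Integrable (fun w : ℝ => (Real.sqrt (1 - w ^ 2))⁻¹)
    (volume.restrict (Set.Ioo (-1) 1)) := by
  have := Polynomial.Chebyshev.intervalIntegrable_sqrt_one_sub_sq_inv
  rw [intervalIntegrable_iff_integrableOn_Ioo_of_le (by norm_num)] at this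
  simpa [IntegrableOn] using this

theorem val_g : ∫ w in Set.Ioo (-1 : ℝ) 1, (Real.sqrt (1 - w ^ 2))⁻¹ = Real.pi := by
  have := Polynomial.Chebyshev.integral_eval_T_real_measureT_zero
  rw [Polynomial.Chebyshev.integral_measureT, intervalIntegral.integral_of_le (by norm_num),
    integral_Ioc_eq_integral_Ioo] at this
  simpa using this

end AndAux

open AndAux in
theorem andBd : AndBd := by
  intro n f ψ K M c hM hf hψ hK bf bK hb
  have hKs : ∀ s, Measurable (K s) := fun s => hK.of_uncurry_left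
  have i1 : ∀ l, ∀ s ∈ Set.Ioo (0 : ℝ) 1,
      Integrable (fun w => K s w * ψ l w) (volume.restrict (Set.Ioo (-1) 1)) := fun l s hs =>
    Integrable.of_bound ((hKs s).mul (hψ l)).aestronglyMeasurable c
      ((ae_restrict_mem measurableSet_Ioo).mono fun w hw => bK l s hs w hw)
  have i2 : ∀ k l, Integrable (fun s => f k s * ∫ w in Set.Ioo (-1 : ℝ) 1, K s w * ψ l w)
      (volume.restrict (Set.Ioo 0 1)) := by
    intro k l
    have m1 : StronglyMeasurable fun s => ∫ w in Set.Ioo (-1 : ℝ) 1, K s w * ψ l w :=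
      StronglyMeasurable.integral_prod_right (f := fun s w => K s w * ψ l w)
        (hK.mul ((hψ l).comp measurable_snd)).stronglyMeasurable
    refine Integrable.of_bound ((hf k).mul m1.measurable).aestronglyMeasurable
      (c * (c * (volume.restrict (Set.Ioo (-1 : ℝ) 1)).real Set.univ))
      ((ae_restrict_mem measurableSet_Ioo).mono fun s hs => ?_)
    rw [norm_mul]
    exact mul_le_mul (bf k s hs) (norm_integral_le_of_norm_le_const
      ((ae_restrict_mem measurableSet_Ioo).mono fun w hw => bK l s hs w hw)) (norm_nonneg _)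
      ((abs_nonneg _).trans (bf k s hs))
  have := andr_le (Set.Ioo 0 1) measurableSet_Ioo f
    (fun l s => ∫ w in Set.Ioo (-1 : ℝ) 1, K s w * ψ l w) i2 zero_le_one (M := M * 4 ^ n)
    (integrable_const (1 : ℝ)) fun s hs => by
      have h1 := andr_le (Set.Ioo (-1) 1) measurableSet_Ioo (fun i => K (s i)) ψ
        (fun i l => i1 l _ (hs i)) (abs_nonneg (Matrix.of fun i k => f k (s i)).det) int_g
        fun w hw => by
          rw [← Matrix.det_transpose (Matrix.of fun j i => K (s i) (w j))]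
          exact hb s w hs hw
      rw [val_g] at h1
      rw [one_mul, prod_const_one, mul_one]
      refine h1.trans (mul_le_mul_of_nonneg_left ?_ hM)
      exact pow_le_pow_left₀ Real.pi_pos.le Real.pi_le_four _
  simpa using this

end Crest.Agent.R6
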