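import Mathlib

/-!
# A verified checker for inequalities `∑ c log (b₀ + b₁ X + b₂ X²) ≤ C` on an interval
-/

set_option autoImplicit false

namespace Crest.Agent.R6.Chk

open Real

def ser (n k : ℕ) : ℕ :=
  let U := ((n - 2 ^ k) * 4294967296) / (n + 2 ^ k)
  let V := U * U
  ((((((3465 * V + 4095 * 2 ^ 64) * V + 5005 * 2 ^ 128) * V + 6435 * 2 ^ 192) * V + 9009 * 2 ^ 256) * V +
    15015 * 2 ^ 320) * V + 45045 * 2 ^ 384) * U * 2 / (45045 * 2 ^ 376)

def llo (n : ℕ) : ℕ := n.log2 * 762123384499 + ser n n.log2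

def lhi (n : ℕ) : ℕ := n.log2 * 762123385050 + ser n n.log2 + 173500

set_option exponentiation.threshold 500 in
lemma ser_bounds (n k : ℕ) (h1 : 2 ^ k ≤ n) (h2 : n < 2 ^ (k + 1)) :
    (ser n k : ℝ) ≤ 2 ^ 40 * log ((n : ℝ) / 2 ^ k) ∧
      2 ^ 40 * log ((n : ℝ) / 2 ^ k) ≤ ser n k + 173500 := by
  set p : ℕ := 2 ^ k with hp
  have hp0 : 0 < p := by positivity
  have hpR : (0 : ℝ) < p := by exact_mod_cast hp0
  have hpe : ((2 : ℝ) ^ k) = p := by rw [hp]; push_cast; ring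
  have hn1 : (p : ℝ) ≤ n := by exact_mod_cast h1
  have hn2 : (n : ℝ) < 2 * p := by
    have : n < 2 * p := by rw [hp]; rw [pow_succ] at h2; omega
    exact_mod_cast this
  set U : ℕ := ((n - p) * 4294967296) / (n + p) with hU
  set u : ℝ := ((n : ℝ) - p) / (n + p) with hu
  set v : ℝ := (U : ℝ) / 4294967296 with hv
  have hd : (0 : ℝ) < n + p := by linarith
  have hdn : 0 < n + p := by omega
  have hU1 : (U : ℝ) * (n + p) ≤ ((n : ℝ) - p) * 4294967296 := by
    have := Nat.div_mul_le_self ((n - p) * 4294967296) (n + p)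
    have h' : ((U * (n + p) : ℕ) : ℝ) ≤ (((n - p) * 4294967296 : ℕ) : ℝ) := by exact_mod_cast this
    push_cast [Nat.cast_sub h1] at h'
    exact h'
  have hU2 : ((n : ℝ) - p) * 4294967296 < ((U : ℝ) + 1) * (n + p) := by
    have := Nat.lt_div_mul_add (a := (n - p) * 4294967296) hdn
    have h' : (((n - p) * 4294967296 : ℕ) : ℝ) < ((U * (n + p) + (n + p) : ℕ) : ℝ) := by
      exact_mod_cast this
    push_cast [Nat.cast_sub h1] at h'
    linarith
  have hvu : v ≤ u := by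
    rw [hv, hu, div_le_div_iff₀ (by norm_num) hd]; linarith
  have huv : u ≤ v + 1 / 4294967296 := by
    rw [hv, hu, ← add_div, div_le_div_iff₀ hd (by norm_num)]; linarith
  have hv0 : 0 ≤ v := by positivity
  have hu3 : u ≤ 1 / 3 := by
    rw [hu, div_le_div_iff₀ hd (by norm_num)]; linarith
  have hv3 : v ≤ 1 / 3 := hvu.trans hu3
  have hnp : (n : ℝ) / 2 ^ k = (1 + u) / (1 - u) := by
    have h1u : 1 - u = 2 * p / (n + p) := by rw [hu]; field_simp; ring
    have h2u : 1 + u = 2 * n / (n + p) := by rw [hu]; field_simp; ring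
    rw [hpe, h1u, h2u]; field_simp
  set S : ℝ := ∑ i ∈ Finset.range 7, v ^ (2 * i + 1) / (2 * i + 1) with hS
  have hlo := Real.sum_range_le_log_div hv0 (by linarith) 7
  have hhi := Real.log_div_le_sum_range_add hv0 (by linarith) 7
  rw [← hS] at hlo hhi
  have htail : v ^ (2 * 7 + 1) / (1 - v ^ 2) ≤ (1 / 3) ^ 15 / (8 / 9) := by
    apply div_le_div₀ (by positivity) (pow_le_pow_left₀ hv0 hv3 _) (by norm_num)
    nlinarith
  have hm1 : log ((1 + v) / (1 - v)) ≤ log ((1 + u) / (1 - u)) := by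
    apply log_le_log (div_pos (by linarith) (by linarith))
    apply div_le_div₀ <;> linarith
  have hm2 : log ((1 + u) / (1 - u)) ≤ log ((1 + v) / (1 - v)) + 3 / 4294967296 := by
    have hq : (1 + u) / (1 - u) = (1 + v) / (1 - v) * (((1 + u) * (1 - v)) / ((1 + v) * (1 - u))) := by
      have : (1 - u) ≠ 0 := by linarith
      have : (1 - v) ≠ 0 := by linarith
      have : (1 + v) ≠ 0 := by linarith
      field_simp
    have hpos : 0 < ((1 + u) * (1 - v)) / ((1 + v) * (1 - u)) := by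
      apply div_pos <;> apply mul_pos <;> linarith
    rw [hq, log_mul (div_pos (by linarith) (by linarith)).ne' hpos.ne']
    have := log_le_sub_one_of_pos hpos
    have h3 : ((1 + u) * (1 - v)) / ((1 + v) * (1 - u)) ≤ 1 + 3 / 4294967296 := by
      rw [div_le_iff₀ (mul_pos (by linarith) (by linarith))]
      nlinarith
    linarith
  set A : ℕ := ((((((3465 * (U * U) + 4095 * 2 ^ 64) * (U * U) + 5005 * 2 ^ 128) * (U * U) + 6435 * 2 ^ 192) * (U * U) +
    9009 * 2 ^ 256) * (U * U) + 15015 * 2 ^ 320) * (U * U) + 45045 * 2 ^ 384) * U * 2 with hA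
  have hser : ser n k = A / (45045 * 2 ^ 376) := rfl
  have hAS : (A : ℝ) / (45045 * 2 ^ 376) = 2 ^ 40 * (2 * S) := by
    have hUv : (U : ℝ) = 2 ^ 32 * v := by rw [hv]; field_simp; norm_num
    rw [hA, hS]
    push_cast
    rw [hUv]
    simp only [Finset.sum_range_succ, Finset.sum_range_zero]
    push_cast
    field_simp
    ring
  have hf1 : (ser n k : ℝ) ≤ 2 ^ 40 * (2 * S) := by
    rw [hser, ← hAS]
    have := Nat.cast_div_le (α := ℝ) (m := A) (n := 45045 * 2 ^ 376)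
    have e : ((45045 * 2 ^ 376 : ℕ) : ℝ) = 45045 * 2 ^ 376 := by norm_num
    rwa [e] at this
  have hf2 : 2 ^ 40 * (2 * S) ≤ (ser n k : ℝ) + 1 := by
    rw [hser, ← hAS, div_le_iff₀ (by positivity)]
    have := Nat.lt_div_mul_add (a := A) (b := 45045 * 2 ^ 376) (by positivity)
    have h' : (A : ℝ) < ((A / (45045 * 2 ^ 376) * (45045 * 2 ^ 376) + 45045 * 2 ^ 376 : ℕ) : ℝ) := by
      exact_mod_cast this
    generalize A / (45045 * 2 ^ 376) = B at *
    push_cast at h' ⊢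
    linarith
  rw [hnp]
  constructor
  · nlinarith
  · have : (1 / 3 : ℝ) ^ 15 / (8 / 9) ≤ 172500 / 2 ^ 41 := by norm_num
    nlinarith

lemma log_split (n : ℕ) (hn : 0 < n) :
    log (n : ℝ) = n.log2 * log 2 + log ((n : ℝ) / 2 ^ n.log2) := by
  have : (0 : ℝ) < n := by exact_mod_cast hn
  rw [log_div this.ne' (by positivity), log_pow]; ring

lemma llo_le (n : ℕ) (hn : 0 < n) : (llo n : ℝ) ≤ 2 ^ 40 * log n := by
  have h := (ser_bounds n n.log2 (Nat.log2_self_le hn.ne') Nat.lt_log2_self).1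
  rw [log_split n hn, llo]
  push_cast
  have h2 := Real.log_two_gt_d9
  have h3 : (0 : ℝ) ≤ n.log2 := Nat.cast_nonneg _
  have : (762123384499 : ℝ) ≤ 2 ^ 40 * log 2 := by norm_num at h2 ⊢; linarith
  nlinarith

lemma le_lhi (n : ℕ) (hn : 0 < n) : 2 ^ 40 * log n ≤ (lhi n : ℝ) := by
  have h := (ser_bounds n n.log2 (Nat.log2_self_le hn.ne') Nat.lt_log2_self).2
  rw [log_split n hn, lhi]
  push_cast
  have h2 := Real.log_two_lt_d9
  have h3 : (0 : ℝ) ≤ n.log2 := Nat.cast_nonneg _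
  have : 2 ^ 40 * log 2 ≤ (762123385050 : ℝ) := by norm_num at h2 ⊢; linarith
  nlinarith

/-- upper bound for `2^40 * c * log n` -/
def tv (c n : ℤ) : ℤ := if 0 < c then c * (lhi n.toNat : ℕ) else c * (llo n.toNat : ℕ)

lemma le_tv (c n : ℤ) (hn : 0 < n) : 2 ^ 40 * ((c : ℝ) * log n) ≤ (tv c n : ℝ) := by
  obtain ⟨m, rfl⟩ := Int.eq_ofNat_of_zero_le hn.le
  have hm : 0 < m := by exact_mod_cast hn
  unfold tv
  simp only [Int.toNat_natCast, Int.cast_natCast]
  split_ifs with h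
  · have hc : (0 : ℝ) < c := by exact_mod_cast h
    have := le_lhi m hm
    push_cast
    nlinarith
  · have hc : (c : ℝ) ≤ 0 := by exact_mod_cast not_lt.1 h
    have := llo_le m hm
    push_cast
    nlinarith

structure Tm where
  c : ℤ
  b0 : ℤ
  b1 : ℤ
  b2 : ℤ
  deriving DecidableEq

def pv (t : Tm) (X : ℤ) : ℤ := t.b0 + (t.b1 + t.b2 * X) * X

noncomputable def pr (t : Tm) (X : ℝ) : ℝ := t.b0 + (t.b1 + t.b2 * X) * X

lemma pr_cast (t : Tm) (X : ℤ) : pr t X = pv t X := by simp [pr, pv]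

noncomputable def G : List Tm → ℝ → ℝ
  | [], _ => 0
  | t :: ts, X => t.c * log (pr t X) + G ts X

def val : List Tm → ℤ → ℤ
  | [], _ => 0
  | t :: ts, X => tv t.c (pv t X) + val ts X

def pmin (t : Tm) (X0 X1 : ℤ) : ℤ :=
  min (pv t X0) (pv t X1) - (t.b2 * ((X1 - X0) * (X1 - X0)) / 4 + 1)

def mterm (t : Tm) (H2 m : ℤ) : ℤ :=
  (t.c.natAbs : ℤ) * (max (t.b1 * t.b1 - 4 * t.b0 * t.b2) 0 * H2 * 137438953472 / (m * m) +
    t.b2 * H2 * 274877906944 / m + 2)

def ivl : List Tm → ℤ → ℤ → ℤ → Bool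
  | [], _, _, sl => decide (0 ≤ sl)
  | t :: ts, X0, X1, sl =>
    let m := pmin t X0 X1
    decide (0 < m) && decide (0 ≤ t.b2) && ivl ts X0 X1 (sl - mterm t ((X1 - X0) * (X1 - X0)) m)

def seg (ts : List Tm) (C W : ℤ) : List ℤ → ℤ → ℤ → Bool
  | [], X0, _ => decide (W ≤ X0)
  | X1 :: r, X0, v0 =>
    let v1 := val ts X1
    decide (X0 < X1) && ivl ts X0 X1 (C - max v0 v1) && seg ts C W r X1 v1

def z0 : List Tm → ℤ → ℤ → ℤ → Bool
  | [], _, _, sl => decide (0 ≤ sl)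
  | t :: ts, X0, X1, sl =>
    decide (0 ≤ t.b2) &&
    (if 0 < t.c then
      (decide (0 < pmin t X0 X1) ||
        (decide (t.b2 = 0) && decide (0 ≤ pv t X0) && decide (0 ≤ pv t X1) && decide (0 < pv t X0 + pv t X1))) &&
      z0 ts X0 X1 (sl - tv t.c (max (pv t X0) (pv t X1)))
    else decide (0 < pmin t X0 X1) && z0 ts X0 X1 (sl - tv t.c (pmin t X0 X1)))

lemma pr_chord (t : Tm) (x0 x1 x : ℝ) :
    (x1 - x0) * pr t x = (x1 - x) * pr t x0 + (x - x0) * pr t x1 - (x1 - x0) * (t.b2 * ((x - x0) * (x1 - x))) := by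
  unfold pr; ring

lemma pmin_le (t : Tm) (X0 X1 : ℤ) (h : X0 < X1) (hb : 0 ≤ t.b2) (x : ℝ) (h0 : (X0 : ℝ) ≤ x) (h1 : x ≤ X1) :
    (pmin t X0 X1 : ℝ) ≤ pr t x := by
  have hH : (0 : ℝ) < X1 - X0 := by
    have : (X0 : ℝ) < X1 := by exact_mod_cast h
    linarith
  have hbR : (0 : ℝ) ≤ t.b2 := by exact_mod_cast hb
  have hc := pr_chord t X0 X1 x
  rw [pr_cast, pr_cast] at hc
  have hq : (t.b2 : ℝ) * ((X1 - X0) * (X1 - X0)) / 4 ≤
      ((t.b2 * ((X1 - X0) * (X1 - X0)) / 4 + 1 : ℤ) : ℝ) := by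
    have := Int.lt_ediv_add_one_mul_self (t.b2 * ((X1 - X0) * (X1 - X0))) (b := 4) (by norm_num)
    have h' : ((t.b2 * ((X1 - X0) * (X1 - X0)) : ℤ) : ℝ) <
        (((t.b2 * ((X1 - X0) * (X1 - X0)) / 4 + 1) * 4 : ℤ) : ℝ) := by exact_mod_cast this
    generalize t.b2 * ((X1 - X0) * (X1 - X0)) / 4 = B at *
    push_cast at h' ⊢
    linarith
  have hm0 : ((min (pv t X0) (pv t X1) : ℤ) : ℝ) ≤ pv t X0 := by exact_mod_cast min_le_left _ _
  have hm1 : ((min (pv t X0) (pv t X1) : ℤ) : ℝ) ≤ pv t X1 := by exact_mod_cast min_le_right _ _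
  unfold pmin
  rw [Int.cast_sub]
  generalize ((min (pv t X0) (pv t X1) : ℤ) : ℝ) = μ at *
  generalize ((t.b2 * ((X1 - X0) * (X1 - X0)) / 4 + 1 : ℤ) : ℝ) = B at *
  have h4 : (x - X0) * (X1 - x) ≤ (X1 - X0) * (X1 - X0) / 4 := by nlinarith [sq_nonneg (X1 + X0 - 2 * x)]
  have h5 : t.b2 * ((x - X0) * (X1 - x)) ≤ B := by nlinarith
  have h6 : (X1 - X0) * μ ≤ (X1 - x) * pv t X0 + (x - X0) * pv t X1 := by nlinarith
  have h7 : (X1 - X0) * (μ - B) ≤ (X1 - X0) * pr t x := by nlinarith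
  exact le_of_mul_le_mul_left h7 hH

lemma pr_le_max (t : Tm) (X0 X1 : ℤ) (h : X0 < X1) (hb : 0 ≤ t.b2) (x : ℝ) (h0 : (X0 : ℝ) ≤ x) (h1 : x ≤ X1) :
    pr t x ≤ ((max (pv t X0) (pv t X1) : ℤ) : ℝ) := by
  have hH : (0 : ℝ) < X1 - X0 := by
    have : (X0 : ℝ) < X1 := by exact_mod_cast h
    linarith
  have hbR : (0 : ℝ) ≤ t.b2 := by exact_mod_cast hb
  have hc := pr_chord t X0 X1 x
  rw [pr_cast, pr_cast] at hc
  have hm0 : (pv t X0 : ℝ) ≤ ((max (pv t X0) (pv t X1) : ℤ) : ℝ) := by exact_mod_cast le_max_left _ _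
  have hm1 : (pv t X1 : ℝ) ≤ ((max (pv t X0) (pv t X1) : ℤ) : ℝ) := by exact_mod_cast le_max_right _ _
  generalize ((max (pv t X0) (pv t X1) : ℤ) : ℝ) = μ at *
  have h5 : 0 ≤ (X1 - X0) * (t.b2 * ((x - X0) * (X1 - x))) :=
    mul_nonneg hH.le (mul_nonneg hbR (mul_nonneg (by linarith) (by linarith)))
  have h6 : (X1 - x) * pv t X0 + (x - X0) * pv t X1 ≤ (X1 - X0) * μ := by nlinarith
  have h7 : (X1 - X0) * pr t x ≤ (X1 - X0) * μ := by linarith
  exact le_of_mul_le_mul_left h7 hH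

lemma chord_log (c a0 a1 a2 m x0 x1 x : ℝ) (ha : 0 ≤ a2) (hm : 0 < m) (h : x0 < x1)
    (hP : ∀ y, x0 ≤ y → y ≤ x1 → m ≤ a0 + (a1 + a2 * y) * y) (h0 : x0 ≤ x) (h1 : x ≤ x1) :
    c * log (a0 + (a1 + a2 * x) * x) ≤
      (x1 - x) / (x1 - x0) * (c * log (a0 + (a1 + a2 * x0) * x0)) +
      (x - x0) / (x1 - x0) * (c * log (a0 + (a1 + a2 * x1) * x1)) +
      |c| * (max (a1 * a1 - 4 * a0 * a2) 0 / (m * m) + 2 * a2 / m) * ((x1 - x0) * (x1 - x0)) / 8 := by
  set Mt := max (a1 * a1 - 4 * a0 * a2) 0 / (m * m) + 2 * a2 / m with hMt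
  have hMt0 : 0 ≤ Mt := by positivity
  set K := |c| * Mt with hK
  have hK0 : 0 ≤ K := by positivity
  have hPd : ∀ y : ℝ, HasDerivAt (fun y => a0 + (a1 + a2 * y) * y) (a1 + 2 * a2 * y) y := by
    intro y
    exact (((((hasDerivAt_id' y).const_mul a2).const_add a1).fun_mul (hasDerivAt_id' y)).const_add a0).congr_deriv
      (by ring)
  have hpos : ∀ y ∈ Set.Icc x0 x1, 0 < a0 + (a1 + a2 * y) * y := fun y hy => hm.trans_le (hP y hy.1 hy.2)
  have hd1 : ∀ y ∈ Set.Icc x0 x1, HasDerivAt (fun y => c * log (a0 + (a1 + a2 * y) * y) + K * y ^ 2 / 2)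
      (c * ((a1 + 2 * a2 * y) / (a0 + (a1 + a2 * y) * y)) + K * y) y := by
    intro y hy
    have h1 := ((hPd y).log (hpos y hy).ne').const_mul c
    have h2 := ((hasDerivAt_pow 2 y).const_mul K).div_const 2
    exact (h1.fun_add h2).congr_deriv (by simp; ring)
  have hd2 : ∀ y ∈ Set.Icc x0 x1, HasDerivAt
      (fun y => c * ((a1 + 2 * a2 * y) / (a0 + (a1 + a2 * y) * y)) + K * y)
      (c * ((2 * a2 * (a0 + (a1 + a2 * y) * y) - (a1 + 2 * a2 * y) * (a1 + 2 * a2 * y)) /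
        (a0 + (a1 + a2 * y) * y) ^ 2) + K) y := by
    intro y hy
    have h0 : HasDerivAt (fun y => a1 + 2 * a2 * y) (2 * a2) y := by
      simpa using ((hasDerivAt_id y).const_mul (2 * a2)).const_add a1
    have h1 := (h0.fun_div (hPd y) (hpos y hy).ne').const_mul c
    have h2 := (hasDerivAt_id' y).const_mul K
    exact (h1.fun_add h2).congr_deriv (by simp)
  have hconv : ConvexOn ℝ (Set.Icc x0 x1) (fun y => c * log (a0 + (a1 + a2 * y) * y) + K * y ^ 2 / 2) := by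
    apply convexOn_of_hasDerivWithinAt2_nonneg (convex_Icc _ _)
      (fun y hy => (hd1 y hy).continuousAt.continuousWithinAt)
      (fun y hy => (hd1 y (interior_subset hy)).hasDerivWithinAt)
      (fun y hy => (hd2 y (interior_subset hy)).hasDerivWithinAt)
    intro y hy
    have hy' := interior_subset hy
    have hp := hpos y hy'
    have hmP := hP y hy'.1 hy'.2
    set P := a0 + (a1 + a2 * y) * y with hPdef
    have e1 : (2 * a2 * P - (a1 + 2 * a2 * y) * (a1 + 2 * a2 * y)) / P ^ 2 =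
        -((a1 * a1 - 4 * a0 * a2) / (P * P) + 2 * a2 / P) := by
      have : (a1 + 2 * a2 * y) * (a1 + 2 * a2 * y) = (a1 * a1 - 4 * a0 * a2) + 4 * a2 * P := by
        rw [hPdef]; ring
      rw [this]; field_simp; ring
    have i1 : 2 * a2 / P ≤ 2 * a2 / m := div_le_div_of_nonneg_left (by linarith) hm hmP
    have i2 : (a1 * a1 - 4 * a0 * a2) / (P * P) ≤ max (a1 * a1 - 4 * a0 * a2) 0 / (m * m) :=
      div_le_div₀ (le_max_right _ _) (le_max_left _ _) (by positivity) (by nlinarith)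
    have i3 : (2 * a2 * P - (a1 + 2 * a2 * y) * (a1 + 2 * a2 * y)) / P ^ 2 ≤ 2 * a2 / P := by
      rw [div_le_div_iff₀ (by positivity) hp]
      nlinarith [mul_nonneg (mul_self_nonneg (a1 + 2 * a2 * y)) hp.le]
    have i4 : 0 ≤ max (a1 * a1 - 4 * a0 * a2) 0 / (m * m) := by positivity
    set g := (2 * a2 * P - (a1 + 2 * a2 * y) * (a1 + 2 * a2 * y)) / P ^ 2 with hg
    have hab : |g| ≤ Mt := abs_le.2 ⟨by rw [e1, hMt]; linarith, by rw [hMt]; linarith⟩
    have : |c * g| ≤ K := by rw [abs_mul, hK]; exact mul_le_mul_of_nonneg_left hab (abs_nonneg _)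
    have := neg_abs_le (c * g)
    linarith
  have hH : 0 < x1 - x0 := by linarith
  have hw0 : 0 ≤ (x1 - x) / (x1 - x0) := div_nonneg (by linarith) hH.le
  have hw1 : 0 ≤ (x - x0) / (x1 - x0) := div_nonneg (by linarith) hH.le
  have hs : (x1 - x) / (x1 - x0) + (x - x0) / (x1 - x0) = 1 := by field_simp; ring
  have := hconv.2 (Set.left_mem_Icc.2 h.le) (Set.right_mem_Icc.2 h.le) hw0 hw1 hs
  simp only [smul_eq_mul] at this
  have hx : (x1 - x) / (x1 - x0) * x0 + (x - x0) / (x1 - x0) * x1 = x := by field_simp; ring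
  rw [hx] at this
  have hq : (x1 - x) / (x1 - x0) * (K * x0 ^ 2 / 2) + (x - x0) / (x1 - x0) * (K * x1 ^ 2 / 2) =
      K * x ^ 2 / 2 + K * ((x - x0) * (x1 - x)) / 2 := by field_simp; ring
  have h4 : (x - x0) * (x1 - x) ≤ (x1 - x0) * (x1 - x0) / 4 := by nlinarith [sq_nonneg (x1 + x0 - 2 * x)]
  have h5 : K * ((x - x0) * (x1 - x)) / 2 ≤ K * ((x1 - x0) * (x1 - x0)) / 8 := by nlinarith
  linarith

lemma div_le_ediv_add_one (a b : ℤ) (hb : 0 < b) : (a : ℝ) / b ≤ ((a / b : ℤ) : ℝ) + 1 := by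
  have := Int.lt_ediv_add_one_mul_self a hb
  have h' : (a : ℝ) < (((a / b + 1) * b : ℤ) : ℝ) := by exact_mod_cast this
  have hbR : (0 : ℝ) < b := by exact_mod_cast hb
  rw [div_le_iff₀ hbR]
  push_cast at h'
  exact h'.le

lemma ivl_sound (ts : List Tm) (X0 X1 : ℤ) (h : X0 < X1) (x : ℝ) (h0 : (X0 : ℝ) ≤ x) (h1 : x ≤ X1) :
    ∀ sl : ℤ, ivl ts X0 X1 sl = true →
      2 ^ 40 * G ts x ≤ (X1 - x) / (X1 - X0) * val ts X0 + (x - X0) / (X1 - X0) * val ts X1 + sl := by
  have hlt : (X0 : ℝ) < X1 := by exact_mod_cast h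
  have hH : (0 : ℝ) < X1 - X0 := by linarith
  have hw0 : 0 ≤ (X1 - x) / ((X1 : ℝ) - X0) := div_nonneg (by linarith) hH.le
  have hw1 : 0 ≤ (x - X0) / ((X1 : ℝ) - X0) := div_nonneg (by linarith) hH.le
  induction ts with
  | nil =>
    intro sl hs
    simp only [ivl, decide_eq_true_eq] at hs
    have : (0 : ℝ) ≤ sl := by exact_mod_cast hs
    simp [G, val, this]
  | cons t ts ih =>
    intro sl hs
    simp only [ivl, Bool.and_eq_true, decide_eq_true_eq] at hs
    obtain ⟨⟨hm, hb⟩, hr⟩ := hs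
    have ih' := ih _ hr
    have hmR : (0 : ℝ) < pmin t X0 X1 := by exact_mod_cast hm
    have hbR : (0 : ℝ) ≤ t.b2 := by exact_mod_cast hb
    have hP := pmin_le t X0 X1 h hb
    have key := chord_log t.c t.b0 t.b1 t.b2 _ X0 X1 x hbR hmR hlt hP h0 h1
    have p0 : 0 < pv t X0 := by
      have := hmR.trans_le (hP X0 le_rfl hlt.le); rw [pr_cast] at this; exact_mod_cast this
    have p1 : 0 < pv t X1 := by
      have := hmR.trans_le (hP X1 hlt.le le_rfl); rw [pr_cast] at this; exact_mod_cast this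
    have t0 := le_tv t.c _ p0
    have t1 := le_tv t.c _ p1
    rw [← pr_cast] at t0 t1
    have hmt : 2 ^ 40 * (|(t.c : ℝ)| * (max ((t.b1 : ℝ) * t.b1 - 4 * t.b0 * t.b2) 0 /
        ((pmin t X0 X1 : ℝ) * pmin t X0 X1) + 2 * t.b2 / pmin t X0 X1) * ((X1 - X0) * (X1 - X0)) / 8) ≤
        (mterm t ((X1 - X0) * (X1 - X0)) (pmin t X0 X1) : ℝ) := by
      unfold mterm
      generalize pmin t X0 X1 = m at *
      have d1 := div_le_ediv_add_one (max (t.b1 * t.b1 - 4 * t.b0 * t.b2) 0 * ((X1 - X0) * (X1 - X0)) * 137438953472)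
        (m * m) (by positivity)
      have d2 := div_le_ediv_add_one (t.b2 * ((X1 - X0) * (X1 - X0)) * 274877906944) m hm
      rw [Int.cast_mul, Int.cast_add, Int.cast_add]
      generalize ((max (t.b1 * t.b1 - 4 * t.b0 * t.b2) 0 * ((X1 - X0) * (X1 - X0)) * 137438953472 / (m * m) : ℤ) : ℝ) = A at *
      generalize ((t.b2 * ((X1 - X0) * (X1 - X0)) * 274877906944 / m : ℤ) : ℝ) = B at *
      push_cast at d1 d2 ⊢
      have e : (2 : ℝ) ^ 40 * (|(t.c : ℝ)| * (max ((t.b1 : ℝ) * t.b1 - 4 * t.b0 * t.b2) 0 / ((m : ℝ) * m) +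
          2 * t.b2 / m) * ((X1 - X0) * (X1 - X0)) / 8) = |(t.c : ℝ)| *
          (max ((t.b1 : ℝ) * t.b1 - 4 * t.b0 * t.b2) 0 * ((X1 - X0) * (X1 - X0)) * 137438953472 / (m * m) +
            t.b2 * ((X1 - X0) * (X1 - X0)) * 274877906944 / m) := by
        field_simp; ring
      rw [e]
      apply mul_le_mul_of_nonneg_left _ (abs_nonneg _)
      linarith
    simp only [G, val]
    push_cast at ih' ⊢
    unfold pr at t0 t1 ⊢
    nlinarith [mul_le_mul_of_nonneg_left t0 hw0, mul_le_mul_of_nonneg_left t1 hw1]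

lemma seg_sound (ts : List Tm) (C W : ℤ) (xs : List ℤ) : ∀ X0 : ℤ, seg ts C W xs X0 (val ts X0) = true →
    ∀ x : ℝ, (X0 : ℝ) < x → x ≤ W → 2 ^ 40 * G ts x ≤ C := by
  induction xs with
  | nil =>
    intro X0 hs x h0 h1
    simp only [seg, decide_eq_true_eq] at hs
    have : (W : ℝ) ≤ X0 := by exact_mod_cast hs
    linarith
  | cons X1 r ih =>
    intro X0 hs x h0 h1
    simp only [seg, Bool.and_eq_true, decide_eq_true_eq] at hs
    obtain ⟨⟨hlt, hi⟩, hr⟩ := hs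
    rcases le_or_gt x X1 with hx | hx
    · have := ivl_sound ts X0 X1 hlt x h0.le hx _ hi
      have hltR : (X0 : ℝ) < X1 := by exact_mod_cast hlt
      have hH : (0 : ℝ) < X1 - X0 := by linarith
      have hw0 : 0 ≤ (X1 - x) / ((X1 : ℝ) - X0) := div_nonneg (by linarith) hH.le
      have hw1 : 0 ≤ (x - X0) / ((X1 : ℝ) - X0) := div_nonneg (by linarith) hH.le
      have hs : (X1 - x) / ((X1 : ℝ) - X0) + (x - X0) / (X1 - X0) = 1 := by field_simp; ring
      have hm0 : (val ts X0 : ℝ) ≤ ((max (val ts X0) (val ts X1) : ℤ) : ℝ) := by exact_mod_cast le_max_left _ _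
      have hm1 : (val ts X1 : ℝ) ≤ ((max (val ts X0) (val ts X1) : ℤ) : ℝ) := by exact_mod_cast le_max_right _ _
      rw [Int.cast_sub] at this
      generalize ((max (val ts X0) (val ts X1) : ℤ) : ℝ) = μ at *
      have a0 := mul_le_mul_of_nonneg_left hm0 hw0
      have a1 := mul_le_mul_of_nonneg_left hm1 hw1
      have : (X1 - x) / ((X1 : ℝ) - X0) * μ + (x - X0) / (X1 - X0) * μ = μ := by rw [← add_mul, hs, one_mul]
      linarith
    · exact ih X1 hr x hx h1

lemma z0_sound (ts : List Tm) (X0 X1 : ℤ) (x : ℝ) (h0 : (X0 : ℝ) < x) (h1 : x < X1) :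
    ∀ sl : ℤ, z0 ts X0 X1 sl = true → 2 ^ 40 * G ts x ≤ sl := by
  have hlt : X0 < X1 := by
    have : (X0 : ℝ) < X1 := h0.trans h1
    exact_mod_cast this
  induction ts with
  | nil =>
    intro sl hs
    simp only [z0, decide_eq_true_eq] at hs
    have : (0 : ℝ) ≤ sl := by exact_mod_cast hs
    simp [G, this]
  | cons t ts ih =>
    intro sl hs
    simp only [z0, Bool.and_eq_true, decide_eq_true_eq] at hs
    obtain ⟨hb, hs⟩ := hs
    have hP := pmin_le t X0 X1 hlt hb x h0.le h1.le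
    have hQ := pr_le_max t X0 X1 hlt hb x h0.le h1.le
    split_ifs at hs with hc
    · simp only [Bool.and_eq_true, Bool.or_eq_true, decide_eq_true_eq] at hs
      obtain ⟨hp, hr⟩ := hs
      have ih' := ih _ hr
      have hpos : 0 < pr t x := by
        rcases hp with hp | ⟨⟨⟨hb0, hp0⟩, hp1⟩, hp2⟩
        · have : (0 : ℝ) < pmin t X0 X1 := by exact_mod_cast hp
          linarith
        · have hch := pr_chord t X0 X1 x
          rw [pr_cast, pr_cast, hb0] at hch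
          have q0 : (0 : ℝ) ≤ pv t X0 := by exact_mod_cast hp0
          have q1 : (0 : ℝ) ≤ pv t X1 := by exact_mod_cast hp1
          have q2 : (0 : ℝ) < pv t X0 + pv t X1 := by exact_mod_cast hp2
          have q3 : 0 < (X1 - x) * pv t X0 + (x - X0) * pv t X1 := by
            rcases q0.eq_or_lt with q | q
            · have : (0 : ℝ) < pv t X1 := by linarith
              have := mul_pos (sub_pos.2 h0) this
              rw [← q]; linarith
            · have := mul_pos (sub_pos.2 h1) q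
              have := mul_nonneg (sub_pos.2 h0).le q1
              linarith
          have : 0 < (X1 - X0) * pr t x := by rw [hch]; simpa using q3
          exact (pos_iff_pos_of_mul_pos this).1 (by linarith)
      have hmx : 0 < max (pv t X0) (pv t X1) := by
        have := hpos.trans_le hQ
        exact_mod_cast this
      have t0 := le_tv t.c _ hmx
      have hcR : (0 : ℝ) < t.c := by exact_mod_cast hc
      have := mul_le_mul_of_nonneg_left (log_le_log hpos hQ) hcR.le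
      simp only [G]
      rw [Int.cast_sub] at ih'
      linarith
    · simp only [Bool.and_eq_true, decide_eq_true_eq] at hs
      obtain ⟨hp, hr⟩ := hs
      have ih' := ih _ hr
      have hpR : (0 : ℝ) < pmin t X0 X1 := by exact_mod_cast hp
      have t0 := le_tv t.c _ hp
      have hcR : (t.c : ℝ) ≤ 0 := by exact_mod_cast not_lt.1 hc
      have := mul_le_mul_of_nonpos_left (log_le_log hpR hP) hcR
      simp only [G]
      rw [Int.cast_sub] at ih'
      linarith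

end Crest.Agent.R6.Chk
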