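import Crest.Agent.R6.Defs
import Crest.Agent.R6.Chk

/-! Reduction of `Cert` to the integer checker -/

set_option autoImplicit false

namespace Crest.Agent.R6.Chk

open Real

abbrev P3 := ℤ × ℤ × ℤ

def inD (L : List P3) : Prop := ∀ p ∈ L, p.2.1 * p.2.1 + p.2.2 * p.2.2 < 16777216

instance (L : List P3) : Decidable (inD L) := by unfold inD; infer_instance

lemma inD_real {L : List P3} (h : inD L) {p : P3} (hp : p ∈ L) :
    ((p.2.1 : ℝ) / 4096) ^ 2 + ((p.2.2 : ℝ) / 4096) ^ 2 < 1 := by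
  have : ((p.2.1 * p.2.1 + p.2.2 * p.2.2 : ℤ) : ℝ) < (16777216 : ℤ) := by exact_mod_cast h p hp
  push_cast at this
  nlinarith

noncomputable def mkT (L : List P3) (h : inD L) : Trial where
  m := L.length
  α a := (L[a.1].1 : ℝ) / 65536
  x a := (L[a.1].2.1 : ℝ) / 4096
  y a := (L[a.1].2.2 : ℝ) / 4096
  inside a := inD_real h (List.getElem_mem a.2)

def qt (sg : ℤ) (p : P3) : Tm :=
  ⟨p.1, ((16777216 + p.2.1 * p.2.1 - p.2.2 * p.2.2) * (16777216 + p.2.1 * p.2.1 - p.2.2 * p.2.2) +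
      4 * p.2.1 * p.2.1 * p.2.2 * p.2.2) * 281474976710656,
    -sg * 4 * p.2.1 * 4096 * (16777216 + p.2.1 * p.2.1 + p.2.2 * p.2.2) * 16777216,
    4 * (p.2.1 * p.2.1 + p.2.2 * p.2.2) * 16777216⟩

def pt (sg : ℤ) (p : P3) : Tm :=
  ⟨-p.1, 79228162514264337593543950336, -sg * 2 * p.2.1 * 68719476736 * 16777216,
    (p.2.1 * p.2.1 + p.2.2 * p.2.2) * 16777216⟩

def sumA (L : List P3) : ℤ := (L.map fun p => p.1).sum

lemma G_append (l₁ l₂ : List Tm) (x : ℝ) : G (l₁ ++ l₂) x = G l₁ x + G l₂ x := by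
  induction l₁ with
  | nil => simp [G]
  | cons t ts ih => simp [G, ih, add_assoc]

lemma q_pos (x y s : ℝ) (h : x ^ 2 + y ^ 2 < 1) (hs : s ^ 2 < 1) :
    0 < (1 - 2 * x * s + x ^ 2 - y ^ 2) ^ 2 + (2 * x * y - 2 * y * s) ^ 2 := by
  by_contra hn
  have h1 : (1 - 2 * x * s + x ^ 2 - y ^ 2) ^ 2 = 0 := by nlinarith [sq_nonneg (1 - 2 * x * s + x ^ 2 - y ^ 2), sq_nonneg (2 * x * y - 2 * y * s)]
  have h2 : (2 * x * y - 2 * y * s) ^ 2 = 0 := by nlinarith [sq_nonneg (1 - 2 * x * s + x ^ 2 - y ^ 2), sq_nonneg (2 * x * y - 2 * y * s)]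
  have h1' := pow_eq_zero_iff (two_ne_zero) |>.1 h1
  have h2' := pow_eq_zero_iff (two_ne_zero) |>.1 h2
  have : y * (x - s) = 0 := by linarith
  rcases mul_eq_zero.1 this with h3 | h3
  · rw [h3] at h1'; nlinarith [sq_nonneg (x - s)]
  · have : s = x := by linarith
    rw [this] at h1'; nlinarith

lemma p_pos (x y w : ℝ) (h : x ^ 2 + y ^ 2 < 1) (hw : w ^ 2 < 1) :
    0 < 1 - 2 * x * w + (x ^ 2 + y ^ 2) * w ^ 2 := by
  have h1 : x * w < 1 := by nlinarith [sq_nonneg (x - w), sq_nonneg y]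
  nlinarith [sq_nonneg (y * w), mul_pos (sub_pos.2 h1) (sub_pos.2 h1)]

lemma log_scale (φ : ℝ) (h : 0 < φ) : log (2 ^ 96 * φ) = log φ + 96 * log 2 := by
  rw [log_mul (by positivity) h.ne', log_pow]; push_cast; ring

lemma G_qt (sg : ℤ) (hsg : (sg : ℝ) ^ 2 = 1) (s : ℝ) (hs : s ^ 2 < 1) (L : List P3) (h : inD L) :
    G (L.map (qt sg)) (16777216 * s) =
      (L.map fun p => (p.1 : ℝ) * lq (p.2.1 / 4096) (p.2.2 / 4096) (sg * s)).sum + sumA L * (96 * log 2) := by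
  induction L with
  | nil => simp [G, sumA]
  | cons p L ih =>
    have ih' := ih fun q hq => h q (List.mem_cons_of_mem _ hq)
    have hp := inD_real h (List.mem_cons_self (a := p) (l := L))
    have hpos := q_pos _ _ (sg * s) hp (by rw [mul_pow, hsg, one_mul]; exact hs)
    have e : pr (qt sg p) (16777216 * s) = 2 ^ 96 * ((1 - 2 * ((p.2.1 : ℝ) / 4096) * (sg * s) + ((p.2.1 : ℝ) / 4096) ^ 2 -
        ((p.2.2 : ℝ) / 4096) ^ 2) ^ 2 + (2 * ((p.2.1 : ℝ) / 4096) * ((p.2.2 : ℝ) / 4096) - 2 * ((p.2.2 : ℝ) / 4096) * (sg * s)) ^ 2) := by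
      simp only [pr, qt]
      push_cast
      linear_combination (-(4 : ℝ) * ((p.2.1 : ℝ) ^ 2 + (p.2.2 : ℝ) ^ 2) * 2 ^ 72 * s ^ 2) * hsg
    simp only [List.map_cons, G, List.sum_cons, sumA] at ih' ⊢
    rw [ih', e, log_scale _ hpos]
    simp only [qt, lq]
    push_cast
    ring

lemma G_pt (sg : ℤ) (hsg : (sg : ℝ) ^ 2 = 1) (s : ℝ) (hs : s ^ 2 < 1) (L : List P3) (h : inD L) :
    G (L.map (pt sg)) (16777216 * s) =
      -(L.map fun p => (p.1 : ℝ) * lp (p.2.1 / 4096) (p.2.2 / 4096) (sg * s)).sum - sumA L * (96 * log 2) := by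
  induction L with
  | nil => simp [G, sumA]
  | cons p L ih =>
    have ih' := ih fun q hq => h q (List.mem_cons_of_mem _ hq)
    have hp := inD_real h (List.mem_cons_self (a := p) (l := L))
    have hpos := p_pos _ _ (sg * s) hp (by rw [mul_pow, hsg, one_mul]; exact hs)
    have e : pr (pt sg p) (16777216 * s) = 2 ^ 96 * (1 - 2 * ((p.2.1 : ℝ) / 4096) * (sg * s) + (((p.2.1 : ℝ) / 4096) ^ 2 +
        ((p.2.2 : ℝ) / 4096) ^ 2) * (sg * s) ^ 2) := by
      simp only [pr, pt]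
      push_cast
      linear_combination (-((p.2.1 : ℝ) ^ 2 + (p.2.2 : ℝ) ^ 2) * 2 ^ 72 * s ^ 2) * hsg
    simp only [List.map_cons, G, List.sum_cons, sumA] at ih' ⊢
    rw [ih', e, log_scale _ hpos]
    simp only [pt, lp]
    push_cast
    ring

lemma U_mkT (L : List P3) (h : inD L) (s : ℝ) :
    (mkT L h).U s = (L.map fun p => (p.1 : ℝ) * lq (p.2.1 / 4096) (p.2.2 / 4096) s).sum / 65536 := by
  rw [← Fin.sum_univ_fun_getElem, Finset.sum_div]
  simp only [Trial.U, mkT]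
  exact Finset.sum_congr rfl fun a _ => by ring

lemma V_mkT (L : List P3) (h : inD L) (s : ℝ) :
    (mkT L h).V s = (L.map fun p => (p.1 : ℝ) * lp (p.2.1 / 4096) (p.2.2 / 4096) s).sum / 65536 := by
  rw [← Fin.sum_univ_fun_getElem, Finset.sum_div]
  simp only [Trial.V, mkT]
  exact Finset.sum_congr rfl fun a _ => by ring

def qq (p r : P3) : ℤ :=
  tv (-(p.1 * r.1)) ((16777216 - p.2.1 * r.2.1 - p.2.2 * r.2.2) * (16777216 - p.2.1 * r.2.1 - p.2.2 * r.2.2) +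
    (p.2.2 * r.2.1 - p.2.1 * r.2.2) * (p.2.2 * r.2.1 - p.2.1 * r.2.2)) +
  tv (-(p.1 * r.1)) ((16777216 - p.2.1 * r.2.1 + p.2.2 * r.2.2) * (16777216 - p.2.1 * r.2.1 + p.2.2 * r.2.2) +
    (p.2.1 * r.2.2 + p.2.2 * r.2.1) * (p.2.1 * r.2.2 + p.2.2 * r.2.1))

def qv (L : List P3) : ℤ := (L.map fun p => (L.map fun r => qq p r).sum).sum

lemma qq_bound (p r : P3) (hp : ((p.2.1 : ℝ) / 4096) ^ 2 + ((p.2.2 : ℝ) / 4096) ^ 2 < 1)
    (hr : ((r.2.1 : ℝ) / 4096) ^ 2 + ((r.2.2 : ℝ) / 4096) ^ 2 < 1) :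
    -(2 ^ 74 * ((p.1 : ℝ) / 65536 * (r.1 / 65536) * lL (p.2.1 / 4096) (p.2.2 / 4096) (r.2.1 / 4096) (r.2.2 / 4096))) ≤
      qq p r + 2 ^ 40 * (96 * log 2) * (p.1 * r.1) := by
  set x : ℝ := p.2.1 / 4096 with hx
  set y : ℝ := p.2.2 / 4096 with hy
  set x' : ℝ := r.2.1 / 4096 with hx'
  set y' : ℝ := r.2.2 / 4096 with hy'
  have a1 : 0 < 1 - x * x' - y * y' := by nlinarith [sq_nonneg (x - x'), sq_nonneg (y - y')]
  have a2 : 0 < 1 - x * x' + y * y' := by nlinarith [sq_nonneg (x - x'), sq_nonneg (y + y')]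
  have b1 : 0 < (1 - x * x' - y * y') ^ 2 + (y * x' - x * y') ^ 2 := by positivity
  have b2 : 0 < (1 - x * x' + y * y') ^ 2 + (x * y' + y * x') ^ 2 := by positivity
  have e1 : (((16777216 - p.2.1 * r.2.1 - p.2.2 * r.2.2) * (16777216 - p.2.1 * r.2.1 - p.2.2 * r.2.2) +
      (p.2.2 * r.2.1 - p.2.1 * r.2.2) * (p.2.2 * r.2.1 - p.2.1 * r.2.2) : ℤ) : ℝ) =
      2 ^ 48 * ((1 - x * x' - y * y') ^ 2 + (y * x' - x * y') ^ 2) := by
    rw [hx, hy, hx', hy']; push_cast; ring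
  have e2 : (((16777216 - p.2.1 * r.2.1 + p.2.2 * r.2.2) * (16777216 - p.2.1 * r.2.1 + p.2.2 * r.2.2) +
      (p.2.1 * r.2.2 + p.2.2 * r.2.1) * (p.2.1 * r.2.2 + p.2.2 * r.2.1) : ℤ) : ℝ) =
      2 ^ 48 * ((1 - x * x' + y * y') ^ 2 + (x * y' + y * x') ^ 2) := by
    rw [hx, hy, hx', hy']; push_cast; ring
  have t1 := le_tv (-(p.1 * r.1)) _ (Int.cast_pos (R := ℝ) |>.1 (by rw [e1]; positivity))
  have t2 := le_tv (-(p.1 * r.1)) _ (Int.cast_pos (R := ℝ) |>.1 (by rw [e2]; positivity))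
  rw [e1, log_mul (by positivity) b1.ne', log_pow] at t1
  rw [e2, log_mul (by positivity) b2.ne', log_pow] at t2
  unfold qq lL
  rw [Int.cast_add]
  push_cast at t1 t2 ⊢
  linarith

lemma Q_mkT (L : List P3) (h : inD L) :
    -(2 ^ 74 * (mkT L h).Q) ≤ qv L + 2 ^ 40 * (96 * log 2) * (sumA L * sumA L) := by
  have hs : (sumA L : ℝ) = ∑ a : Fin L.length, (L[a.1].1 : ℝ) := by
    unfold sumA
    rw [← Fin.sum_univ_fun_getElem]; push_cast; rfl
  have hq : (qv L : ℝ) = ∑ a : Fin L.length, ∑ b : Fin L.length, (qq L[a.1] L[b.1] : ℝ) := by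
    unfold qv
    rw [← Fin.sum_univ_fun_getElem L fun p => (L.map fun r => qq p r).sum, Int.cast_sum]
    refine Finset.sum_congr rfl fun a _ => ?_
    rw [← Fin.sum_univ_fun_getElem L fun r => qq L[a.1] r, Int.cast_sum]
  rw [hs, hq, Finset.sum_mul_sum, Finset.mul_sum, ← Finset.sum_add_distrib]
  simp only [Trial.Q, mkT]
  rw [Finset.mul_sum, ← Finset.sum_neg_distrib]
  refine Finset.sum_le_sum fun a _ => ?_
  rw [Finset.mul_sum, Finset.mul_sum, ← Finset.sum_neg_distrib, ← Finset.sum_add_distrib]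
  refine Finset.sum_le_sum fun b _ => ?_
  exact qq_bound _ _ (inD_real h (List.getElem_mem a.2)) (inD_real h (List.getElem_mem b.2))

/-- terms for the `s`-inequality -/
def tsS (L : List P3) : List Tm :=
  [⟨393216, 0, 4722366482869645213696, 0⟩,
    ⟨131072, 79228162514264337593543950336, -4722366482869645213696, 0⟩] ++ L.map (qt 1)

/-- terms for the `w`-inequality, `w = sg * X/2^24` -/
def tsW (a D sg : ℤ) (L₁ L₂ : List P3) : List Tm :=
  [⟨a * 65536, 0, 4722366482869645213696, 0⟩,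
    ⟨262144, 79228162514264337593543950336, -sg * 4722366482869645213696, 0⟩,
    ⟨-D * 65536, 79228162514264337593543950336, 0, 281474976710656⟩] ++ (L₁.map (pt sg) ++ L₂.map (qt sg))

/-- the conclusion of the checker on the whole interval -/
def Bd (ts : List Tm) (C : ℤ) : Prop := ∀ x : ℝ, 0 < x → x < 16777216 → 2 ^ 40 * G ts x ≤ C

lemma bd_of (ts : List Tm) (C x0 W : ℤ) (h0 : z0 ts 0 (x0 + 1) C = true)
    (h1 : ∀ x : ℝ, (x0 : ℝ) < x → x ≤ W → 2 ^ 40 * G ts x ≤ C) (h2 : z0 ts W 16777216 C = true) : Bd ts C := by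
  intro x hx0 hx1
  rcases le_or_gt x x0 with h | h
  · exact z0_sound ts 0 (x0 + 1) x (by simpa using hx0) (by push_cast; linarith) C h0
  rcases le_or_gt x W with h' | h'
  · exact h1 x h h'
  · exact z0_sound ts W 16777216 x h' (by simpa using hx1) C h2

lemma S_of (L : List P3) (h : inD L) (C : ℤ) (hB : Bd (tsS L) C) (s : ℝ) (hs : s ∈ Set.Ioo (0 : ℝ) 1) :
    6 * log s + 2 * log (1 - s) + (mkT L h).U s ≤
      (C / 2 ^ 40 - (524288 + sumA L) * (96 * log 2)) / 65536 := by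
  have hb := hB (16777216 * s) (by linarith [hs.1]) (by linarith [hs.2])
  have hq := G_qt 1 (by norm_num) s (by nlinarith [hs.1, hs.2]) L h
  rw [tsS, G_append, hq] at hb
  have e1 : pr ⟨393216, 0, 4722366482869645213696, 0⟩ (16777216 * s) = 2 ^ 96 * s := by
    simp only [pr]; push_cast; ring
  have e2 : pr ⟨131072, 79228162514264337593543950336, -4722366482869645213696, 0⟩ (16777216 * s) = 2 ^ 96 * (1 - s) := by
    simp only [pr]; push_cast; ring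
  simp only [G, e1, e2, log_scale _ hs.1, log_scale _ (sub_pos.2 hs.2)] at hb
  rw [U_mkT]
  push_cast at hb
  simp only [one_mul] at hb
  rw [le_div_iff₀ (by norm_num), le_sub_iff_add_le, le_div_iff₀ (by norm_num)]
  linarith

lemma W_of (a D sg : ℤ) (hsg : sg = 1 ∨ sg = -1) (L₁ L₂ : List P3) (h₁ : inD L₁) (h₂ : inD L₂) (C : ℤ)
    (hB : Bd (tsW a D sg L₁ L₂) C) (v : ℝ) (hv0 : 0 < v) (hv1 : v < 1) :
    a * log |sg * v| + 4 * log (1 - sg * v) - D * log (1 + (sg * v) ^ 2) - (mkT L₁ h₁).V (sg * v) +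
      (mkT L₂ h₂).U (sg * v) ≤
      (C / 2 ^ 40 - ((a + 4 - D) * 65536 - sumA L₁ + sumA L₂) * (96 * log 2)) / 65536 := by
  have hsg2 : (sg : ℝ) ^ 2 = 1 := by rcases hsg with h | h <;> simp [h]
  have habs : |(sg : ℝ) * v| = v := by rcases hsg with h | h <;> simp [h, abs_of_pos hv0]
  have hlt : 0 < 1 - (sg : ℝ) * v := by rcases hsg with h | h <;> simp [h] <;> linarith
  have hb := hB (16777216 * v) (by linarith) (by linarith)
  have hq := G_qt sg hsg2 v (by nlinarith) L₂ h₂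
  have hp := G_pt sg hsg2 v (by nlinarith) L₁ h₁
  rw [tsW, G_append, G_append, hq, hp] at hb
  have e1 : pr ⟨a * 65536, 0, 4722366482869645213696, 0⟩ (16777216 * v) = 2 ^ 96 * v := by
    simp only [pr]; push_cast; ring
  have e2 : pr ⟨262144, 79228162514264337593543950336, -sg * 4722366482869645213696, 0⟩ (16777216 * v) =
      2 ^ 96 * (1 - sg * v) := by
    simp only [pr]; push_cast; ring
  have e3 : pr ⟨-D * 65536, 79228162514264337593543950336, 0, 281474976710656⟩ (16777216 * v) =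
      2 ^ 96 * (1 + (sg * v) ^ 2) := by
    simp only [pr]; push_cast; rw [mul_pow, hsg2]; ring
  simp only [G, e1, e2, e3, log_scale _ hv0, log_scale _ hlt,
    log_scale _ (show 0 < 1 + ((sg : ℝ) * v) ^ 2 by positivity)] at hb
  rw [U_mkT, V_mkT, habs]
  push_cast at hb
  rw [le_div_iff₀ (by norm_num), le_sub_iff_add_le, le_div_iff₀ (by norm_num)]
  linarith

theorem cert_of (a D e : ℤ) (L₁ L₂ : List P3) (h₁ : inD L₁) (h₂ : inD L₂) (Cs Cp Cm : ℤ) (c₁ c₂ : ℝ)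
    (hS : Bd (tsS L₁) Cs) (hP : Bd (tsW a D 1 L₁ L₂) Cp) (hM : Bd (tsW a D (-1) L₁ L₂) Cm)
    (n1 : (Cs / 2 ^ 40 - (524288 + sumA L₁) * (96 * log 2)) / 65536 ≤ c₁)
    (n2 : (Cp / 2 ^ 40 - ((a + 4 - D) * 65536 - sumA L₁ + sumA L₂) * (96 * log 2)) / 65536 ≤ c₂)
    (n3 : (Cm / 2 ^ 40 - ((a + 4 - D) * 65536 - sumA L₁ + sumA L₂) * (96 * log 2)) / 65536 ≤ c₂)
    (n4 : e * log 2 + 36 * (c₁ + c₂) + (qv L₁ + 2 ^ 40 * (96 * log 2) * (sumA L₁ * sumA L₁)) / 2 ^ 73 +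
      (qv L₂ + 2 ^ 40 * (96 * log 2) * (sumA L₂ * sumA L₂)) / 2 ^ 73 ≤ -2505) :
    Cert a D e := by
  refine ⟨mkT L₁ h₁, mkT L₂ h₂, c₁, c₂, fun s hs => (S_of L₁ h₁ Cs hS s hs).trans n1, fun w hw hw0 => ?_, ?_⟩
  · rcases lt_or_gt_of_ne hw0 with h | h
    · have := W_of a D (-1) (Or.inr rfl) L₁ L₂ h₁ h₂ Cm hM (-w) (by linarith) (by linarith [hw.1])
      have e : ((-1 : ℤ) : ℝ) * -w = w := by simp
      rw [e] at this
      exact this.trans n3
    · have := W_of a D 1 (Or.inl rfl) L₁ L₂ h₁ h₂ Cp hP w h hw.2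
      have e : ((1 : ℤ) : ℝ) * w = w := by simp
      rw [e] at this
      exact this.trans n2
  · have q1 := Q_mkT L₁ h₁
    have q2 := Q_mkT L₂ h₂
    generalize (qv L₁ + 2 ^ 40 * (96 * log 2) * (sumA L₁ * sumA L₁) : ℝ) = A at *
    generalize (qv L₂ + 2 ^ 40 * (96 * log 2) * (sumA L₂ * sumA L₂) : ℝ) = B at *
    linarith

end Crest.Agent.R6.Chk
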