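import Crest.Agent.R6.CertAux

set_option autoImplicit false

namespace Crest.Agent.R6.Chk

def good1 : List P3 := [(2004162, 47, 3985), (6246367, 616, 1734), (-724574, 1451, 1990), (-420139, 4053, 0), (-2822285, -317, 3552), (-625799, 81, 3997), (880129, -464, 3690), (291735, -2421, 2014), (4183736, 869, 0), (-329607, 1184, 2654), (1872981, -13, 3488), (-1227148, 10, 3996), (201036, -3171, 1285), (41868, -3770, 735), (354532, 4049, 0), (-26835, -4047, 0)]

def good2 : List P3 := [(3223045, 133, 1634), (-2650245, -1727, 0), (1783655, -17, 3659), (-3375333, -12, 3786), (-133876, 3688, 0), (-64416, 3933, 379), (1200019, -12, 3890), (1102950, -2289, 570)]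

def bad1 : List P3 := [(816302, 380, 3424), (4083252, 1058, 1241)]

def bad2 : List P3 := [(3172127, 753, 2413), (1075570, -941, 2987)]

end Crest.Agent.R6.Chk
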