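import Mathlib

/-!
# Row 6 (S0006, Catalan's constant is irrational): definitions and sub-task statements

Plan.  Suppose `G = catalan` is rational.  `Dl N G` is a `36N × 36N` determinant of rational numbers
(`entry`), each of which is a double integral (`RealId`).  Real side: `|Dl N G| ≤ exp(-2505 N² + O(N log N))`
(`RealBd`).  Arithmetic side: `Dl p G ≠ 0` for large primes `p` (`NonVan`), and
`∏_q ‖Dl N G‖_q ≤ exp((1057/8 · log 2 + 2413 + o(1)) N²)` (`TwoAdic`, `Crude`, `LevelB`, `LevelC`, `PrimeSum`);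
`1057/8 · log 2 + 2413 < 2504.6`.  All formulas below were checked numerically.
Every sub-task is a `Prop`; prove it as `theorem name (hyps) : TheProp` in your own file
`Crest/Agent/R6/<Name>.lean` importing only `Crest.Agent.R6.Defs` (put auxiliary lemmas in a
sub-namespace of your own, e.g. `Crest.Agent.R6.PickAux`).
-/

set_option autoImplicit false

open Finset Polynomial Filter Topology MeasureTheory

namespace Crest.Agent.R6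

noncomputable section

/-! ## 1. The tables -/

/-- `B_k = C(2k,k)/4^k`; `∑ B_k t^(2k) = 1/√(1-t²)`. -/
def Bk (k : ℕ) : ℚ := (Nat.centralBinom k : ℚ) / 4 ^ k

/-- `mt k = ∫_{-1}^{1} sgn(t) t^k dt/√(1-t²)`. -/
def mt (k : ℕ) : ℚ := if k % 2 = 1 then 2 / ((k : ℚ) * Bk (k / 2)) else 0

/-- `thp i = Mr i 0` -/
def thp : ℕ → ℚ
  | 0 => 0
  | 1 => 2
  | i + 2 => ((i : ℚ) + 1) / ((i : ℚ) + 2) * thp i + 2 / ((i : ℚ) + 2) ^ 2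

/-- `thm j = Mr 0 j` -/
def thm : ℕ → ℚ
  | 0 => 0
  | 1 => 0
  | j + 2 => ((j : ℚ) * thm j + mt j + mt (j + 1)) / ((j : ℚ) + 1)

/-- rational part of `∑_n mt (n+j)/(n+i+1)` -/
def Mr : ℕ → ℕ → ℚ
  | i, 0 => thp i
  | 0, j + 1 => thm (j + 1)
  | i + 1, j + 1 => Mr i j - mt j / ((i : ℚ) + 1)

/-- rational part of `∑_n 1/((n+i+1)(n+j+1))` -/
def Zr : ℕ → ℕ → ℚ
  | i, 0 => harmonic i / (i : ℚ)
  | 0, j + 1 => harmonic (j + 1) / ((j : ℚ) + 1)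
  | i + 1, j + 1 => Zr i j - 1 / (((i : ℚ) + 1) * ((j : ℚ) + 1))

/-- coefficient of `4G` in `∑_n mt (n+j)/(n+i+1)` -/
def gam (i j : ℕ) : ℚ := if i < j ∧ (j - 1 - i) % 2 = 0 then Bk ((j - 1 - i) / 2) else 0

/-- coefficient of `π²/4` in `∑_n mt (n+j)/(n+i+1)`; also `[t^i] (t^j /√(1-t²))` -/
def pii (i j : ℕ) : ℚ := if j ≤ i ∧ (i - j) % 2 = 0 then Bk ((i - j) / 2) else 0

/-- Toeplitz part of `Mr` -/
def Th (i j : ℕ) : ℚ := if j ≤ i then thp (i - j) else thm (j - i)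

/-- Toeplitz part of `Zr` -/
def Tz (i j : ℕ) : ℚ := harmonic (Nat.dist i j) / (Nat.dist i j : ℚ)

/-! ## 2. Rows, columns, the determinant -/

/-- `(1+ρ)^u = ee u + oo u * ρ` when `ρ² = 1 - t²` -/
def ee : ℕ → ℤ[X]
  | 0 => 1
  | 1 => 1
  | u + 2 => 2 * ee (u + 1) - X ^ 2 * ee u

def oo : ℕ → ℤ[X]
  | 0 => 0
  | 1 => 1
  | u + 2 => 2 * oo (u + 1) - X ^ 2 * oo u

/-- `cE + cO * r = t^(47N) w^(l-3N)`, `cE - cO * r = t^(47N) w^(3N-l)`, where `w = (1-r)/t = t/(1+r)` -/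
def cE (N l : ℕ) : ℤ[X] := X ^ (47 * N - Nat.dist l (3 * N)) * ee (Nat.dist l (3 * N))

def cO (N l : ℕ) : ℤ[X] :=
  (if 3 * N ≤ l then -1 else 1) * (X ^ (47 * N - Nat.dist l (3 * N)) * oo (Nat.dist l (3 * N)))

def colE (N l : ℕ) : ℤ[X] := (1 - X) ^ (2 * N) * cE N l

def colO (N l : ℕ) : ℤ[X] := (1 - X) ^ (2 * N) * cO N l

def rowP (N k : ℕ) : ℤ[X] := X ^ (6 * N + k) * (1 - X) ^ (2 * N)

/-- the pairing of `s^i` with column `l` -/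
def Bi (N : ℕ) (G : ℚ) (i l : ℕ) : ℚ :=
  ∑ j ∈ range (49 * N + 1), (((colE N l).coeff j : ℚ) * (Mr i j + 4 * G * gam i j) +
    3 / 2 * ((colO N l).coeff j : ℚ) * Zr i j)

def entry (N : ℕ) (G : ℚ) (k l : ℕ) : ℚ :=
  ∑ i ∈ range (44 * N), ((rowP N k).coeff i : ℚ) * Bi N G i l

/-- the determinant -/
def Dl (N : ℕ) (G : ℚ) : ℚ :=
  (Matrix.of fun k l : Fin (36 * N) => entry N G k l).det

/-! ## 3. Basic facts -/

/-- **REC** (easy inductions; third item by induction along diagonals `(i,j) → (i+1,j+1)`, base cases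
`i = 0` (definition of `thm`), `j = 0` (`Mr (i+2) 2 = thp i - 2/(i+2)`). -/
def Rec : Prop :=
  (∀ k : ℕ, (2 * (k : ℚ) + 2) * Bk (k + 1) = (2 * (k : ℚ) + 1) * Bk k) ∧
  (∀ k : ℕ, ((k : ℚ) + 2) * mt (k + 2) = ((k : ℚ) + 1) * mt k) ∧
  (∀ i j : ℕ, ((j : ℚ) + 1 - i) * Mr i (j + 2) = ((j : ℚ) - i) * Mr i j + mt j + mt (j + 1)) ∧
  (∀ i j : ℕ, Mr i j = Th i j - ∑ a ∈ Icc 1 (min i j), mt (j - a) / ((i + 1 - a : ℕ) : ℚ)) ∧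
  (∀ i j : ℕ, Zr i j =
    Tz i j - ∑ a ∈ Icc 1 (min i j), 1 / (((i + 1 - a : ℕ) : ℚ) * ((j + 1 - a : ℕ) : ℚ))) ∧
  (∀ a : ℕ, thp (2 * a) = Bk a * ∑ l ∈ range a, mt (2 * l + 1) / (2 * (l : ℚ) + 2)) ∧
  (∀ a : ℕ, thp (2 * a + 1) = mt (2 * a + 1) * ∑ l ∈ range (a + 1), Bk l / (2 * (l : ℚ) + 1)) ∧
  (∀ a : ℕ, thm (2 * a + 1) = Bk a / 2 * ∑ l ∈ range a, mt (2 * l + 1) ^ 2) ∧
  (∀ a : ℕ, thm (2 * a + 2) = mt (2 * a + 1) * ∑ l ∈ range (a + 1), 1 / (2 * (l : ℚ) + 1))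

/-- **COL**.  (1) two-step induction (`x = 1+ρ` satisfies `x² = 2x - t²`); use it with `-ρ` too.
(2) two-step induction.  (3),(4) degrees: `deg ee u ≤ u`, `deg oo u < u`; `dist l (3N) ≤ 33N - 1`.
(5),(6): in `ℚ⟦X⟧` let `S = mk (fun i => pii i 0)`; then `S² (1 - X²) = 1` (e.g. `S` solves
`(1-X²) S' = X S`, so `(S²(1-X²))' = 0`), `ρ = (1-X²) S` has `ρ² = 1 - X²`, `(1-ρ)(1+ρ) = X²` with `1+ρ` a
unit, so `X² ∣ 1-ρ`, and `cE * S + cO = S * (cE + cO ρ)` is `S X^(47N-u) (1-ρ)^u` (`l = 3N+u`) or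
`S X^(47N-u) (1+ρ)^u` (`l = 3N-u`), divisible by `X^(44N)`. -/
def Col : Prop :=
  (∀ (R : Type) [CommRing R] (t ρ : R), ρ ^ 2 = 1 - t ^ 2 → ∀ u : ℕ,
    (1 + ρ) ^ u = aeval t (ee u) + aeval t (oo u) * ρ) ∧
  (∀ u j : ℕ, (2 : ℤ) ^ (u - 1 - j) ∣ (ee u).coeff j ∧ (2 : ℤ) ^ (u - 1 - j) ∣ (oo u).coeff j) ∧
  (∀ N l j : ℕ, 1 ≤ N → l < 36 * N →
    ((j ≤ 14 * N ∨ 47 * N < j) → (cE N l).coeff j = 0) ∧
    ((j ≤ 14 * N ∨ 47 * N ≤ j) → (cO N l).coeff j = 0) ∧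
    ((j ≤ 14 * N ∨ 49 * N < j) → (colE N l).coeff j = 0) ∧
    ((j ≤ 14 * N ∨ 49 * N ≤ j) → (colO N l).coeff j = 0)) ∧
  (∀ N k i : ℕ, k < 36 * N → (i < 6 * N + k ∨ 44 * N ≤ i) → (rowP N k).coeff i = 0) ∧
  (∀ N l i : ℕ, 1 ≤ N → l < 36 * N → i < 44 * N →
    ∑ j ∈ range (47 * N + 1), ((cE N l).coeff j : ℚ) * pii i j + ((cO N l).coeff i : ℚ) = 0) ∧
  (∀ N l i : ℕ, 1 ≤ N → l < 36 * N → i < 44 * N →
    ∑ j ∈ range (49 * N + 1), ((colE N l).coeff j : ℚ) * pii i j + ((colO N l).coeff i : ℚ) = 0)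

/-- **DET**: `p`-adic determinant bounds.  (1) Cauchy–Binet by multilinearity:
`det (α β) = ∑_{κ : Fin n → ι} (∏ k, α k (κ k)) * det (β ∘ κ)`, non-injective `κ` give `0`; `padicNorm` is
non-archimedean.  (2) `det (R + α β) = det (fromBlocks R α (-β) 1)` (`Matrix.det_fromBlocks_one₂₂`); multiply the
lower rows by `p^(e i)` to get a matrix with entries of norm `≤ 1` (or deduce it from (1)). -/
def Det : Prop :=
  (∀ (p : ℕ) [Fact p.Prime] (n : ℕ) (ι : Type) [Fintype ι] [DecidableEq ι]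
    (α : Matrix (Fin n) ι ℚ) (β : Matrix ι (Fin n) ℚ) (a : Fin n → ι → ℚ) (b : ι → ℚ) (c : ℚ), 0 ≤ c →
    (∀ k i, padicNorm p (α k i) ≤ a k i) → (∀ i l, padicNorm p (β i l) ≤ b i) →
    (∀ κ : Fin n → ι, Function.Injective κ → ∏ k, (a k (κ k) * b (κ k)) ≤ c) →
    padicNorm p (α * β).det ≤ c) ∧
  (∀ (p : ℕ) [Fact p.Prime] (n : ℕ) (ι : Type) [Fintype ι] [DecidableEq ι]
    (R : Matrix (Fin n) (Fin n) ℚ) (α : Matrix (Fin n) ι ℚ) (β : Matrix ι (Fin n) ℚ) (e : ι → ℕ),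
    (∀ k l, padicNorm p (R k l) ≤ 1) → (∀ k i, padicNorm p (α k i) ≤ 1) →
    (∀ i l, padicNorm p (β i l) ≤ (p : ℚ) ^ e i) →
    padicNorm p (R + α * β).det ≤ (p : ℚ) ^ (∑ i, e i))

/-- **VAL**: valuations at an odd prime (use the closed forms in `Rec`).
`mt (2l+1) = 2 ∑_k (-1)^k C(l,k)/(2k+1)` (`= 2∫_0^1 (1-r²)^l dr`; or use Kummer/Legendre) gives (2).
(6): for `k = 2a+2 ≤ 2p`: `thm k - mt (k-1)/p = mt(2a+1) (∑_{l ≤ a} 1/(2l+1) - 1/p)`, the bracket is `p`-integral if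
`p ≤ 2a+1`, and otherwise `mt (2a+1)` is; for `k = 2a+1 ≤ 2p`: `mt (k-1) = 0`; if `2a ≤ p-1` everything is
integral, otherwise `p ∣ centralBinom a` (`p/2 < a < p`). -/
def Val : Prop :=
  ∀ (p : ℕ) [Fact p.Prime], p ≠ 2 →
    (∀ k, padicNorm p (Bk k) ≤ 1) ∧
    (∀ k, padicNorm p (mt k) ≤ (p : ℚ) ^ Nat.log p k) ∧
    (∀ i j D, i ≤ D → j ≤ D → padicNorm p (Th i j) ≤ (p : ℚ) ^ (2 * Nat.log p D) ∧
      padicNorm p (Tz i j) ≤ (p : ℚ) ^ (2 * Nat.log p D) ∧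
      padicNorm p (Mr i j) ≤ (p : ℚ) ^ (2 * Nat.log p D) ∧
      padicNorm p (Zr i j) ≤ (p : ℚ) ^ (2 * Nat.log p D)) ∧
    (∀ i, i < p → padicNorm p (thp i) ≤ 1) ∧
    (∀ k, k ≤ p → padicNorm p (thm k) ≤ 1) ∧
    (∀ k, 1 ≤ k → k ≤ 2 * p → padicNorm p (thm k - mt (k - 1) / p) ≤ p) ∧
    (∀ k : ℕ, k < p → padicNorm p (harmonic k / (k : ℚ)) ≤ 1) ∧
    (∀ k : ℕ, 1 ≤ k → k < 2 * p → padicNorm p (harmonic k / (k : ℚ) - 1 / ((p : ℚ) * k)) ≤ p)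

/-! ## 4. Arithmetic bounds for the determinant -/

/-- **CRUDE** (from `Val`; every entry has norm `≤ p^(2 log) * max 1 ‖G‖`). -/
def Crude : Prop :=
  ∀ (p : ℕ) [Fact p.Prime], p ≠ 2 → ∀ (N : ℕ) (G : ℚ),
    padicNorm p (Dl N G) ≤ ((p : ℚ) ^ (2 * Nat.log p (49 * N)) * max 1 (padicNorm p G)) ^ (36 * N)

/-- **LEVELB** (from `Rec`, `Col`, `Det`, `Val`).  With `E = colE N l`, `O = colO N l` put
`T i = ∑_j (E_j Th i j + 3/2 O_j Tz i j)`, `μ a = ∑_{j ≥ a} (E_j mt (j-a) + 3/2 O_j/(j+1-a))`; by `Rec`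
`Bi i = T i - ∑_{a=1}^{i} μ a/(i+1-a) + (integral G-term)`.  `‖μ a‖ ≤ p`, `‖Bi i‖ ≤ p²` (`49N < p²`).
For `max (6N) (49N-2p) ≤ r ≤ 14N`: `‖T r - μ (r+1)/p‖ ≤ p` (only `j > 14N ≥ r`, `j - r ≤ 2p` occur) and `T (r+p)` is
integral, hence `‖Bi r + Bi (r+p)‖ ≤ p`.  Write `f_r Bi r + f_(r+p) Bi (r+p) = (f_r - f_(r+p)) Bi r + f_(r+p) (Bi r + Bi (r+p))`
and apply `Det.2` to `p • matrix` with `ι = {i ∈ [6N,44N)} \ {r+p}` (all `e i = 1`):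
exponent `36N + 38N - (14N + 1 - max ..)`. -/
def LevelB : Prop :=
  ∀ (p : ℕ) [Fact p.Prime] (N : ℕ) (G : ℚ), 1 ≤ N → 14 * N < p → p ≤ 29 * N → padicNorm p G ≤ 1 →
    padicNorm p (Dl N G) ≤ (p : ℚ) ^ (60 * N + max (6 * N) (49 * N - 2 * p))

/-- **LEVELC** (from `Rec`, `Col`, `Det`, `Val`).  Notation as in `LevelB`; `entry = ∑_i f_i T i - ∑_{a ≥ 1} φ a μ a + integral`,
`φ a = ∑_{i ≥ a} f_i/(i+1-a)`.  For `a > 49N - p` both `φ a`, `μ a` are integral; for `49N - p ≤ i < p`, `T i` is integral.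
For each class `r < 49N - p` put `μ = μ (r+1)` (norm `≤ p`), `x = f_r`, `y = f_(r+p)`, `φ (r+1) = y/p + φ'` (`φ'` integral),
`T r = (μ + τ)/p` (`τ` integral), `T' = T (r+p)` (norm `≤ p²`, integral if `r ≤ 14N`); `x = 0` if `r < 6N`,
`y = 0` if `r + p ≥ 44N`.  The class contributes `x(μ+τ)/p - (y/p+φ')μ + y T'`, which is, up to integral terms,
* `r < 6N`, `r+p ≥ 44N`: `(-φ') μ`, weight 1;
* `r ≤ 14N`, `r+p < 44N`: `(x - y - pφ') (μ/p) + x (τ/p)`, weights 2 and `[6N ≤ r]`;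
* otherwise (`r ≥ 6N`): `(x - pφ') ((μ+τ)/p) + y (T' - μ/p)`, weights 2 and `2 [r+p < 44N]`.
Apply `Det.2` with `ι = Fin (49N-p) × Bool`. -/
def LevelC : Prop :=
  ∀ (p : ℕ) [Fact p.Prime] (N : ℕ) (G : ℚ), 1 ≤ N → 49 * N ≤ 2 * p → padicNorm p G ≤ 1 →
    padicNorm p (Dl N G) ≤ (p : ℚ) ^ ((49 * N - p) + (44 * N - p) + (43 * N - p) + (30 * N - p))

/-- **TWOA** (from `Rec`): 2-adic splitting of the table.  Take `L = 4D`, `S i j = ∑_{k ∈ Icc j L} mt k/(k+i-j+1)`;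
`‖mt k‖₂ ≤ k/2^k` (`Nat.factorization_choose_le_log`), so `‖S i j‖ ≤ poly(D)/2^j`.  `δ i j = Mr i j - S i j` is constant along
diagonals, `δ = δ(u)`, `u = i - j`, and `(1-u) δ(u-2) + u δ(u) = β(u)` with `‖β‖ ≤ poly(D)/2^L` (by `Rec.3` and the telescoping
`((1-u) mt (k+2) + u mt k)/(k+u+1) = mt k - mt (k+2)`).  So `δ(u)` is tiny for `u = -2,-4,…` and `u = 1,3,…`, and
`δ(-1-2a) = B_a δ(-1) + tiny`, `δ(2a) = B_a δ(0) + tiny` (divide by `B_a` to telescope); `c₁ = δ(-1) = -S 0 1`, `c₂ = δ(0) = -S 0 0`. -/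
def TwoA : Prop :=
  ∃ C : ℕ, ∀ D : ℕ, ∃ c₁ c₂ : ℚ, padicNorm 2 c₁ ≤ ((D : ℚ) + 2) ^ C ∧ padicNorm 2 c₂ ≤ ((D : ℚ) + 2) ^ C ∧
    ∀ i j, i ≤ D → j ≤ D → padicNorm 2 (Zr i j) ≤ ((D : ℚ) + 2) ^ C ∧
      padicNorm 2 (Mr i j - c₁ * gam i j - c₂ * pii i j) ≤ ((D : ℚ) + 2) ^ C / 2 ^ j

/-- **TWOB** (from `Col`, `Det`, `TwoA`).  `D = 49N`, `P = (D+2)^C · max 1 ‖G‖ · 4`.  With `E' = cE`, `O' = cO`, `ω = (1-X)^(2N)`:
`entry k l = ∑_{j ≤ 47N} g k j E'_j + ∑_{j < 47N} z k j O'_j + ρ k l`, where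
`g k j = (4G + c₁) ∑_i f_i ∑_a ω_a gam i (j+a)` has norm `≤ P 2^(j + 2N - 1 - (6N+k))` (or is 0),
`z k j = ∑_i f_i ∑_a ω_a (3/2 Zr i (j+a) - c₂ [i = j+a])` (uses `Col.6`) has norm `≤ P`, `‖E'_j‖,‖O'_j‖ ≤ 2^(j+1-47N)` (`Col.2`),
`‖ρ‖ ≤ 2P/2^(47N)`.  `Det.1` with `ι = Fin (47N+1) ⊕ Fin (47N) ⊕ Fin (36N)`; 2-adic valuations of the three kinds of
terms for row `k`: `2j' + k - 43N` (`j' = 47N - j`), `j'' = 47N-1-j`, `47N`, each up to `log₂ (2P)`.  For an injective `κ`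
with `a`, `z`, `r` rows of each kind the sum is `≥ 3a(a-1)/2 - 43N a + z(z-1)/2 + 47N r ≥ 3a²/2 - 43Na + (36N-a)²/2 - O(N)
≥ (36N)²/2 - (79N)²/8 - O(N)`. -/
def TwoAdic : Prop :=
  ∀ G : ℚ, ∃ c : ℝ, ∀ N : ℕ, 1 ≤ N →
    ((padicNorm 2 (Dl N G) : ℚ) : ℝ) ≤
      Real.exp (1057 / 8 * Real.log 2 * (N : ℝ) ^ 2 + c * N * Real.log (N + 1))

/-! ## 5. Non-vanishing -/

/-- **CARTIER** (from `Rec`, `Val`).  Write `≡` for "difference has norm `< 1`", `m = (p-1)/2`, `ε = (-1)^m`, `R = (1-X²)^m`.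
Facts: `Bk σ ≡ (-1)^σ C(m,σ) = R_(2σ)` for `σ ≤ m`; `R_(p-1-ρ) = ε R_ρ`; `∑_{σ ≤ m} C(m,σ)² = C(p-1,m) ≡ ε`.
By the recurrences of `Rec` and induction on `l₁ ≤ K`: `Bk (l₀ + p l₁) ≡ Bk l₀ Bk l₁` (`l₀ < p`; both sides `≡ 0` if `l₀ > m`),
`p mt (2l+1) ≡ ε Bk σ mt (2 l₁ + 1)` for `l = m + σ + p l₁`, `σ ≤ m`, and `≡ 0` for `l = l₀ + p l₁`, `l₀ < m`
(`Bk (l+1) = 1/((l+1) mt (2l+1))`).  The four closed forms give the claim for `i = 0` and for `j = 0`; then induct along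
diagonals with `Mr (i+1) (j+1) = Mr i j - mt j/(i+1)`: both sides change only when `p ∣ i+1`.
(Only `c = (j + (i₀ - j) mod p - i₀)/p` contributes to the sum.) -/
def Cartier : Prop :=
  ∀ (p : ℕ) [Fact p.Prime] (K : ℕ), 2 * K + 3 ≤ p → ∀ i₀ i₁ j : ℕ, i₀ < p → i₁ ≤ K → j ≤ p * K →
    padicNorm p ((p : ℚ) ^ 2 * Mr (i₀ + p * i₁) j - ∑ c ∈ range (K + 1),
      (((X ^ j * (1 - X ^ 2) ^ ((p - 1) / 2) : ℤ[X]).coeff (i₀ + p * c) : ℤ) : ℚ) * Mr i₁ c) < 1 ∧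
    padicNorm p ((p : ℚ) ^ 2 * Zr (i₀ + p * i₁) j - if j % p = i₀ then Zr i₁ (j / p) else 0) < 1

def cf : ℕ → ℚ := fun a => if a = 1 then -2 else 1

def Mq (i j : ℕ) : ℚ := ∑ a ∈ range 3, ∑ b ∈ range 3, cf a * cf b * Mr (i + a) (j + b)

def Zq (i j : ℕ) : ℚ := ∑ a ∈ range 3, ∑ b ∈ range 3, cf a * cf b * Zr (i + a) (j + b)

/-- the fixed `36 × 37` matrix: unknown `m < 34` is the coefficient of `u^(14+m)` in `E`, unknown `m ≥ 34` the coefficient of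
`u^(10+m)` in `O`; the coefficients of `u^a`, `14 ≤ a < 44`, in `O` are `-∑_j E_j pii a j`. -/
def Cent (k m : ℕ) : ℚ :=
  if m < 34 then Mq (6 + k) (14 + m) - 3 / 2 * ∑ a ∈ Ico 14 44, pii a (14 + m) * Zq (6 + k) a
  else 3 / 2 * Zq (6 + k) (10 + m)

/-- the three extra functionals: `E_14`, `E(1)`, `E(-1)` -/
def lam (e : Fin 3) (m : ℕ) : ℚ :=
  if e = 0 then (if m = 0 then 1 else 0) else if m < 34 then (if e = 1 then 1 else (-1) ^ m) else 0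

def Cfull (e : Fin 3) : Matrix (Fin 37) (Fin 37) ℚ :=
  Matrix.of fun k m => if (k : ℕ) < 36 then Cent k m else lam e m

/-- **NVCERT**: kernel computation.  All entries are `101`-integral; the determinants are `1, 15, 36` mod `101`
(`27,16,23` mod 53).  Reduce the tables mod `ℓ` along the recurrences, give the inverse matrices mod `ℓ`, check
`Y * C = 1` with `decide +kernel` on lists of naturals. -/
def NVCert : Prop := ∀ e : Fin 3, (Cfull e).det ≠ 0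

/-- **NONVAN** (from `Col`, `Val`, `Cartier`, `NVCert`).  `N = p` large, not dividing `G.den` nor numerators/denominators of the three
determinants.  Reduce `p² • matrix` mod `p` (`F = ZMod p`; `(q : ZMod p)` is additive and multiplicative on `p`-integral
rationals) and let `x` be a kernel vector, `E' = ∑ x_l cE p l`, `O' = ∑ x_l cO p l` in `F[X]`.  `(1-X)^(2p) = (1 - X^p)²`.
For `r < p` let `sec r f = ∑_c f_(r+pc) u^c`, `Ẽ_r = sec r (E' R)`, `Õ_r = sec r O'` (`deg ≤ 47`, `≤ 46`; `u^14` divides both,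
`u^15` if `r = 0`).  In `F⟦X⟧`, `S = ∑ B_k X^(2k)` satisfies `S = R · S(X^p)` up to the precision needed (`S² (1-X²) = 1`, `S^p = S(X^p)`),
`E' S + O' = O(X^(44p))` (`Col.5`), so `Ẽ_r S + Õ_r = O(u^44)`.  `Cartier` (K = 49) for the rows `k = r + p k₁` gives `Cent · y_r = 0` for the
vector `y_r` of unknowns of `(Ẽ_r, Õ_r)`.  `e = 0`: `y_0 = 0` and `y_r = c_r y*` for `r ≥ 1`; `e = 1,2`: `Ẽ*(±1) ≠ 0` unless all vanish.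
`E' R = ∑_r X^r Ẽ_r(X^p)` and `X^p ∓ 1 = (X ∓ 1)^p` give `(X ∓ 1)^((p-1)/2) ∣ ∑_{1 ≤ r < p} c_r X^r`, of degree `< p`
and divisible by `X`, so `c = 0`, `E' = O' = 0`.  Finally `cE l + cO l ρ = X^(44p) η^(3p) (X/η)^l` in `F⟦X⟧`
(`ρ = (1-X²) S`, `η = 1+ρ` a unit, `Col.1`) gives `x = 0`. -/
def NonVan : Prop := ∀ G : ℚ, ∃ p₀ : ℕ, ∀ p : ℕ, p.Prime → p₀ ≤ p → Dl p G ≠ 0

/-! ## 6. Primes -/

/-- **PNT**: the prime number theorem (Newman's proof / Wiener–Ikehara; Mathlib has `riemannZeta_ne_zero_of_one_le_re`,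
`ArithmeticFunction.LSeries_vonMangoldt_eq_deriv_riemannZeta_div`, Chebyshev bounds and `ψ - θ = O(√x log x)`). -/
def PNT : Prop := Tendsto (fun x : ℝ => Chebyshev.theta x / x) atTop (𝓝 1)

/-- the exponent used at the prime `p` -/
def Fex (N p : ℕ) : ℕ :=
  if 2 * p < 37 * N then 72 * N else if p < 25 * N then 60 * N + max (6 * N) (49 * N - 2 * p)
  else (49 * N - p) + (44 * N - p) + (43 * N - p) + (30 * N - p)

/-- **PRIMESUM** (from `PNT`).  `Ψ x = ∑_{p ≤ x} (x - p) log p = ∫_0^x θ`, `Ψ x / x² → 1/2`, and with `h c = (cN - p)₊`,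
`Fex = h 49 + h 44 + h 43 + h 30 - 4 h 25 + 2 h (43/2) - 2 h (37/2)`; half the weighted sum of squares is `2413`. -/
def PrimeSum : Prop :=
  Tendsto (fun N : ℕ => (∑ p ∈ (range (49 * N + 1)).filter Nat.Prime, (Fex N p : ℝ) * Real.log p) / (N : ℝ) ^ 2)
    atTop (𝓝 2413)

/-! ## 7. The real side -/

def catalan : ℝ := ∑' j : ℕ, (-1 : ℝ) ^ j / ((2 * j + 1 : ℝ) ^ 2)

/-- `t = 2w/(1+w²)`; `r = (1-w²)/(1+w²)`, `dt/r = 2dw/(1+w²)`, `1 - s t = (1 - 2sw + w²)/(1+w²)` -/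
def tt (w : ℝ) : ℝ := 2 * w / (1 + w ^ 2)

/-- **MOM**: moments.  (1) `k → k+2` by the fundamental theorem of calculus for `t^(k+1) r`; (2) antiderivative `t^(k+1)/(k+1)`;
(3) `mt (2l+1)² (l+1)` is decreasing. -/
def Mom : Prop :=
  (∀ k : ℕ, ∫ w in (0 : ℝ)..1, tt w ^ (2 * k + 1) * (4 / (1 + w ^ 2)) = (mt (2 * k + 1) : ℝ)) ∧
  (∀ k : ℕ, ∫ w in (0 : ℝ)..1, tt w ^ k * ((1 - w ^ 2) / (1 + w ^ 2)) * (2 / (1 + w ^ 2)) = 1 / ((k : ℝ) + 1)) ∧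
  (∀ k : ℕ, 0 ≤ (mt k : ℝ) ∧ (mt k : ℝ) ≤ 3 / Real.sqrt (k + 1))

/-- **SERVAL** (from `Mom`): `∑_l t^(2l+1)/(2l+1) = log((1+w)/(1-w))`, `∫_0^1 4 log((1+w)/(1-w))/(1+w²) dw = -4∫_0^1 log y/(1+y²) dy = 4G`
(`y = (1-w)/(1+w)`); `∑_l t^(2l+1)/(2l+2) = -log(1-t²)/(2t)`, giving `2∫_0^1 log((1+w²)/(1-w²)) dw/w = 2∑_{k odd} 1/k² = π²/4`. -/
def SerVal : Prop :=
  HasSum (fun n : ℕ => (mt (n + 1) : ℝ) / ((n : ℝ) + 1)) (4 * catalan) ∧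
  HasSum (fun n : ℕ => (mt n : ℝ) / ((n : ℝ) + 1)) (Real.pi ^ 2 / 4)

/-- **SERID** (from `Rec`, `Mom`, `SerVal`): the sums satisfy the same two recurrences as `Mr` (telescoping identity in `TwoA`,
`mt k → 0`), so the difference `δ(u)`, `u = i-j`, solves `(1-u) δ(u-2) + u δ(u) = 0`.  `hasSum_zeta_two` for the second part. -/
def SerId : Prop :=
  ∀ i j : ℕ,
    HasSum (fun n : ℕ => (mt (n + j) : ℝ) / ((n : ℝ) + i + 1))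
      ((Mr i j : ℝ) + 4 * catalan * (gam i j : ℝ) + Real.pi ^ 2 / 4 * (pii i j : ℝ)) ∧
    HasSum (fun n : ℕ => 1 / (((n : ℝ) + i + 1) * ((n : ℝ) + j + 1)))
      ((Zr i j : ℝ) + if i = j then Real.pi ^ 2 / 6 else 0)

/-- column function `= sgn(w) E(t) + (3/2) [w>0] O(t) r` -/
def psi (N l : ℕ) (w : ℝ) : ℝ :=
  tt w ^ (47 * N) * (1 - tt w) ^ (2 * N) *
    (if 0 < w then (5 * w ^ ((l : ℤ) - 3 * N) - w ^ (3 * (N : ℤ) - l)) / 4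
      else -(w ^ ((l : ℤ) - 3 * N) + w ^ (3 * (N : ℤ) - l)) / 2)

def kern (s w : ℝ) : ℝ := 2 / (1 - 2 * s * w + w ^ 2)

def rowf (N k : ℕ) (s : ℝ) : ℝ := s ^ (6 * N + k) * (1 - s) ^ (2 * N)

/-- **REALID** (from `Col`, `Mom`, `SerId`).  `psi = sgn(w) E(t) + 3/2 [w>0] O(t) r` by `Col.1` (`1 - r = t w`, `1 + r = t/w`);
`kern s w = 2/(1+w²) ∑_n s^n t^n`, so the inner integral is `∑_n s^n μ(n)`, `μ(n) = ∑_j (E_j mt (n+j) + 3/2 O_j/(n+j+1))`,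
`|μ(n)| = O(n^(-1/2))`; integrate termwise; the `π²` terms cancel by `Col.6`. -/
def RealId : Prop :=
  ∀ G : ℚ, (G : ℝ) = catalan → ∀ N k l : ℕ, 1 ≤ N → k < 36 * N → l < 36 * N →
    (entry N G k l : ℝ) =
      ∫ s in Set.Ioo (0 : ℝ) 1, rowf N k s * ∫ w in Set.Ioo (-1 : ℝ) 1, kern s w * psi N l w

/-- **AND**: Andréief's identity `n! det[∫ φ_i χ_l] = ∫ det[φ_i(x_j)] det[χ_l(x_j)] dx` (expand both determinants,
`integral_fintype_prod_eq_prod`) used twice, first in `s`, then for fixed `s` in `w`; `∫_{-1}^1 (1-w²)^(-1/2) = π ≤ 4`. -/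
def AndBd : Prop :=
  ∀ (n : ℕ) (f ψ : Fin n → ℝ → ℝ) (K : ℝ → ℝ → ℝ) (M c : ℝ), 0 ≤ M →
    (∀ k, Measurable (f k)) → (∀ l, Measurable (ψ l)) → Measurable (Function.uncurry K) →
    (∀ k, ∀ s ∈ Set.Ioo (0 : ℝ) 1, |f k s| ≤ c) →
    (∀ l, ∀ s ∈ Set.Ioo (0 : ℝ) 1, ∀ w ∈ Set.Ioo (-1 : ℝ) 1, |K s w * ψ l w| ≤ c) →
    (∀ s w : Fin n → ℝ, (∀ i, s i ∈ Set.Ioo (0 : ℝ) 1) → (∀ j, w j ∈ Set.Ioo (-1 : ℝ) 1) →
      |(Matrix.of fun i k => f k (s i)).det| * |(Matrix.of fun i j => K (s i) (w j)).det| *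
        |(Matrix.of fun j l => ψ l (w j)).det| ≤ M * ∏ j, (Real.sqrt (1 - w j ^ 2))⁻¹) →
    |(Matrix.of fun k l : Fin n =>
      ∫ s in Set.Ioo (0 : ℝ) 1, f k s * ∫ w in Set.Ioo (-1 : ℝ) 1, K s w * ψ l w).det| ≤ M * 4 ^ n

/-- **CAUCHY**: `K i j ∏_l (1 - s_i t_l) = p_j (s_i)`, `p_j = ∏_{l ≠ j} (1 - X t_l)`, so `diag · K = V(s) · Coef`, and
`V(1/t) · Coef` is diagonal (non-injective `t`: both sides vanish). -/
def Cauchy : Prop :=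
  ∀ (n : ℕ) (s t : Fin n → ℝ), (∀ j, t j ≠ 0) → (∀ i j, 1 - s i * t j ≠ 0) →
    |(Matrix.of fun i j => 1 / (1 - s i * t j)).det| * ∏ i, ∏ j, |1 - s i * t j| =
      |(Matrix.vandermonde s).det| * |(Matrix.vandermonde t).det|

/-- **PICK**.  `w` injective (else both sides vanish).  `V = vandermonde w`, `J` the flip, `K i j = 1/(1 - w_i w_j)`,
`Π = ∏ (X - w_k)`, `Π* = ∏ (1 - w_k X)`, `Λ = diag(Π*(w_l)/Π'(w_l))`.  Lagrange interpolation gives `V J V⁻¹ = D (K Λ) D⁻¹`, `D = diag Π*(w_j)`,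
so `(KΛ)² = 1` and the determinant is `± det V · det (diag(w^k) + diag(c w^M) K Λ)`.  Write `K = L Lᵀ` (`K` is positive definite; explicitly
`L j k = √(1-w_k²)/(1-w_k w_j) ∏_{i<k} b_i(w_j)`, `b_i(z) = (z-w_i)/(1-w_i z)`), `U = Lᵀ Λ L = L⁻¹ (KΛ) L` is a symmetric involution, hence orthogonal.
For `φ : Fin n → ℂ` let `ν φ = ‖L⁻¹ diag φ L‖₂→₂` (algebra seminorm); `ν φ ≤ 1` if `K - diag φ K (diag φ)*` is positive semidefinite: true for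
`φ = w` (all-ones matrix) and `φ = b_k(w)` (rank one); `(1-a²)/(1-a z) = 1 + a b_a(z)`.  Telescoping `∏ b_k(λ) - ∏ b_k(w_j)` (the second
product is `0`) gives `ν (1/(w - iy)) ≤ 2n/|B(iy)|` for `0 < y ≤ 1` and `≤ 2n` for `y ≥ 1`; `|b_k(iy)| ≥ y^(r_k)`, `r_k = (1-w_k²)/(1+w_k²)`, for `y ≤ 1`
(derivative in `log y`), so `y^M ≤ |B(iy)|` and `ν (w^M/(w - iy)) ≤ M + 2n`; for `y ≥ 2`, `ν (1/(w²+y²)) ≤ 1/(y²-1)`.
`sgn(w) w^M = (2/π) ∫_0^∞ w^(M+1)/(w²+y²) dy`, `c = -2 - 3 sgn`.  Entries are bounded by the operator norm; `Matrix.det_le`, `n! ≤ n^n`. -/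
def Pick : Prop :=
  ∃ c : ℝ, 1 ≤ c ∧ ∀ (n k M : ℕ) (w : Fin n → ℝ), (∀ j, |w j| < 1) → (∀ j, w j ≠ 0) →
    ∑ j, (1 - w j ^ 2) / (1 + w j ^ 2) ≤ (M : ℝ) →
    |(Matrix.of fun j l : Fin n => w j ^ k * w j ^ (n - 1 - l) +
        (if 0 < w j then -5 else 1) * w j ^ M * w j ^ (l : ℕ)).det| ≤
      (c * (n + M + 1)) ^ (2 * n) * |(Matrix.vandermonde w).det|

/-- `log |1 - 2ξs + ξ²|²`, `ξ = x + iy`; for `s = cos θ` this is `2 log |1 - ξ e^{iθ}| + 2 log |1 - ξ e^{-iθ}|` -/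
def lq (x y s : ℝ) : ℝ := Real.log ((1 - 2 * x * s + x ^ 2 - y ^ 2) ^ 2 + (2 * x * y - 2 * y * s) ^ 2)

/-- `log |1 - ξ w|²` -/
def lp (x y w : ℝ) : ℝ := Real.log (1 - 2 * x * w + (x ^ 2 + y ^ 2) * w ^ 2)

/-- `Ls ξ ξ' = (log |1 - ξ conj ξ'| + log |1 - ξ ξ'|)/2` -/
def lL (x y x' y' : ℝ) : ℝ :=
  (Real.log ((1 - x * x' - y * y') ^ 2 + (y * x' - x * y') ^ 2) +
    Real.log ((1 - x * x' + y * y') ^ 2 + (x * y' + y * x') ^ 2)) / 4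

/-- a trial measure `∑ α_a (δ_ξa + δ_conj ξa)/2` in the open unit disc -/
structure Trial where
  m : ℕ
  α : Fin m → ℝ
  x : Fin m → ℝ
  y : Fin m → ℝ
  inside : ∀ a, x a ^ 2 + y a ^ 2 < 1

def Trial.U (T : Trial) (s : ℝ) : ℝ := ∑ a, T.α a * lq (T.x a) (T.y a) s

def Trial.V (T : Trial) (w : ℝ) : ℝ := ∑ a, T.α a * lp (T.x a) (T.y a) w

def Trial.Q (T : Trial) : ℝ := ∑ a, ∑ b, T.α a * T.α b * lL (T.x a) (T.y a) (T.x b) (T.y b)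

/-- **NEGDEF**: `log ‖1 - z conj z'‖ = - Re ∑_{k ≥ 1} (z conj z')^k/k`, so the sum is `-∑_k ‖∑ q z^k‖²/k`. -/
def NegDef : Prop :=
  ∀ (ι : Type) [Fintype ι] (q : ι → ℝ) (z : ι → ℂ), (∀ a, ‖z a‖ < 1) →
    ∑ a, ∑ b, q a * q b * Real.log ‖1 - z a * (starRingEnd ℂ) (z b)‖ ≤ 0

/-- **EL1** (from `NegDef`).  `s_i = cos θ_i`, `z_i = e^{iθ_i}`, `2|s_i - s_k| = |1 - z_i conj z_k| |1 - z_i z_k|`, `1 - 2sw + w² = |1 - zw|²`.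
Apply `NegDef` to the points `ρ_i z_i`, `ρ_i conj z_i` (weights `1/2`), `w_j` (weights `-1/2`), `ξ_a`, `conj ξ_a` (weights `-Nα_a/2`),
`ρ_i = 1 - sin θ_i/(2N)`, and multiply by 2.  For `‖x‖ ≤ 1`, `0 < ρ ≤ 1`: `‖1-x‖ ≤ ‖1-ρx‖ · 2/(1+ρ)`; `‖1 - ρ x‖ ≤ ‖1-x‖ + (1-ρ)` and
`‖1 - z_i w_j‖ ≥ sin θ_i`, `‖1 - z ξ‖ ≥ 1 - ‖ξ‖`; diagonal terms: `‖1 - ρ² z²‖ ≥ 1 - ρ² ≥ 1 - ρ`. -/
def EL1 : Prop :=
  ∀ T : Trial, ∃ c : ℝ, ∀ (N : ℕ) (s w : Fin (36 * N) → ℝ), 1 ≤ N →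
    (∀ i, s i ∈ Set.Ioo (0 : ℝ) 1) → (∀ j, w j ∈ Set.Ioo (-1 : ℝ) 1) → Function.Injective s →
    ∑ i, ∑ k ∈ univ.erase i, Real.log (2 * |s i - s k|) -
        ∑ i, ∑ j, Real.log (1 - 2 * s i * w j + w j ^ 2) +
        1 / 2 * ∑ j, ∑ l ∈ univ.erase j, Real.log (1 - w j * w l) ≤
      N * ∑ i, T.U (s i) - N * ∑ j, T.V (w j) - 2 * (N : ℝ) ^ 2 * T.Q -
        ∑ i, Real.log (1 - s i ^ 2) - 1 / 2 * ∑ j, Real.log (1 - w j ^ 2) + c * N * Real.log (N + 1)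

/-- **EL2** (from `NegDef`): as `EL1` without interior points, with the uniform `ρ = 1 - 1/(2N)`. -/
def EL2 : Prop :=
  ∀ T : Trial, ∃ c : ℝ, ∀ (N : ℕ) (w : Fin (36 * N) → ℝ), 1 ≤ N →
    (∀ j, w j ∈ Set.Ioo (-1 : ℝ) 1) → Function.Injective w →
    ∑ j, ∑ l ∈ univ.erase j, Real.log (2 * |w j - w l|) ≤
      N * ∑ j, T.U (w j) - 2 * (N : ℝ) ^ 2 * T.Q + c * N * Real.log (N + 1)

def Cert (a D e : ℝ) : Prop :=
  ∃ (T₁ T₂ : Trial) (c₁ c₂ : ℝ),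
    (∀ s ∈ Set.Ioo (0 : ℝ) 1, 6 * Real.log s + 2 * Real.log (1 - s) + T₁.U s ≤ c₁) ∧
    (∀ w ∈ Set.Ioo (-1 : ℝ) 1, w ≠ 0 →
      a * Real.log |w| + 4 * Real.log (1 - w) - D * Real.log (1 + w ^ 2) - T₁.V w + T₂.U w ≤ c₂) ∧
    e * Real.log 2 + 36 * (c₁ + c₂) - 2 * T₁.Q - 2 * T₂.Q ≤ -2505

/-- **CERT** (helper27 does these two numerical certificates) -/
def Certs : Prop := Cert 14 49 (-252) ∧ Cert 8 157 396

/-- **POINT** (from `Cauchy`, `Pick`, `EL1`, `EL2`, `Certs`): the pointwise bound.  If some `w j = 0` or `s`, `w` is not injective the left side is `0`.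
`|det rowf| = ∏ s^(6N) (1-s)^(2N) |V(s)|`; `kern s w = 2/(1+w²) · 1/(1 - s t)`; `t_j - t_l = 2 (w_j - w_l)(1 - w_j w_l)/((1+w_j²)(1+w_l²))`;
`psi N l w = t^(47N) (1-t)^(2N) a(w) w^(-(33N-1)-k) (w^k w^(n-1-l) + c(w) w^(30N-1+k) w^l)`, `|a| ≤ 1/2`, `1 - t = (1-w)²/(1+w²)`.
Good case `∑ r_j ≤ 30N - 1`: `Pick` with `k = 0`, `M = 30N-1`, first certificate.  Bad case: `k = 6N+1`, `M = 36N`, and
`r ≤ 1 - log(1+w²)/log 2` (convexity of `2e^{-y} - 1` on `[0, log 2]`) gives `0 ≤ 108 N ((6N+1) log 2 - ∑ log(1+w_j²))`, second certificate.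
Take logs, add `EL1` (trial `T₁`) and `EL2` (trial `T₂`); the powers of 2 give `(36·47 - (3/2) 36²) N² = -252 N²`;
`N F₁(s) - log(1-s²) ≤ (N-1) c₁ + sup T₁.U` with `T.U` bounded on `[0,1]`. -/
def Point : Prop :=
  ∃ c : ℝ, ∀ (N : ℕ) (s w : Fin (36 * N) → ℝ), 1 ≤ N →
    (∀ i, s i ∈ Set.Ioo (0 : ℝ) 1) → (∀ j, w j ∈ Set.Ioo (-1 : ℝ) 1) →
    |(Matrix.of fun i k : Fin (36 * N) => rowf N k (s i)).det| *
        |(Matrix.of fun i j : Fin (36 * N) => kern (s i) (w j)).det| *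
        |(Matrix.of fun j l : Fin (36 * N) => psi N l (w j)).det| ≤
      Real.exp (-2505 * (N : ℝ) ^ 2 + c * N * Real.log (N + 1)) * ∏ j, (Real.sqrt (1 - w j ^ 2))⁻¹

/-- **REALBD** (from `RealId`, `AndBd`, `Point`): measurability and the bound `|kern s w * psi N l w| ≤ c`
(`|t| ≤ 2|w|`, `|l - 3N| ≤ 47N`, `0 ≤ (1-t)/(1-st) ≤ 2`). -/
def RealBd : Prop :=
  ∀ G : ℚ, (G : ℝ) = catalan → ∃ c : ℝ, ∀ N : ℕ, 1 ≤ N →
    |(Dl N G : ℝ)| ≤ Real.exp (-2505 * (N : ℝ) ^ 2 + c * N * Real.log (N + 1))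

/-- **TOP** (from `Crude`, `LevelB`, `LevelC`, `TwoAdic`, `NonVan`, `PrimeSum`, `RealBd`).  For `x = Dl N G ≠ 0`: `1 ≤ |x| · x.den`,
`log x.den = ∑_{q ∣ x.den} log ‖x‖_q`.  `q = 2`: `TwoAdic`; odd `q` with `q² ≤ 49N` or `q ∣ G.den`: `Crude`
(total `O(N^(3/2) log N)`); other `q ≤ 49N`: exponent `Fex N q` (`Crude` with `log = 1`, `LevelB`, `LevelC`); other `q > 49N`: `LevelC` gives norm `≤ 1`.
`1057/8 · log 2 < 91.59` (`Real.log_two_lt_d9`). -/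
def Main : Prop := Irrational catalan

end

end Crest.Agent.R6
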