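import Crest.Agent.R6.Defs

/-! # R6: common machinery for `LevelB` and `LevelC` -/

set_option autoImplicit false

open Finset Polynomial

namespace Crest.Agent.R6.Lv

noncomputable section

/-- `‖x‖_p ≤ p^e` -/
def Nm (p e : ℕ) (x : ℚ) : Prop := padicNorm p x ≤ (p : ℚ) ^ e

variable {p : ℕ} [hp : Fact p.Prime]

theorem p1 : (1 : ℚ) ≤ p := by exact_mod_cast hp.out.one_lt.le

theorem p0 : (0 : ℚ) < p := lt_of_lt_of_le zero_lt_one p1

omit hp in
theorem Nm.zero (e : ℕ) : Nm p e 0 := by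
  unfold Nm; rw [padicNorm.zero]; positivity

theorem Nm.mono {e e' : ℕ} {x : ℚ} (h : Nm p e x) (he : e ≤ e') : Nm p e' x :=
  le_trans h (pow_le_pow_right₀ p1 he)

theorem Nm.add {e : ℕ} {x y : ℚ} (h : Nm p e x) (h' : Nm p e y) : Nm p e (x + y) :=
  le_trans padicNorm.nonarchimedean (max_le h h')

theorem Nm.sub {e : ℕ} {x y : ℚ} (h : Nm p e x) (h' : Nm p e y) : Nm p e (x - y) :=
  le_trans padicNorm.sub (max_le h h')

omit hp in
theorem Nm.neg {e : ℕ} {x : ℚ} (h : Nm p e x) : Nm p e (-x) := by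
  unfold Nm; rw [padicNorm.neg]; exact h

theorem Nm.mul {e e' : ℕ} {x y : ℚ} (h : Nm p e x) (h' : Nm p e' y) : Nm p (e + e') (x * y) := by
  unfold Nm
  rw [padicNorm.mul, pow_add]
  exact mul_le_mul h h' (padicNorm.nonneg _) (by positivity)

theorem Nm.mul0 {e : ℕ} {x y : ℚ} (h : Nm p 0 x) (h' : Nm p e y) : Nm p e (x * y) := by
  simpa using h.mul h'

theorem Nm.mul0' {e : ℕ} {x y : ℚ} (h : Nm p e x) (h' : Nm p 0 y) : Nm p e (x * y) := h.mul h'

theorem Nm.sum {α : Type*} {e : ℕ} {s : Finset α} {F : α → ℚ} (h : ∀ i ∈ s, Nm p e (F i)) :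
    Nm p e (∑ i ∈ s, F i) :=
  padicNorm.sum_le' h (by positivity)

theorem Nm.int (z : ℤ) : Nm p 0 (z : ℚ) := by
  unfold Nm; rw [pow_zero]; exact padicNorm.of_int z

theorem Nm.nat (z : ℕ) : Nm p 0 (z : ℚ) := by
  unfold Nm; rw [pow_zero]; exact padicNorm.of_nat z

omit hp in
theorem Nm.of_le_one {x : ℚ} (h : padicNorm p x ≤ 1) : Nm p 0 x := by
  unfold Nm; rwa [pow_zero]

omit hp in
theorem Nm.of_le_p {x : ℚ} (h : padicNorm p x ≤ p) : Nm p 1 x := by
  unfold Nm; rwa [pow_one]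

theorem Nm.pmul {e : ℕ} {x : ℚ} (h : Nm p (e + 1) x) : Nm p e (p * x) := by
  unfold Nm at h ⊢
  rw [padicNorm.mul, padicNorm.padicNorm_p_of_prime, inv_mul_le_iff₀ p0]
  rwa [pow_succ'] at h

theorem Nm.divp {e : ℕ} {x : ℚ} (h : Nm p e x) : Nm p (e + 1) (x / p) := by
  unfold Nm at h ⊢
  rw [padicNorm.div, padicNorm.padicNorm_p_of_prime, div_inv_eq_mul, pow_succ]
  exact mul_le_mul_of_nonneg_right h p0.le

theorem Nm.div_nat {e n : ℕ} {x : ℚ} (h : Nm p e x) (hn : ¬ p ∣ n) : Nm p e (x / n) := by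
  unfold Nm at h ⊢
  rw [padicNorm.div, (padicNorm.nat_eq_one_iff n).2 hn, div_one]
  exact h

theorem Nm.div_lt {e n : ℕ} {x : ℚ} (h : Nm p e x) (h0 : 0 < n) (hn : n < p) : Nm p e (x / n) :=
  h.div_nat (Nat.not_dvd_of_pos_of_lt h0 hn)

theorem Nm.div_lt2 {e n : ℕ} {x : ℚ} (h : Nm p e x) (h0 : 0 < n) (hn : n < 2 * p) (hne : n ≠ p) :
    Nm p e (x / n) := by
  refine h.div_nat ?_
  rintro ⟨c, rfl⟩
  have h1 : c < 2 := by
    by_contra hc
    have : p * 2 ≤ p * c := Nat.mul_le_mul_left _ (by omega)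
    omega
  interval_cases c <;> omega

theorem Nm.div_sq {e n : ℕ} {x : ℚ} (h : Nm p e x) (h0 : 0 < n) (hn : n < p * p) :
    Nm p (e + 1) (x / n) := by
  by_cases hd : p ∣ n
  · obtain ⟨c, rfl⟩ := hd
    have h1 : c < p := Nat.lt_of_mul_lt_mul_left hn
    have h2 : 0 < c := Nat.pos_of_mul_pos_left h0
    have : x / ((p * c : ℕ) : ℚ) = x / c / p := by
      push_cast; rw [div_div, mul_comm]
    rw [this]
    exact (h.div_lt h2 h1).divp
  · exact (h.div_nat hd).mono (Nat.le_succ e)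

theorem Nm.three_half (h2 : p ≠ 2) : Nm p 0 (3 / 2) := by
  have h : ¬ p ∣ 2 := fun h => h2 ((Nat.prime_dvd_prime_iff_eq hp.out Nat.prime_two).1 h)
  have := (Nm.nat (p := p) 3).div_nat h
  simpa using this

omit hp in
theorem log_le_one {D : ℕ} (h : D < p * p) : Nat.log p D ≤ 1 := by
  rcases Nat.eq_zero_or_pos D with h0 | h0
  · simp [h0]
  · have := Nat.log_lt_of_lt_pow (b := p) (x := 2) (y := D) h0.ne' (by rwa [pow_two])
    omega

/-- `Det.2` with a finset of terms -/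
theorem det_bound (hD : Det) {n : ℕ} {ι : Type} [DecidableEq ι] (s : Finset ι)
    (M : Matrix (Fin n) (Fin n) ℚ) (α : Fin n → ι → ℚ) (β : ι → Fin n → ℚ) (e : ι → ℕ)
    (hR : ∀ k l, Nm p 0 (M k l - ∑ i ∈ s, α k i * β i l)) (hα : ∀ k, ∀ i ∈ s, Nm p 0 (α k i))
    (hβ : ∀ i ∈ s, ∀ l, Nm p (e i) (β i l)) : Nm p (∑ i ∈ s, e i) M.det := by
  have h := hD.2 p n s (Matrix.of fun k l => M k l - ∑ i ∈ s, α k i * β i l)
    (Matrix.of fun k (i : s) => α k i) (Matrix.of fun (i : s) l => β i l) (fun i => e i)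
    (fun k l => by simpa [Nm] using hR k l) (fun k i => by simpa [Nm] using hα k i i.2)
    (fun i l => hβ i i.2 l)
  have e1 : (Matrix.of fun k l => M k l - ∑ i ∈ s, α k i * β i l) +
      (Matrix.of fun k (i : s) => α k i) * (Matrix.of fun (i : s) l => β i l) = M := by
    ext k l
    simp only [Matrix.add_apply, Matrix.mul_apply, Matrix.of_apply]
    rw [Finset.sum_coe_sort s fun i => α k i * β i l]
    ring
  rw [e1, Finset.sum_coe_sort s e] at h
  exact h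

/-- coefficients -/
abbrev E (N l j : ℕ) : ℚ := ((colE N l).coeff j : ℚ)
abbrev O (N l j : ℕ) : ℚ := ((colO N l).coeff j : ℚ)
abbrev f (N k i : ℕ) : ℚ := ((rowP N k).coeff i : ℚ)

def TT (N l i : ℕ) : ℚ := ∑ j ∈ range (49 * N + 1), (E N l j * Th i j + 3 / 2 * O N l j * Tz i j)

def mu (N l a : ℕ) : ℚ := ∑ j ∈ range (49 * N + 1),
  if a ≤ j then E N l j * mt (j - a) + 3 / 2 * O N l j * (1 / ((j + 1 - a : ℕ) : ℚ)) else 0

def Gam (N : ℕ) (G : ℚ) (l i : ℕ) : ℚ := ∑ j ∈ range (49 * N + 1), E N l j * (4 * G * gam i j)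

theorem Bi_eq (hR : Rec) (N : ℕ) (G : ℚ) (i l : ℕ) :
    Bi N G i l = TT N l i - ∑ a ∈ Icc 1 i, mu N l a / ((i + 1 - a : ℕ) : ℚ) + Gam N G l i := by
  have hI : ∀ j, Icc 1 (min i j) = (Icc 1 i).filter (· ≤ j) := fun j => by
    ext a; simp only [mem_Icc, mem_filter, le_min_iff]; tauto
  unfold Bi TT Gam mu
  simp only [sum_div]
  rw [sum_comm (s := Icc 1 i), ← sum_sub_distrib, ← sum_add_distrib]
  refine sum_congr rfl fun j _ => ?_
  rw [hR.2.2.2.1, hR.2.2.2.2.1, hI, sum_filter, sum_filter]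
  have : ∑ a ∈ Icc 1 i, (if a ≤ j then E N l j * mt (j - a) +
      3 / 2 * O N l j * (1 / ((j + 1 - a : ℕ) : ℚ)) else 0) / ((i + 1 - a : ℕ) : ℚ) =
      E N l j * (∑ a ∈ Icc 1 i, if a ≤ j then mt (j - a) / ((i + 1 - a : ℕ) : ℚ) else 0) +
      3 / 2 * O N l j * ∑ a ∈ Icc 1 i,
        if a ≤ j then 1 / (((i + 1 - a : ℕ) : ℚ) * ((j + 1 - a : ℕ) : ℚ)) else 0 := by
    rw [mul_sum, mul_sum, ← sum_add_distrib]
    refine sum_congr rfl fun a _ => ?_
    split_ifs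
    · rw [one_div (_ * _), mul_inv, one_div]; ring
    · simp
  rw [this]
  ring

theorem Gam_nm (hV : Val) (h2 : p ≠ 2) {G : ℚ} (hG : padicNorm p G ≤ 1) (N l i : ℕ) :
    Nm p 0 (Gam N G l i) := by
  refine Nm.sum fun j _ => (Nm.int _).mul0 (((Nm.nat 4).mul0 (Nm.of_le_one hG)).mul0 ?_)
  unfold gam
  split_ifs
  · exact Nm.of_le_one ((hV p h2).1 _)
  · exact Nm.zero _

theorem mt_nm (hV : Val) (h2 : p ≠ 2) {k : ℕ} (hk : k < p * p) : Nm p 1 (mt k) :=
  Nm.mono ((hV p h2).2.1 k) (log_le_one hk)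

theorem mt_nm0 (hV : Val) (h2 : p ≠ 2) {k : ℕ} (hk : k < p) : Nm p 0 (mt k) :=
  Nm.mono ((hV p h2).2.1 k) (by rw [Nat.log_of_lt hk])

theorem one_nm : Nm p 0 1 := by simpa using Nm.nat (p := p) 1

theorem mu_nm (hV : Val) (h2 : p ≠ 2) {N a : ℕ} (hN : 49 * N < p * p) (ha : 1 ≤ a) (l : ℕ) :
    Nm p 1 (mu N l a) := by
  refine Nm.sum fun j hj => ?_
  have hj' := mem_range.1 hj
  split_ifs with h
  · exact ((Nm.int _).mul0 (mt_nm hV h2 (by omega))).add
      (((Nm.three_half h2).mul0 (Nm.int _)).mul0 (one_nm.div_sq (by omega) (by omega)))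
  · exact Nm.zero _

theorem mu_nm0 (hC : Col) (hV : Val) (h2 : p ≠ 2) {N a l : ℕ} (hN : 1 ≤ N) (hl : l < 36 * N)
    (ha : 49 * N < a + p) : Nm p 0 (mu N l a) := by
  refine Nm.sum fun j hj => ?_
  have hj' := mem_range.1 hj
  split_ifs with h
  · refine ((Nm.int _).mul0 (mt_nm0 hV h2 (by omega))).add ?_
    by_cases hj2 : 49 * N ≤ j
    · have : O N l j = 0 := by
        simp only [O, (hC.2.2.1 N l j hN hl).2.2.2 (Or.inr hj2), Int.cast_zero]
      rw [this, mul_zero, zero_mul]; exact Nm.zero _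
    · exact ((Nm.three_half h2).mul0 (Nm.int _)).mul0 (one_nm.div_lt (by omega) (by omega))
  · exact Nm.zero _

theorem TT_nm2 (hV : Val) (h2 : p ≠ 2) {N i : ℕ} (hN : 49 * N < p * p) (hi : i < p * p) (l : ℕ) :
    Nm p 2 (TT N l i) := by
  have hl : 2 * Nat.log p (max i (49 * N)) ≤ 2 := by
    have := log_le_one (p := p) (D := max i (49 * N)) (max_lt hi hN)
    omega
  refine Nm.sum fun j hj => ?_
  have hj' := mem_range.1 hj
  have h := (hV p h2).2.2.1 i j (max i (49 * N)) (le_max_left _ _)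
    (le_trans (by omega) (le_max_right _ _))
  exact ((Nm.int _).mul0 (Nm.mono h.1 hl)).add
    (((Nm.three_half h2).mul0 (Nm.int _)).mul0 (Nm.mono h.2.1 hl))

/-- `T i` is integral when all distances are small -/
theorem TT_nm0 (hC : Col) (hV : Val) (h2 : p ≠ 2) {N i l : ℕ} (hN : 1 ≤ N) (hl : l < 36 * N)
    (h1 : i ≤ p + 14 * N) (h3 : 49 * N ≤ i + p) : Nm p 0 (TT N l i) := by
  refine Nm.sum fun j hj => ?_
  have hj' := mem_range.1 hj
  have hc := hC.2.2.1 N l j hN hl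
  by_cases hj1 : j ≤ 14 * N
  · have e1 : E N l j = 0 := by simp only [E, hc.2.2.1 (Or.inl hj1), Int.cast_zero]
    have e2 : O N l j = 0 := by simp only [O, hc.2.2.2 (Or.inl hj1), Int.cast_zero]
    rw [e1, e2]; simpa using Nm.zero 0
  refine Nm.add ((Nm.int _).mul0 ?_) ?_
  · unfold Th
    split_ifs with h
    · exact Nm.of_le_one ((hV p h2).2.2.2.1 _ (by omega))
    · exact Nm.of_le_one ((hV p h2).2.2.2.2.1 _ (by omega))
  · by_cases hj2 : 49 * N ≤ j
    · have : O N l j = 0 := by simp only [O, hc.2.2.2 (Or.inr hj2), Int.cast_zero]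
      rw [this, mul_zero, zero_mul]; exact Nm.zero _
    · refine ((Nm.three_half h2).mul0 (Nm.int _)).mul0 ?_
      refine Nm.of_le_one ((hV p h2).2.2.2.2.2.2.1 _ ?_)
      unfold Nat.dist; omega

theorem TT_mu (hC : Col) (hV : Val) (h2 : p ≠ 2) {N r l : ℕ} (hN : 1 ≤ N) (hl : l < 36 * N)
    (h1 : r < p) (h3 : 49 * N ≤ r + 2 * p) : Nm p 1 (TT N l r - mu N l (r + 1) / p) := by
  unfold TT mu
  rw [sum_div, ← sum_sub_distrib]
  refine Nm.sum fun j hj => ?_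
  have hj' := mem_range.1 hj
  have hc := hC.2.2.1 N l j hN hl
  split_ifs with h
  · have e1 : Th r j = thm (j - r) := by unfold Th; rw [if_neg (by omega)]
    have e2 : Tz r j = harmonic (j - r) / ((j - r : ℕ) : ℚ) := by
      unfold Tz; rw [Nat.dist_eq_sub_of_le (by omega)]
    have e3 : j - (r + 1) = j - r - 1 := by omega
    have e4 : j + 1 - (r + 1) = j - r := by omega
    have e5 : E N l j * Th r j + 3 / 2 * O N l j * Tz r j - (E N l j * mt (j - (r + 1)) +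
        3 / 2 * O N l j * (1 / ((j + 1 - (r + 1) : ℕ) : ℚ))) / p =
        E N l j * (thm (j - r) - mt (j - r - 1) / p) + 3 / 2 * O N l j *
          (harmonic (j - r) / ((j - r : ℕ) : ℚ) - 1 / ((p : ℚ) * ((j - r : ℕ) : ℚ))) := by
      rw [e1, e2, e3, e4, one_div (_ * _), mul_inv, one_div]; ring
    rw [e5]
    refine Nm.add ((Nm.int _).mul0 (Nm.of_le_p ((hV p h2).2.2.2.2.2.1 _ (by omega) (by omega)))) ?_
    by_cases hj2 : 49 * N ≤ j
    · have : O N l j = 0 := by simp only [O, hc.2.2.2 (Or.inr hj2), Int.cast_zero]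
      rw [this, mul_zero, zero_mul]; exact Nm.zero _
    · exact ((Nm.three_half h2).mul0 (Nm.int _)).mul0
        (Nm.of_le_p ((hV p h2).2.2.2.2.2.2.2 _ (by omega) (by omega)))
  · rw [zero_div, sub_zero]
    refine Nm.mono (e := 0) (Nm.add ((Nm.int _).mul0 ?_)
      (((Nm.three_half h2).mul0 (Nm.int _)).mul0 ?_)) (Nat.zero_le 1)
    · unfold Th
      rw [if_pos (by omega)]
      exact Nm.of_le_one ((hV p h2).2.2.2.1 _ (by omega))
    · refine Nm.of_le_one ((hV p h2).2.2.2.2.2.2.1 _ ?_)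
      unfold Nat.dist; omega

theorem f_zero (hC : Col) {N k i : ℕ} (hk : k < 36 * N) (hi : i < 6 * N ∨ 44 * N ≤ i) :
    f N k i = 0 := by
  simp only [f, hC.2.2.2.1 N k i hk (by omega), Int.cast_zero]

end

end Crest.Agent.R6.Lv
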