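import Crest.Agent.R6.NonVanA

/-! # Row 6, NONVAN: the determinant `Dl p G` does not vanish for large primes `p` -/

set_option autoImplicit false

open Finset Polynomial

namespace Crest.Agent.R6

namespace NonVanAux

open RedP

noncomputable section

variable {p : ℕ} [hp : Fact p.Prime] {m : ℕ}

/-- reduction of an integer polynomial -/
abbrev mp (p : ℕ) (q : ℤ[X]) : (ZMod p)[X] := q.map (Int.castRingHom (ZMod p))

theorem red_coeff (q : ℤ[X]) (j : ℕ) : Red p (q.coeff j) ((mp p q).coeff j) :=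
  (red_int _).congr rfl (by simp)

/-- coefficients of `1/√(1-t²)` -/
def sq (p : ℕ) [Fact p.Prime] (n : ℕ) : ZMod p := if n % 2 = 0 then b p (n / 2) else 0

def piF (p : ℕ) [Fact p.Prime] (i j : ℕ) : ZMod p := if j ≤ i then sq p (i - j) else 0

theorem red_pii (hm : p = 2 * m + 1) (i j : ℕ) : Red p (pii i j) (piF p i j) := by
  unfold pii piF sq
  by_cases h1 : j ≤ i <;> by_cases h2 : (i - j) % 2 = 0 <;> simp only [h1, h2, and_true, and_false,
    if_true, if_false]
  exacts [red_Bk hm _, red_zero, red_zero, red_zero]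

theorem sq_lucas (hm : p = 2 * m + 1) {r : ℕ} (hr : r < p) (a : ℕ) :
    sq p (r + p * a) = (rho m r : ZMod p) * sq p a := by
  obtain ⟨r, rfl | rfl⟩ := Nat.even_or_odd' r <;> obtain ⟨a, rfl | rfl⟩ := Nat.even_or_odd' a
  · rw [show 2 * r + p * (2 * a) = 2 * (r + p * a) by ring, sq, sq, if_pos (by omega), if_pos (by omega),
      Nat.mul_div_cancel_left _ two_pos, Nat.mul_div_cancel_left _ two_pos, b_lucas hm (by omega),
      rho_b hm (by omega)]
  · rw [show 2 * r + p * (2 * a + 1) = 2 * (r + p * a + m) + 1 by rw [mul_add p, mul_one]; nlinarith,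
      sq, sq, if_neg (by omega), if_neg (by omega), mul_zero]
  · rw [show 2 * r + 1 + p * (2 * a) = 2 * (r + p * a) + 1 by ring, sq, if_neg (by omega), rho_odd]
    simp
  · rw [show 2 * r + 1 + p * (2 * a + 1) = 2 * (r + m + 1 + p * a) by rw [mul_add p, mul_one]; nlinarith,
      sq, if_pos (by omega), Nat.mul_div_cancel_left _ two_pos, b_lucas hm (by omega),
      b_big hm (by omega) (by omega), rho_odd]
    simp

theorem coeff_R (m n : ℕ) : ((1 - X ^ 2) ^ m : (ZMod p)[X]).coeff n = (rho m n : ZMod p) := by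
  rw [rho, ← eq_intCast (Int.castRingHom (ZMod p)), ← coeff_map]
  simp

theorem S_eq (hm : p = 2 * m + 1) : PowerSeries.mk (sq p) = (((1 - X ^ 2) ^ m : (ZMod p)[X]) :
    PowerSeries (ZMod p)) * PowerSeries.expand p hp.out.ne_zero (PowerSeries.mk (sq p)) := by
  have h0 := hp.out.pos
  ext n
  rw [← Nat.mod_add_div n p, sec_ps (Nat.mod_lt _ h0), sum_range_succ', sum_eq_zero, zero_add, mul_zero,
    add_zero, Nat.sub_zero, PowerSeries.coeff_mk, PowerSeries.coeff_mk, coeff_coe, coeff_R,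
    sq_lucas hm (Nat.mod_lt _ h0)]
  intro c _
  rw [coeff_coe, coeff_R, rho_big (by rw [mul_add]; omega), Int.cast_zero, zero_mul]

theorem conv (f : ℕ → ZMod p) {D : ℕ} (hf : ∀ j, D ≤ j → f j = 0) (i : ℕ) :
    ∑ j ∈ range D, f j * piF p i j = ∑ j ∈ range (i + 1), f j * sq p (i - j) := by
  have e1 : ∑ j ∈ range D, f j * piF p i j = ∑ j ∈ range (D + i + 1), f j * piF p i j :=
    sum_subset (range_subset_range.2 (by omega)) fun j _ hj => by
      rw [hf j (by simpa using hj), zero_mul]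
  rw [e1]
  symm
  refine (sum_congr rfl fun j hj => ?_).trans
    (sum_subset (range_subset_range.2 (by omega)) fun j _ hj => ?_)
  · rw [piF, if_pos (Nat.lt_succ_iff.1 (mem_range.1 hj))]
  · rw [piF, if_neg (by simpa [Nat.lt_succ_iff] using hj), mul_zero]

theorem coeff_ER (hm : p = 2 * m + 1) (E : (ZMod p)[X]) (hE : ∀ j, 47 * p < j → E.coeff j = 0) :
    ∀ n, 48 * p ≤ n → (E * (1 - X ^ 2) ^ m).coeff n = 0 := fun n hn => by
  rw [coeff_mul]
  refine sum_eq_zero fun x hx => ?_
  have := mem_antidiagonal.1 hx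
  by_cases h : 2 * m < x.2
  · rw [coeff_R, rho_big h, Int.cast_zero, mul_zero]
  · rw [hE _ (by omega), zero_mul]

theorem rel (hm : p = 2 * m + 1) (E : (ZMod p)[X]) (hE : ∀ j, 47 * p < j → E.coeff j = 0) {r : ℕ}
    (hr : r < p) (a : ℕ) : ∑ j ∈ range (47 * p + 1), E.coeff j * piF p (r + p * a) j =
      ∑ c ∈ range 48, (E * (1 - X ^ 2) ^ m).coeff (r + p * c) * piF p a c := by
  rw [conv _ fun j hj => hE j hj, conv _ fun c hc => coeff_ER hm E hE _ (by
    have := Nat.mul_le_mul_left p hc; omega)]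
  have h := sec_ps hr hp.out.ne_zero a ((E * (1 - X ^ 2) ^ m : (ZMod p)[X]) : PowerSeries (ZMod p))
    (PowerSeries.mk (sq p))
  rw [Polynomial.coe_mul, mul_assoc, ← S_eq hm, ← Polynomial.coe_mul, PowerSeries.coeff_mul,
    Finset.Nat.sum_antidiagonal_eq_sum_range_succ_mk] at h
  simpa only [coeff_coe, PowerSeries.coeff_mk] using h

/-- the reduced tables -/
def Mb (p : ℕ) [Fact p.Prime] (i j : ℕ) : ZMod p := rd p (Mr i j)

def Zb (p : ℕ) [Fact p.Prime] (i j : ℕ) : ZMod p := rd p (Zr i j)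

def conv3 (T : ℕ → ℕ → ZMod p) (i j : ℕ) : ZMod p :=
  ∑ a ∈ range 3, cz (ZMod p) a * ∑ b ∈ range 3, cz (ZMod p) b * T (i + a) (j + b)

theorem red_cf (a : ℕ) : Red p (cf a) (cz (ZMod p) a) := by
  unfold cf cz
  split_ifs
  exacts [red_two.neg, red_one]

theorem red_32 (hm : p = 2 * m + 1) : Red p (3 / 2) (3 / 2) :=
  (by exact_mod_cast red_nat (p := p) 3 : Red p 3 3).div red_two (two_ne hm)

theorem tabs (hV : Val) (h : 101 ≤ p) {i j : ℕ} (hi : i ≤ 49) (hj : j ≤ 49) :
    Red p (Mr i j) (Mb p i j) ∧ Red p (Zr i j) (Zb p i j) := by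
  have hl : Nat.log p 49 = 0 := Nat.log_of_lt (by omega)
  have := (hV p (by omega)).2.2.1 i j 49 hi hj
  simp only [hl, mul_zero, pow_zero] at this
  exact ⟨red_rd this.2.2.1, red_rd this.2.2.2⟩

theorem red_conv3 {T : ℕ → ℕ → ℚ} {U : ℕ → ℕ → ZMod p} (h : ∀ i ≤ 49, ∀ j ≤ 49, Red p (T i j) (U i j))
    {i j : ℕ} (hi : i ≤ 47) (hj : j ≤ 47) :
    Red p (∑ a ∈ range 3, ∑ b ∈ range 3, cf a * cf b * T (i + a) (j + b)) (conv3 U i j) :=
  red_sum fun a ha => ((red_cf a).mul (red_sum fun b hb => (red_cf b).mul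
    (h _ (by have := mem_range.1 ha; omega) _ (by have := mem_range.1 hb; omega)))).congr
      (by simp only [mul_sum, mul_assoc]) rfl

theorem red_full (hV : Val) (h : 101 ≤ p) (hm : p = 2 * m + 1) (e : Fin 3) :
    Red p (Cfull e).det (fullF (conv3 (Mb p)) (conv3 (Zb p)) (piF p) e).det := by
  have hM := fun i j hi hj => red_conv3 (i := i) (j := j) (fun i hi j hj => (tabs hV h hi hj).1) hi hj
  have hZ := fun i j hi hj => red_conv3 (i := i) (j := j) (fun i hi j hj => (tabs hV h hi hj).2) hi hj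
  refine red_det fun k j => ?_
  have := k.2
  have := j.2
  simp only [Cfull, fullF, Matrix.of_apply, Cent, centF, lam, lamF]
  split_ifs
  · exact (hM _ _ (by omega) (by omega)).sub ((red_32 hm).mul (red_sum fun a ha =>
      (red_pii hm _ _).mul (hZ _ _ (by omega) (by have := (mem_Ico.1 ha).2; omega))))
  · exact (red_32 hm).mul (hZ _ _ (by omega) (by omega))
  exacts [red_one, red_zero, red_one, red_one.neg.pow _, red_zero]

/-- reduction of `p² Bi` -/
def beta (p : ℕ) [Fact p.Prime] (m : ℕ) (E O : (ZMod p)[X]) (r i : ℕ) : ZMod p :=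
  ∑ c ∈ range 50, (E * (1 - X ^ 2) ^ m).coeff (r + p * c) * Mb p i c +
    3 / 2 * ∑ c ∈ range 50, O.coeff (r + p * c) * Zb p i c

theorem red_Bi (hC : Col) (hV : Val) (hK : Cartier) (h : 101 ≤ p) (hm : p = 2 * m + 1) {G : ℚ}
    (hG : padicNorm p G ≤ 1) {r i l : ℕ} (hr : r < p) (hi : i ≤ 49) (hl : l < 36 * p) :
    Red p (p ^ 2 * Bi p G (r + p * i) l) (beta p m (mp p (colE p l)) (mp p (colO p l)) r i) := by
  have h0 := hp.out.pos
  have hs := fun j => hC.2.2.1 p l j h0 hl
  have hgam : ∀ a c, ∃ z, Red p (gam a c) z := fun a c => by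
    unfold gam
    split_ifs
    exacts [⟨_, red_Bk hm _⟩, ⟨_, red_zero⟩]
  have t : ∀ j ∈ range (49 * p + 1), Red p (p ^ 2 * (((colE p l).coeff j : ℚ) *
      (Mr (r + p * i) j + 4 * G * gam (r + p * i) j) + 3 / 2 * ((colO p l).coeff j : ℚ) * Zr (r + p * i) j))
      ((mp p (colE p l)).coeff j *
        ∑ c ∈ range 50, (X ^ j * (1 - X ^ 2) ^ m : (ZMod p)[X]).coeff (r + p * c) * Mb p i c +
        3 / 2 * ((mp p (colO p l)).coeff j * if j % p = r then Zb p i (j / p) else 0)) := fun j hj => by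
    have hj : j ≤ p * 49 := by have := mem_range.1 hj; omega
    obtain ⟨k1, k2⟩ := hK p 49 (by omega) r i j hr hi hj
    rw [show (p - 1) / 2 = m by omega] at k1
    have a1 := (red_sum fun c hc => (red_coeff (p := p) (X ^ j * (1 - X ^ 2) ^ m) (r + p * c)).mul
      (tabs hV h hi (Nat.lt_succ_iff.1 (mem_range.1 hc))).1).of_sub_lt k1
    have a2 : Red p (p ^ 2 * Zr (r + p * i) j) (if j % p = r then Zb p i (j / p) else 0) := by
      refine Red.of_sub_lt ?_ k2
      split_ifs
      exacts [(tabs hV h hi (Nat.div_le_of_le_mul hj)).2, red_zero]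
    obtain ⟨z, hz⟩ := hgam (r + p * i) j
    have a3 := ((red_p.pow 2).mul ((red_two.mul red_two).mul (red_rd hG))).mul hz
    refine (((red_coeff (colE p l) j).mul (a1.add a3)).add
      ((red_32 hm).mul ((red_coeff (colO p l) j).mul a2))).congr (by ring) ?_
    simp
  refine (red_sum t).congr (by rw [Bi, mul_sum]) ?_
  rw [sum_add_distrib, beta, ← mul_sum]
  congr 1
  · simp only [mul_sum]
    rw [sum_comm]
    refine sum_congr rfl fun c _ => ?_
    have hd : (mp p (colE p l)).natDegree < 49 * p + 1 := Nat.lt_succ_of_le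
      (natDegree_le_iff_coeff_eq_zero.2 fun j hj => by simp [(hs j).2.2.1 (.inr hj)])
    conv_rhs => rw [as_sum_range_C_mul_X_pow' _ hd]
    simp only [sum_mul, finsetSum_coeff, mul_assoc, coeff_C_mul]
  · congr 1
    rw [sum_subset (range_subset_range.2 (show 49 * p + 1 ≤ 0 + p * 50 by omega)) fun j _ hj => by
      rw [show (mp p (colO p l)).coeff j = 0 by
        simp [(hs j).2.2.2 (.inr (by simp at hj; omega))], zero_mul], sum_block, sum_range_zero, add_zero]
    refine sum_congr rfl fun c _ => ?_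
    rw [sum_eq_single_of_mem r (mem_range.2 hr)]
    · rw [Nat.add_mul_mod_self_left, Nat.mod_eq_of_lt hr, if_pos rfl, Nat.add_mul_div_left _ _ h0,
        Nat.div_eq_of_lt hr, zero_add]
    · intro a ha hne
      rw [Nat.add_mul_mod_self_left, Nat.mod_eq_of_lt (mem_range.1 ha), if_neg hne, mul_zero]

theorem om_eq : mp p ((1 - X) ^ (2 * p)) = (1 - X ^ p) ^ 2 := by
  rw [mul_comm, pow_mul, mp, Polynomial.map_pow, Polynomial.map_pow, Polynomial.map_sub,
    Polynomial.map_one, map_X, sub_pow_char, one_pow]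

/-- reduction of `p² entry` -/
def Phi (p : ℕ) [Fact p.Prime] (m : ℕ) (E O : (ZMod p)[X]) (r k : ℕ) : ZMod p :=
  ∑ c ∈ range 48, (E * (1 - X ^ 2) ^ m).coeff (r + p * c) * conv3 (Mb p) (6 + k) c +
    3 / 2 * ∑ c ∈ range 48, O.coeff (r + p * c) * conv3 (Zb p) (6 + k) c

theorem red_entry (hC : Col) (hV : Val) (hK : Cartier) (h : 101 ≤ p) (hm : p = 2 * m + 1) {G : ℚ}
    (hG : padicNorm p G ≤ 1) {r k l : ℕ} (hr : r < p) (hk : k < 36) (hl : l < 36 * p) :
    Red p (p ^ 2 * entry p G (r + p * k) l) (Phi p m (mp p (cE p l)) (mp p (cO p l)) r k) := by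
  have h0 := hp.out.pos
  have hs := fun j => hC.2.2.1 p l j h0 hl
  have t : ∀ i ∈ range (44 * p), Red p (((rowP p (r + p * k)).coeff i : ℚ) * (p ^ 2 * Bi p G i l))
      ((mp p (rowP p (r + p * k))).coeff i *
        beta p m (mp p (colE p l)) (mp p (colO p l)) (i % p) (i / p)) := fun i hi =>
    (red_coeff _ _).mul ((red_Bi hC hV hK h hm hG (Nat.mod_lt i h0)
      (Nat.div_le_of_le_mul (by have := mem_range.1 hi; omega)) hl).congr (by rw [Nat.mod_add_div]) rfl)
  refine (red_sum t).congr (by rw [entry, mul_sum]; exact sum_congr rfl fun i _ => by ring) ?_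
  have e : mp p (rowP p (r + p * k)) =
      ∑ a ∈ range 3, C (cz (ZMod p) a) * X ^ (r + p * (6 + k + a)) := by
    rw [rowP, mp, Polynomial.map_mul, ← mp, ← mp, om_eq]
    simp [sum_range_succ, cz, show (C 2 : (ZMod p)[X]) = 2 from rfl]
    ring
  have e2 : ∀ a ∈ range 3, ∑ i ∈ range (44 * p), (C (cz (ZMod p) a) * X ^ (r + p * (6 + k + a))).coeff i *
      beta p m (mp p (colE p l)) (mp p (colO p l)) (i % p) (i / p) =
      cz (ZMod p) a * beta p m (mp p (colE p l)) (mp p (colO p l)) r (6 + k + a) := fun a ha => by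
    have := Nat.mul_le_mul_left p (show 6 + k + a ≤ 43 by have := mem_range.1 ha; omega)
    simp only [coeff_C_mul_X_pow, ite_mul, zero_mul, sum_ite_eq', mem_range]
    rw [if_pos (by omega), Nat.add_mul_mod_self_left, Nat.mod_eq_of_lt hr, Nat.add_mul_div_left _ _ h0,
      Nat.div_eq_of_lt hr, zero_add]
  simp only [e, finsetSum_coeff, sum_mul]
  rw [sum_comm, sum_congr rfl e2]
  have zE := coeff_ER hm (mp p (cE p l)) fun j hj => by simp [(hs j).1 (.inr hj)]
  have zO : ∀ n, 48 * p ≤ n → (mp p (cO p l)).coeff n = 0 := fun j hj => by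
    simp [(hs j).2.1 (.inr (by omega))]
  have b1 : mp p (colE p l) = (1 - X ^ p) ^ 2 * mp p (cE p l) := by
    rw [colE, mp, Polynomial.map_mul, ← mp, om_eq]
  have b2 : mp p (colO p l) = (1 - X ^ p) ^ 2 * mp p (cO p l) := by
    rw [colO, mp, Polynomial.map_mul, ← mp, om_eq]
  simp only [beta, b1, b2, mul_assoc ((1 - X ^ p) ^ 2 : (ZMod p)[X]), shift3 hr _ zE, shift3 hr _ zO]
  simp only [Phi, conv3, mul_add, sum_add_distrib]
  congr 1
  · simp only [mul_sum (range 48)]
    rw [sum_comm]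
    exact sum_congr rfl fun c _ => by rw [mul_sum]; exact sum_congr rfl fun a _ => by ring
  · simp only [mul_sum (range 48)]
    rw [sum_comm]
    exact sum_congr rfl fun c _ => by rw [mul_sum, mul_sum]; exact sum_congr rfl fun a _ => by ring

theorem coeff_comb {ι : Type} [Fintype ι] (x : ι → ZMod p) (f : ι → (ZMod p)[X]) (n : ℕ) :
    (∑ l, C (x l) * f l).coeff n = ∑ l, x l * (f l).coeff n := by
  simp only [finsetSum_coeff, coeff_C_mul]

theorem main (hC : Col) (hV : Val) (hK : Cartier) (h : 101 ≤ p) {G : ℚ} (hG : padicNorm p G ≤ 1)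
    (hd : ∀ e, ¬ padicNorm p (Cfull e).det < 1) : Dl p G ≠ 0 := by
  obtain ⟨m, hm⟩ : ∃ m, p = 2 * m + 1 := hp.out.odd_of_ne_two (by omega)
  have h0 := hp.out.pos
  intro hD
  have hdet : Red p ((p : ℚ) ^ 2 • Matrix.of fun k l : Fin (36 * p) => entry p G k l).det
      (Matrix.of fun k l : Fin (36 * p) =>
        Phi p m (mp p (cE p l)) (mp p (cO p l)) (k % p) (k / p)).det :=
    red_det fun k l => (red_entry hC hV hK h hm hG (Nat.mod_lt k h0)
      (Nat.div_lt_of_lt_mul (by have := k.2; omega)) l.2).congr (by rw [Nat.mod_add_div]; rfl) rfl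
  rw [Matrix.det_smul, ← Dl, hD, mul_zero] at hdet
  obtain ⟨x, hx, hx0⟩ := Matrix.exists_mulVec_eq_zero_iff.2 (hdet.unique red_zero)
  have hs := fun (l : Fin (36 * p)) j => hC.2.2.1 p l j h0 l.2
  have hE : ∀ j, j ≤ 14 * p ∨ 47 * p < j → (∑ l, C (x l) * mp p (cE p l)).coeff j = 0 := fun j hj => by
    rw [coeff_comb]
    exact sum_eq_zero fun l _ => by simp [(hs l j).1 hj]
  have key := core (Mq := conv3 (Mb p)) (Zq := conv3 (Zb p)) (pi := piF p) hm
    (fun e he => hd e ((red_full hV h hm e).lt_one_iff.2 he))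
    (∑ l, C (x l) * mp p (cE p l)) (∑ l, C (x l) * mp p (cO p l)) hE
    (fun j hj => by
      rw [coeff_comb]
      exact sum_eq_zero fun l _ => by simp [(hs l j).2.1 hj])
    (fun r hr a ha => by
      rw [← rel hm _ (fun j hj => hE j (.inr hj)) hr a]
      simp only [coeff_comb, sum_mul]
      rw [sum_comm, ← sum_add_distrib]
      refine sum_eq_zero fun l _ => ?_
      have hi : r + p * a < 44 * p := by
        have := Nat.mul_le_mul_left p (show a ≤ 43 by omega)
        omega
      have := ((red_sum fun j _ => (red_coeff (cE p l) j).mul (red_pii hm (r + p * a) j)).add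
        (red_coeff (cO p l) (r + p * a))).congr (hC.2.2.2.2.1 p l _ h0 l.2 hi) rfl
      simp only [mul_assoc, ← mul_sum, ← mul_add, this.unique red_zero, mul_zero])
    (fun r hr k hk => by
      have hi : r + p * k < 36 * p := by
        have := Nat.mul_le_mul_left p (show k ≤ 35 by omega)
        omega
      have := congrFun hx0 ⟨r + p * k, hi⟩
      simp only [Matrix.mulVec, dotProduct, Matrix.of_apply, Nat.add_mul_mod_self_left,
        Nat.mod_eq_of_lt hr, Nat.add_mul_div_left _ _ h0, Nat.div_eq_of_lt hr, zero_add, Pi.zero_apply,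
        Phi] at this
      rw [← this]
      simp only [sum_mul, mul_assoc (C _), coeff_comb, add_mul, sum_add_distrib, mul_sum]
      congr 1 <;>
      · rw [sum_comm]
        exact sum_congr rfl fun l _ => sum_congr rfl fun c _ => by ring)
  exact hx (indep hC (two_ne hm) x key.1 key.2)

theorem norm_le_one {x : ℚ} (h : x.den < p) : padicNorm p x ≤ 1 :=
  (((red_int x.num).div (red_nat x.den) (nat_ne x.den_pos h)).congr (Rat.num_div_den x) rfl).le_one

theorem not_lt_one {x : ℚ} (hx : x ≠ 0) (h : x.den < p) (h' : x.num.natAbs < p) :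
    ¬ padicNorm p x < 1 := by
  have hd := nat_ne x.den_pos h
  rw [(((red_int x.num).div (red_nat x.den) hd).congr (Rat.num_div_den x) rfl).lt_one_iff]
  refine div_ne_zero ?_ hd
  rw [Ne, ZMod.intCast_zmod_eq_zero_iff_dvd, Int.natCast_dvd]
  exact Nat.not_dvd_of_pos_of_lt (Int.natAbs_pos.2 (Rat.num_ne_zero.2 hx)) h'

end

end NonVanAux

open NonVanAux in
theorem nonVan (hC : Col) (hV : Val) (hK : Cartier) (hN : NVCert) : NonVan := by
  intro G
  refine ⟨101 + G.den + ∑ e : Fin 3, ((Cfull e).det.den + (Cfull e).det.num.natAbs), fun p hp h => ?_⟩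
  have : Fact p.Prime := ⟨hp⟩
  refine main hC hV hK (by omega) (norm_le_one (by omega)) fun e => ?_
  have := single_le_sum (f := fun e : Fin 3 => (Cfull e).det.den + (Cfull e).det.num.natAbs)
    (fun _ _ => Nat.zero_le _) (mem_univ e)
  exact not_lt_one (hN e) (by omega) (by omega)

end Crest.Agent.R6
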