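import Crest.Agent.R6.RedP

/-! # Row 6, NONVAN, part A: linear algebra over a field -/

set_option autoImplicit false

open Finset Polynomial

namespace Crest.Agent.R6.NonVanAux

noncomputable section

section sec

variable {F : Type} [CommRing F] {p : ℕ}

theorem core_sec {r : ℕ} (hr : r < p) (a : ℕ) (f h g : ℕ → F) (h1 : ∀ d, h (p * d) = g d)
    (h2 : ∀ n, ¬ p ∣ n → h n = 0) :
    ∑ i ∈ range (r + p * a + 1), f i * h (r + p * a - i) =
      ∑ c ∈ range (a + 1), f (r + p * c) * g (a - c) := by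
  have hp : 0 < p := by omega
  have e : ∑ c ∈ range (a + 1), f (r + p * c) * g (a - c) =
      ∑ i ∈ (range (a + 1)).image (fun c => r + p * c), f i * h (r + p * a - i) := by
    rw [sum_image fun x _ y _ hxy => Nat.eq_of_mul_eq_mul_left hp (Nat.add_left_cancel hxy)]
    refine sum_congr rfl fun c hc => ?_
    rw [← h1, Nat.mul_sub, Nat.add_sub_add_left]
  rw [e]
  symm
  refine sum_subset (fun i hi => ?_) fun i hi hi' => ?_
  · obtain ⟨c, hc, rfl⟩ := mem_image.1 hi
    have := Nat.mul_le_mul_left p (Nat.lt_succ_iff.1 (mem_range.1 hc))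
    exact mem_range.2 (by omega)
  · rw [h2, mul_zero]
    rintro ⟨d, hd⟩
    have hi := mem_range.1 hi
    have hda : d ≤ a := by
      by_contra hn
      have := Nat.mul_le_mul_left p (show a + 1 ≤ d by omega)
      rw [mul_add] at this
      omega
    refine hi' (mem_image.2 ⟨a - d, mem_range.2 (by omega), ?_⟩)
    have := Nat.mul_le_mul_left p hda
    rw [Nat.mul_sub]
    omega

theorem sec_poly {r : ℕ} (hr : r < p) (a : ℕ) (f g : F[X]) :
    (f * expand F p g).coeff (r + p * a) = ∑ c ∈ range (a + 1), f.coeff (r + p * c) * g.coeff (a - c) := by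
  rw [coeff_mul, Finset.Nat.sum_antidiagonal_eq_sum_range_succ_mk]
  exact core_sec hr a _ (fun n => (expand F p g).coeff n) _ (fun d => coeff_expand_mul' (by omega) _ _)
    fun n hn => by rw [coeff_expand (by omega), if_neg hn]

theorem sec_ps {r : ℕ} (hr : r < p) (hp : p ≠ 0) (a : ℕ) (f g : PowerSeries F) :
    PowerSeries.coeff (r + p * a) (f * PowerSeries.expand p hp g) =
      ∑ c ∈ range (a + 1), PowerSeries.coeff (r + p * c) f * PowerSeries.coeff (a - c) g := by
  rw [PowerSeries.coeff_mul, Finset.Nat.sum_antidiagonal_eq_sum_range_succ_mk]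
  exact core_sec hr a (fun n => PowerSeries.coeff n f)
    (fun n => PowerSeries.coeff n (PowerSeries.expand p hp g)) (fun n => PowerSeries.coeff n g)
    (fun d => PowerSeries.coeff_expand_mul _ _ _ _) fun n hn =>
      PowerSeries.coeff_expand_of_not_dvd _ _ _ hn

theorem shift {r : ℕ} (hr : r < p) (b n : ℕ) (f : F[X]) (T : ℕ → F) :
    ∑ c ∈ range (b + n), (X ^ (p * b) * f).coeff (r + p * c) * T c =
      ∑ c ∈ range n, f.coeff (r + p * c) * T (c + b) := by
  rw [sum_range_add, sum_eq_zero, zero_add]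
  · refine sum_congr rfl fun c _ => ?_
    rw [show r + p * (b + c) = r + p * c + p * b by ring, coeff_X_pow_mul, add_comm b]
  · intro c hc
    have := Nat.mul_le_mul_left p (show c + 1 ≤ b from mem_range.1 hc)
    rw [coeff_X_pow_mul', if_neg (by rw [mul_add] at this; omega), zero_mul]

/-- reduction of `cf` -/
def cz (F : Type) [CommRing F] (a : ℕ) : F := if a = 1 then -2 else 1

theorem shift3 {r : ℕ} (hr : r < p) (f : F[X]) (hf : ∀ n, 48 * p ≤ n → f.coeff n = 0) (T : ℕ → F) :
    ∑ c ∈ range 50, ((1 - X ^ p) ^ 2 * f).coeff (r + p * c) * T c =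
      ∑ c ∈ range 48, f.coeff (r + p * c) * ∑ b ∈ range 3, cz F b * T (c + b) := by
  have e : ((1 - X ^ p) ^ 2 * f : F[X]) =
      X ^ (p * 0) * f - C 2 * (X ^ (p * 1) * f) + X ^ (p * 2) * f := by
    rw [show (C 2 : F[X]) = 2 from rfl]; ring
  have z : ∀ c, 48 ≤ c → f.coeff (r + p * c) = 0 := fun c hc =>
    hf _ (by have := Nat.mul_le_mul_left p hc; omega)
  have cut : ∀ b, b ≤ 2 → ∑ c ∈ range 50, (X ^ (p * b) * f).coeff (r + p * c) * T c =
      ∑ c ∈ range 48, f.coeff (r + p * c) * T (c + b) := fun b hb => by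
    rw [show 50 = b + (50 - b) by omega, shift hr]
    symm
    exact sum_subset (range_subset_range.2 (by omega)) fun c _ hc => by
      rw [z c (by simpa using hc), zero_mul]
  simp only [e, coeff_add, coeff_sub, coeff_C_mul, add_mul, sub_mul, sum_add_distrib, sum_sub_distrib,
    mul_assoc, ← mul_sum]
  rw [cut 0 (by omega), cut 1 (by omega), cut 2 le_rfl]
  simp only [mul_sum, ← sum_sub_distrib, ← sum_add_distrib]
  refine sum_congr rfl fun c _ => ?_
  simp [sum_range_succ, cz]
  ring

end sec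

section core

variable {F : Type} [Field F]

/-- reduction of `Cent` -/
def centF (Mq Zq pi : ℕ → ℕ → F) (k m : ℕ) : F :=
  if m < 34 then Mq (6 + k) (14 + m) - 3 / 2 * ∑ a ∈ Ico 14 44, pi a (14 + m) * Zq (6 + k) a
  else 3 / 2 * Zq (6 + k) (10 + m)

/-- reduction of `lam` -/
def lamF (F : Type) [Field F] (e : Fin 3) (m : ℕ) : F :=
  if e = 0 then (if m = 0 then 1 else 0) else if m < 34 then (if e = 1 then 1 else (-1) ^ m) else 0

def fullF (Mq Zq pi : ℕ → ℕ → F) (e : Fin 3) : Matrix (Fin 37) (Fin 37) F :=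
  Matrix.of fun k m => if (k : ℕ) < 36 then centF Mq Zq pi k m else lamF F e m

variable {Mq Zq pi : ℕ → ℕ → F}

theorem ker {e : Fin 3} (hd : (fullF Mq Zq pi e).det ≠ 0) (y : ℕ → F)
    (h1 : ∀ k < 36, ∑ m ∈ range 37, centF Mq Zq pi k m * y m = 0)
    (h2 : ∑ m ∈ range 37, lamF F e m * y m = 0) : ∀ m < 37, y m = 0 := by
  have := Matrix.eq_zero_of_mulVec_eq_zero hd (v := fun m => y m) (by
    ext k
    simp only [Matrix.mulVec, dotProduct, fullF, Matrix.of_apply, Pi.zero_apply]
    split_ifs with h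
    · exact (Fin.sum_univ_eq_sum_range (fun m => centF Mq Zq pi k m * y m) 37).trans (h1 k h)
    · exact (Fin.sum_univ_eq_sum_range (fun m => lamF F e m * y m) 37).trans h2)
  exact fun m hm => congrFun this ⟨m, hm⟩

/-- the unknowns -/
def yv (e o : ℕ → F) (m : ℕ) : F := if m < 34 then e (14 + m) else o (10 + m)

theorem sum48 (e T : ℕ → F) (he : ∀ c < 14, e c = 0) :
    ∑ c ∈ range 48, e c * T c = ∑ m ∈ range 34, e (14 + m) * T (14 + m) := by
  rw [show 48 = 14 + 34 from rfl, sum_range_add, sum_eq_zero fun c hc => by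
    rw [he c (mem_range.1 hc), zero_mul], zero_add]

theorem cent_eq (e o : ℕ → F) (he : ∀ c < 14, e c = 0) (ho : ∀ c < 14, o c = 0) (ho' : o 47 = 0)
    (hr : ∀ a < 44, ∑ c ∈ range 48, e c * pi a c + o a = 0) (k : ℕ) :
    ∑ m ∈ range 37, centF Mq Zq pi k m * yv e o m =
      ∑ c ∈ range 48, e c * Mq (6 + k) c + 3 / 2 * ∑ c ∈ range 48, o c * Zq (6 + k) c := by
  have e1 : ∑ m ∈ range 34, centF Mq Zq pi k m * yv e o m =
      ∑ m ∈ range 34, e (14 + m) * Mq (6 + k) (14 + m) + 3 / 2 * ∑ a ∈ Ico 14 44, o a * Zq (6 + k) a := by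
    have : ∑ a ∈ Ico 14 44, o a * Zq (6 + k) a =
        -∑ m ∈ range 34, e (14 + m) * ∑ a ∈ Ico 14 44, pi a (14 + m) * Zq (6 + k) a := by
      simp only [mul_sum]
      rw [sum_comm, ← sum_neg_distrib]
      refine sum_congr rfl fun a ha => ?_
      have := hr a (mem_Ico.1 ha).2
      rw [sum48 _ _ he] at this
      simp only [← mul_assoc, ← sum_mul]
      linear_combination Zq (6 + k) a * this
    rw [this, mul_neg, mul_sum, ← sub_eq_add_neg, ← sum_sub_distrib]
    refine sum_congr rfl fun m hm => ?_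
    rw [centF, yv, if_pos (mem_range.1 hm), if_pos (mem_range.1 hm)]
    ring
  have e2 : ∑ c ∈ range 44, o c * Zq (6 + k) c = ∑ a ∈ Ico 14 44, o a * Zq (6 + k) a := by
    rw [range_eq_Ico, ← sum_Ico_consecutive _ (show 0 ≤ 14 by omega) (show 14 ≤ 44 by omega),
      sum_eq_zero fun c hc => by rw [ho c (mem_Ico.1 hc).2, zero_mul], zero_add]
  rw [sum48 _ _ he, sum_range_succ _ 36, sum_range_succ _ 35, sum_range_succ _ 34, e1,
    sum_range_succ _ 47, sum_range_succ _ 46, sum_range_succ _ 45, sum_range_succ _ 44, e2, ho']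
  simp only [centF, yv]
  norm_num
  ring

theorem lam0 (y : ℕ → F) : ∑ m ∈ range 37, lamF F 0 m * y m = y 0 := by
  simp [lamF]

theorem lam12 (e o : ℕ → F) (he : ∀ c < 14, e c = 0) :
    ∑ m ∈ range 37, lamF F 1 m * yv e o m = ∑ c ∈ range 48, e c * 1 ^ c ∧
    ∑ m ∈ range 37, lamF F 2 m * yv e o m = ∑ c ∈ range 48, e c * (-1) ^ c := by
  constructor <;>
  · rw [sum48 _ _ he, sum_range_succ _ 36, sum_range_succ _ 35, sum_range_succ _ 34]
    simp only [lamF, yv]
    norm_num
    refine sum_congr rfl fun m hm => ?_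
    simp [mem_range.1 hm, pow_add, mul_comm, Even.neg_one_pow (show Even 14 by decide)]

theorem coprime_root {H : F[X]} {a : F} (h : H.eval a ≠ 0) : IsCoprime (X - C a) H :=
  (irreducible_X_sub_C a).coprime_iff_not_dvd.2 fun h' => h (dvd_iff_isRoot.1 h')

theorem core {p m : ℕ} (hm : p = 2 * m + 1) (hd : ∀ e, (fullF Mq Zq pi e).det ≠ 0) (E O : F[X])
    (hE : ∀ j, j ≤ 14 * p ∨ 47 * p < j → E.coeff j = 0)
    (hO : ∀ j, j ≤ 14 * p ∨ 47 * p ≤ j → O.coeff j = 0)
    (hr : ∀ r < p, ∀ a < 44, ∑ c ∈ range 48, (E * (1 - X ^ 2) ^ m).coeff (r + p * c) * pi a c +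
      O.coeff (r + p * a) = 0)
    (hk : ∀ r < p, ∀ k < 36, ∑ c ∈ range 48, (E * (1 - X ^ 2) ^ m).coeff (r + p * c) * Mq (6 + k) c +
      3 / 2 * ∑ c ∈ range 48, O.coeff (r + p * c) * Zq (6 + k) c = 0) : E = 0 ∧ O = 0 := by
  have hp : 0 < p := by omega
  have d2 : (1 - X ^ 2 : F[X]).natDegree = 2 := by compute_degree!
  have n2 : (1 - X ^ 2 : F[X]) ≠ 0 := fun h => by simp [h] at d2
  set R : F[X] := (1 - X ^ 2) ^ m with hR
  have dR : R.natDegree = 2 * m := by rw [hR, natDegree_pow, d2, mul_comm]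
  have nR : R ≠ 0 := pow_ne_zero _ n2
  have hER : ∀ n, n ≤ 14 * p ∨ 48 * p ≤ n → (E * R).coeff n = 0 := fun n hn => by
    rw [coeff_mul]
    refine sum_eq_zero fun x hx => ?_
    have := mem_antidiagonal.1 hx
    by_cases h : 2 * m < x.2
    · rw [coeff_eq_zero_of_natDegree_lt (p := R) (by omega), mul_zero]
    · rw [hE _ (by omega), zero_mul]
  set e : ℕ → ℕ → F := fun r c => (E * R).coeff (r + p * c) with he
  set o : ℕ → ℕ → F := fun r c => O.coeff (r + p * c) with ho
  have low : ∀ r < p, ∀ c < 14, r + p * c ≤ 14 * p := fun r h c hc => by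
    have := Nat.mul_le_mul_left p (show c + 1 ≤ 14 from hc)
    rw [mul_add] at this
    omega
  have e1 : ∀ r < p, ∀ c < 14, e r c = 0 := fun r h c hc => hER _ (.inl (low r h c hc))
  have e2 : ∀ r c, 48 ≤ c → e r c = 0 := fun r c hc =>
    hER _ (.inr (by have := Nat.mul_le_mul_left p hc; omega))
  have hy : ∀ r < p, ∀ k < 36, ∑ j ∈ range 37, centF Mq Zq pi k j * yv (e r) (o r) j = 0 :=
    fun r h k h' => (cent_eq (e r) (o r) (e1 r h) (fun c hc => hO _ (.inl (low r h c hc)))
      (hO _ (.inr (by omega))) (hr r h) k).trans (hk r h k h')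
  have all : ∀ r < p, e r 14 = 0 := by
    intro s hs
    by_contra hne
    have prop : ∀ r < p, ∀ c, e s 14 * e r c = e r 14 * e s c := fun r h c => by
      by_cases h1 : c < 14
      · rw [e1 r h c h1, e1 s hs c h1, mul_zero, mul_zero]
      by_cases h2 : 48 ≤ c
      · rw [e2 r c h2, e2 s c h2, mul_zero, mul_zero]
      have := ker (hd 0) (fun j => e s 14 * yv (e r) (o r) j - e r 14 * yv (e s) (o s) j)
        (fun k hk => by
          have a1 := hy r h k hk
          have a2 := hy s hs k hk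
          simp only [mul_sub, sum_sub_distrib, mul_left_comm (centF Mq Zq pi k _), ← mul_sum, a1, a2,
            mul_zero, sub_zero])
        (by rw [lam0]; simp [yv, mul_comm]) (c - 14) (by omega)
      simp only [yv, if_pos (show c - 14 < 34 by omega), show 14 + (c - 14) = c by omega] at this
      exact sub_eq_zero.1 this
    set H : F[X] := ∑ c ∈ range 48, C (e s c) * X ^ c with hH
    have cH : ∀ c, H.coeff c = e s c := fun c => by
      simp only [hH, finsetSum_coeff, coeff_C_mul_X_pow, sum_ite_eq, mem_range]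
      split_ifs with h
      exacts [rfl, (e2 s c (by omega)).symm]
    set Q : F[X] := ∑ r ∈ range p, C (e r 14) * X ^ r with hQ
    have cQ : ∀ r, Q.coeff r = if r < p then e r 14 else 0 := fun r => by
      simp only [hQ, finsetSum_coeff, coeff_C_mul_X_pow, sum_ite_eq, mem_range]
    have fac : C (e s 14) * E * R = Q * expand F p H := by
      ext n
      rw [← Nat.mod_add_div n p, sec_poly (Nat.mod_lt _ hp), sum_range_succ', sum_eq_zero, zero_add,
        mul_assoc, coeff_C_mul, mul_zero, add_zero, cQ, if_pos (Nat.mod_lt _ hp), Nat.sub_zero, cH]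
      · exact prop _ (Nat.mod_lt _ hp) _
      · intro c _
        rw [cQ, if_neg (by rw [mul_add]; omega), zero_mul]
    have ev : ∀ x : F, H.eval x = ∑ c ∈ range 48, e s c * x ^ c := fun x => by
      simp [hH, eval_finsetSum]
    have y0 : yv (e s) (o s) 0 ≠ 0 := by simpa [yv] using hne
    have c1 : IsCoprime (X - C 1) (expand F p H) := coprime_root (by
      rw [expand_eval, one_pow, ev, ← (lam12 (e s) (o s) (e1 s hs)).1]
      exact fun h => y0 (ker (hd 1) _ (hy s hs) h 0 (by omega)))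
    have c2 : IsCoprime (X - C (-1)) (expand F p H) := coprime_root (by
      rw [expand_eval, Odd.neg_one_pow ⟨m, hm⟩, ev, ← (lam12 (e s) (o s) (e1 s hs)).2]
      exact fun h => y0 (ker (hd 2) _ (hy s hs) h 0 (by omega)))
    have c3 : IsCoprime R (expand F p H) := by
      have := (c1.mul_left c2).neg_left.pow_left (m := m)
      rwa [show -((X - C 1) * (X - C (-1))) = (1 - X ^ 2 : F[X]) by simp only [C_neg, C_1]; ring] at this
    have d1 : R ∣ Q := c3.dvd_of_dvd_mul_right (fac ▸ Dvd.intro_left _ rfl)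
    have d0 : X - C 0 ∣ Q := by
      rw [C_0, sub_zero, X_dvd_iff, cQ, if_pos hp]
      exact hER _ (.inl (by omega))
    have c4 : IsCoprime (X - C 0) R := coprime_root (by simp [hR])
    have nQ : Q ≠ 0 := fun h => hne (by simpa [h, hs] using (cQ s).symm)
    have := natDegree_le_of_dvd (c4.mul_dvd d0 d1) nQ
    rw [C_0, sub_zero, natDegree_X_mul nR, dR] at this
    have h3 : Q.natDegree ≤ 2 * m := natDegree_le_iff_coeff_eq_zero.2 fun n hn => by
      rw [cQ, if_neg (by omega)]
    omega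
  have y0 : ∀ r < p, ∀ j < 37, yv (e r) (o r) j = 0 := fun r h =>
    ker (hd 0) _ (hy r h) (by rw [lam0]; simpa [yv] using all r h)
  have ez : ∀ r < p, ∀ c, e r c = 0 := fun r h c => by
    by_cases h1 : c < 14
    · exact e1 r h c h1
    by_cases h2 : 48 ≤ c
    · exact e2 r c h2
    have := y0 r h (c - 14) (by omega)
    simpa only [yv, if_pos (show c - 14 < 34 by omega), show 14 + (c - 14) = c by omega] using this
  constructor
  · refine (mul_eq_zero.1 (show E * R = 0 from ?_)).resolve_right nR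
    ext n
    rw [← Nat.mod_add_div n p]
    exact ez _ (Nat.mod_lt _ hp) _
  · ext n
    rw [← Nat.mod_add_div n p, coeff_zero]
    generalize n / p = c
    have h := Nat.mod_lt n hp
    by_cases h1 : c < 44
    · have := hr _ h c h1
      rwa [sum_eq_zero fun c _ => by rw [show (E * R).coeff _ = 0 from ez _ h c, zero_mul],
        zero_add] at this
    by_cases h2 : 47 ≤ c
    · exact hO _ (.inr (by have := Nat.mul_le_mul_left p h2; omega))
    have := y0 _ h (c - 10) (by omega)
    simpa only [yv, if_neg (show ¬ c - 10 < 34 by omega), show 10 + (c - 10) = c by omega] using this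

end core

section indep

theorem indepK (hC : Col) {F K : Type} [Field F] [Field K] [Algebra F K] (w : K) (h2 : (2 : K) ≠ 0)
    (hw : ∀ q : F[X], aeval w q = 0 → q = 0) {N : ℕ} (x : Fin (36 * N) → F)
    (hE : ∑ l, C (x l) * (cE N l).map (Int.castRingHom F) = 0)
    (hO : ∑ l, C (x l) * (cO N l).map (Int.castRingHom F) = 0) : x = 0 := by
  have w0 : w ≠ 0 := fun h => X_ne_zero (hw X (by simpa using h))
  have w1 : 1 + w ^ 2 ≠ 0 := fun h => by
    have := congrArg (eval 0) (hw (1 + X ^ 2) (by simpa using h))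
    simp at this
  set t : K := 2 * w / (1 + w ^ 2) with ht
  set ρ : K := (1 - w ^ 2) / (1 + w ^ 2) with hρ
  have t0 : t ≠ 0 := div_ne_zero (mul_ne_zero h2 w0) w1
  have r1 : ρ ^ 2 = 1 - t ^ 2 := by rw [ht, hρ]; field_simp; ring
  have r2 : 1 + -ρ = t * w := by rw [ht, hρ]; field_simp; ring
  have r3 : (1 + ρ) * w = t := by rw [ht, hρ]; field_simp; ring
  have am : ∀ q : ℤ[X], aeval t (q.map (Int.castRingHom F)) = aeval t q := fun q => by
    rw [aeval_def, aeval_def, eval₂_map]
    congr 1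
    exact RingHom.ext_int _ _
  have key : ∀ l < 36 * N, (aeval t (cE N l) + aeval t (cO N l) * ρ) * w ^ (3 * N) =
      t ^ (47 * N) * w ^ l := fun l hl => by
    unfold cE cO
    split_ifs with h
    · obtain ⟨u, rfl⟩ := Nat.exists_eq_add_of_le h
      obtain ⟨v, hv⟩ : ∃ v, 47 * N = v + u := ⟨47 * N - u, by omega⟩
      have := hC.1 K t (-ρ) (by rw [neg_sq, r1]) u
      rw [show Nat.dist (3 * N + u) (3 * N) = u by unfold Nat.dist; omega, hv, Nat.add_sub_cancel]
      simp only [map_mul, map_pow, aeval_X, map_neg, map_one]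
      rw [r2, mul_pow] at this
      rw [pow_add, pow_add]
      linear_combination -t ^ v * w ^ (3 * N) * this
    · obtain ⟨u, hu⟩ := Nat.exists_eq_add_of_le (not_le.1 h).le
      obtain ⟨v, hv⟩ : ∃ v, 47 * N = v + u := ⟨47 * N - u, by omega⟩
      have := hC.1 K t ρ r1 u
      rw [show Nat.dist l (3 * N) = u by unfold Nat.dist; omega, hv, Nat.add_sub_cancel, hu]
      simp only [map_mul, map_pow, aeval_X, map_one]
      have h4 : (1 + ρ) ^ u * w ^ u = t ^ u := by rw [← mul_pow, r3]
      rw [pow_add, pow_add]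
      linear_combination -t ^ v * w ^ l * w ^ u * this + t ^ v * w ^ l * h4
  have a1 := congrArg (aeval t) hE
  have a2 := congrArg (aeval t) hO
  simp only [map_sum, map_mul, aeval_C, am, map_zero] at a1 a2
  have a3 : t ^ (47 * N) * aeval w (∑ l : Fin (36 * N), C (x l) * X ^ (l : ℕ)) = 0 := by
    simp only [map_sum, map_mul, aeval_C, map_pow, aeval_X, mul_sum]
    have : ∀ l : Fin (36 * N), t ^ (47 * N) * (algebraMap F K (x l) * w ^ (l : ℕ)) =
        algebraMap F K (x l) * aeval t (cE N l) * w ^ (3 * N) +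
          algebraMap F K (x l) * aeval t (cO N l) * (ρ * w ^ (3 * N)) := fun l => by
      linear_combination -algebraMap F K (x l) * key l l.2
    simp only [this, sum_add_distrib, ← sum_mul, a1, a2, zero_mul, add_zero]
  have a4 := hw _ ((mul_eq_zero.1 a3).resolve_left (pow_ne_zero _ t0))
  ext l
  have := congrArg (coeff · l) a4
  simpa [coeff_C_mul_X_pow, Fin.val_inj] using this

theorem indep (hC : Col) {F : Type} [Field F] (h2 : (2 : F) ≠ 0) {N : ℕ} (x : Fin (36 * N) → F)
    (hE : ∑ l, C (x l) * (cE N l).map (Int.castRingHom F) = 0)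
    (hO : ∑ l, C (x l) * (cO N l).map (Int.castRingHom F) = 0) : x = 0 := by
  refine indepK hC (K := RatFunc F) RatFunc.X ?_ (fun q hq => ?_) x hE hO
  · rw [← map_ofNat (algebraMap F (RatFunc F)) 2]
    exact (_root_.map_ne_zero _).2 h2
  · rw [RatFunc.aeval_X_left_eq_algebraMap] at hq
    exact (RatFunc.algebraMap_injective F) (hq.trans (map_zero _).symm)

end indep

end

end Crest.Agent.R6.NonVanAux
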