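import Crest.Agent.R6.Defs

/-! # Row 6: reduction of `p`-integral rationals modulo `p` -/

set_option autoImplicit false

open Finset Polynomial

namespace Crest.Agent.R6.RedP

variable {p : ℕ} [hp : Fact p.Prime]

/-- `q` is `p`-integral with reduction `z`. -/
def Red (p : ℕ) [Fact p.Prime] (q : ℚ) (z : ZMod p) : Prop :=
  ∃ a : ℤ_[p], (a : ℚ_[p]) = q ∧ PadicInt.toZMod a = z

/-- the reduction (junk `0` on non-integral numbers) -/
noncomputable def rd (p : ℕ) [Fact p.Prime] (q : ℚ) : ZMod p :=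
  if h : ‖(q : ℚ_[p])‖ ≤ 1 then PadicInt.toZMod (⟨q, h⟩ : ℤ_[p]) else 0

theorem red_rd {q : ℚ} (h : padicNorm p q ≤ 1) : Red p q (rd p q) := by
  have h' : ‖(q : ℚ_[p])‖ ≤ 1 := by rw [Padic.eq_padicNorm]; exact_mod_cast h
  exact ⟨⟨q, h'⟩, rfl, by rw [rd, dif_pos h']⟩

theorem Red.unique {q : ℚ} {z z' : ZMod p} (h : Red p q z) (h' : Red p q z') : z = z' := by
  obtain ⟨a, ha, rfl⟩ := h
  obtain ⟨a', ha', rfl⟩ := h'
  rw [Subtype.ext (ha.trans ha'.symm)]

theorem Red.le_one {q : ℚ} {z : ZMod p} (h : Red p q z) : padicNorm p q ≤ 1 := by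
  obtain ⟨a, ha, -⟩ := h
  have := a.2
  rw [ha, Padic.eq_padicNorm] at this
  exact_mod_cast this

theorem Red.rd_eq {q : ℚ} {z : ZMod p} (h : Red p q z) : rd p q = z :=
  (red_rd h.le_one).unique h

theorem Red.lt_one_iff {q : ℚ} {z : ZMod p} (h : Red p q z) : padicNorm p q < 1 ↔ z = 0 := by
  obtain ⟨a, ha, rfl⟩ := h
  rw [← RingHom.mem_ker, PadicInt.ker_toZMod, IsLocalRing.mem_maximalIdeal, PadicInt.mem_nonunits,
    PadicInt.norm_def, ha, Padic.eq_padicNorm]
  exact_mod_cast Iff.rfl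

theorem red_zero_of_lt {q : ℚ} (h : padicNorm p q < 1) : Red p q 0 := by
  have := red_rd h.le
  rwa [this.lt_one_iff.1 h] at this

theorem Red.congr {q q' : ℚ} {z z' : ZMod p} (h : Red p q z) (hq : q = q') (hz : z = z') :
    Red p q' z' := hq ▸ hz ▸ h

theorem red_int (n : ℤ) : Red p n n := ⟨n, by simp, by simp⟩

theorem red_nat (n : ℕ) : Red p n n := ⟨n, by simp, by simp⟩

theorem red_zero : Red p 0 0 := ⟨0, by simp, by simp⟩

theorem red_one : Red p 1 1 := ⟨1, by simp, by simp⟩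

theorem red_two : Red p 2 2 := by exact_mod_cast red_nat (p := p) 2

theorem red_p : Red p p 0 := (red_nat p).congr rfl (ZMod.natCast_self p)

theorem Red.add {q q' : ℚ} {z z' : ZMod p} (h : Red p q z) (h' : Red p q' z') :
    Red p (q + q') (z + z') := by
  obtain ⟨a, ha, rfl⟩ := h
  obtain ⟨a', ha', rfl⟩ := h'
  exact ⟨a + a', by simp [ha, ha'], by simp⟩

theorem Red.mul {q q' : ℚ} {z z' : ZMod p} (h : Red p q z) (h' : Red p q' z') :
    Red p (q * q') (z * z') := by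
  obtain ⟨a, ha, rfl⟩ := h
  obtain ⟨a', ha', rfl⟩ := h'
  exact ⟨a * a', by simp [ha, ha'], by simp⟩

theorem Red.neg {q : ℚ} {z : ZMod p} (h : Red p q z) : Red p (-q) (-z) := by
  obtain ⟨a, ha, rfl⟩ := h
  exact ⟨-a, by simp [ha], by simp⟩

theorem Red.sub {q q' : ℚ} {z z' : ZMod p} (h : Red p q z) (h' : Red p q' z') :
    Red p (q - q') (z - z') := by
  simpa [sub_eq_add_neg] using h.add h'.neg

theorem Red.pow {q : ℚ} {z : ZMod p} (h : Red p q z) (n : ℕ) : Red p (q ^ n) (z ^ n) := by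
  induction n with
  | zero => simpa using red_one
  | succ n ih => simpa [pow_succ] using ih.mul h

theorem Red.inv {q : ℚ} {z : ZMod p} (h : Red p q z) (hz : z ≠ 0) : Red p q⁻¹ z⁻¹ := by
  obtain ⟨a, ha, rfl⟩ := h
  have hu : IsUnit a := by
    by_contra hn
    apply hz
    rw [← RingHom.mem_ker, PadicInt.ker_toZMod, IsLocalRing.mem_maximalIdeal]
    exact hn
  obtain ⟨b, hb⟩ := hu.exists_right_inv
  refine ⟨b, ?_, ?_⟩
  · have : (a : ℚ_[p]) * b = 1 := by exact_mod_cast congrArg (fun x : ℤ_[p] => (x : ℚ_[p])) hb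
    rw [Rat.cast_inv, ← ha]
    exact eq_inv_of_mul_eq_one_right this
  · exact eq_inv_of_mul_eq_one_right (by rw [← map_mul, hb, map_one])

theorem Red.div {q q' : ℚ} {z z' : ZMod p} (h : Red p q z) (h' : Red p q' z') (hz : z' ≠ 0) :
    Red p (q / q') (z / z') := by
  simpa [div_eq_mul_inv] using h.mul (h'.inv hz)

theorem Red.ne_zero {q : ℚ} {z : ZMod p} (h : Red p q z) (hz : z ≠ 0) : q ≠ 0 := by
  rintro rfl
  exact hz (h.unique red_zero)

theorem red_sum {ι : Type*} {s : Finset ι} {f : ι → ℚ} {g : ι → ZMod p}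
    (h : ∀ i ∈ s, Red p (f i) (g i)) : Red p (∑ i ∈ s, f i) (∑ i ∈ s, g i) := by
  classical
  induction s using Finset.induction_on with
  | empty => simpa using red_zero
  | insert a s ha ih =>
    rw [sum_insert ha, sum_insert ha]
    exact (h a (mem_insert_self _ _)).add (ih fun i hi => h i (mem_insert_of_mem hi))

theorem red_prod {ι : Type*} {s : Finset ι} {f : ι → ℚ} {g : ι → ZMod p}
    (h : ∀ i ∈ s, Red p (f i) (g i)) : Red p (∏ i ∈ s, f i) (∏ i ∈ s, g i) := by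
  classical
  induction s using Finset.induction_on with
  | empty => simpa using red_one
  | insert a s ha ih =>
    rw [prod_insert ha, prod_insert ha]
    exact (h a (mem_insert_self _ _)).mul (ih fun i hi => h i (mem_insert_of_mem hi))

theorem red_det {n : Type*} [Fintype n] [DecidableEq n] {A : Matrix n n ℚ} {B : Matrix n n (ZMod p)}
    (h : ∀ i j, Red p (A i j) (B i j)) : Red p A.det B.det := by
  rw [Matrix.det_apply', Matrix.det_apply']
  exact red_sum fun σ _ => (red_int _).mul (red_prod fun i _ => h _ _)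

theorem Red.sub_lt {q q' : ℚ} {z : ZMod p} (h : Red p q z) (h' : Red p q' z) :
    padicNorm p (q - q') < 1 := (h.sub h').lt_one_iff.2 (sub_self z)

theorem Red.of_sub_lt {q q' : ℚ} {z : ZMod p} (h' : Red p q' z) (h : padicNorm p (q - q') < 1) :
    Red p q z := ((red_zero_of_lt h).add h').congr (by ring) (zero_add z)

theorem nat_ne {n : ℕ} (h0 : 0 < n) (h1 : n < p) : (n : ZMod p) ≠ 0 := by
  rw [Ne, ZMod.natCast_eq_zero_iff]
  exact Nat.not_dvd_of_pos_of_lt h0 h1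

theorem sum_block {M : Type*} [AddCommMonoid M] (p a₀ a₁ : ℕ) (G : ℕ → M) :
    ∑ l ∈ range (a₀ + p * a₁), G l =
      ∑ l₁ ∈ range a₁, ∑ l₀ ∈ range p, G (l₀ + p * l₁) + ∑ l₀ ∈ range a₀, G (l₀ + p * a₁) := by
  have : ∑ l ∈ range (p * a₁), G l = ∑ l₁ ∈ range a₁, ∑ l₀ ∈ range p, G (l₀ + p * l₁) := by
    induction a₁ with
    | zero => simp
    | succ a ih => rw [Nat.mul_succ, sum_range_add, ih, sum_range_succ]; simp only [add_comm]
  rw [add_comm a₀, sum_range_add, this]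
  simp only [add_comm]

theorem red_block {a₀ a₁ : ℕ} (ha : a₀ ≤ p) {g : ℕ → ℚ} {h : ℕ → ℕ → ZMod p}
    (H : ∀ l₀ < p, ∀ l₁, l₁ < a₁ ∨ (l₁ = a₁ ∧ l₀ < a₀) → Red p (g (l₀ + p * l₁)) (h l₀ l₁)) :
    Red p (∑ l ∈ range (a₀ + p * a₁), g l)
      (∑ l₁ ∈ range a₁, ∑ l₀ ∈ range p, h l₀ l₁ + ∑ l₀ ∈ range a₀, h l₀ a₁) := by
  rw [sum_block]
  exact (red_sum fun l₁ h1 => red_sum fun l₀ h0 => H _ (mem_range.1 h0) _ (.inl (mem_range.1 h1))).add
    (red_sum fun l₀ h0 => H _ ((mem_range.1 h0).trans_le ha) _ (.inr ⟨rfl, mem_range.1 h0⟩))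

/-! ### central binomial coefficients and `R = (1 - X²)^m` -/

/-- reduction of `Bk` -/
noncomputable def b (p : ℕ) [Fact p.Prime] (k : ℕ) : ZMod p := (Nat.centralBinom k : ZMod p) / 4 ^ k

/-- coefficients of `(1 - X²)^m` -/
noncomputable def rho (m n : ℕ) : ℤ := ((1 - X ^ 2) ^ m : ℤ[X]).coeff n

theorem rho_eq (m n : ℕ) : rho m n = if 2 ∣ n then (-1) ^ (n / 2) * (m.choose (n / 2) : ℤ) else 0 := by
  have h1 : ((1 - X ^ 2) ^ m : ℤ[X]) = expand ℤ 2 (((1 + X) ^ m : ℤ[X]).comp (C (-1) * X)) := by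
    simp [sub_eq_add_neg]
  rw [rho, h1, coeff_expand two_pos, comp_C_mul_X_coeff, coeff_one_add_X_pow, mul_comm]

theorem rho_odd (m a : ℕ) : rho m (2 * a + 1) = 0 := by
  rw [rho_eq, if_neg (by omega)]

theorem rho_even (m a : ℕ) : rho m (2 * a) = (-1) ^ a * (m.choose a : ℤ) := by
  rw [rho_eq, if_pos (by omega), Nat.mul_div_cancel_left _ two_pos]

theorem rho_big {m n : ℕ} (h : 2 * m < n) : rho m n = 0 := by
  rw [rho_eq]
  split_ifs with h2
  · rw [Nat.choose_eq_zero_of_lt (by omega)]; simp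
  · rfl

theorem rho_symm {m n : ℕ} (h : n ≤ 2 * m) : rho m (2 * m - n) = (-1) ^ m * rho m n := by
  obtain ⟨a, rfl | rfl⟩ := Nat.even_or_odd' n
  · obtain ⟨c, rfl⟩ : ∃ c, m = a + c := ⟨m - a, by omega⟩
    rw [show 2 * (a + c) - 2 * a = 2 * c by omega, rho_even, rho_even, Nat.choose_symm_add,
      ← mul_assoc, ← pow_add, show a + c + a = 2 * a + c by ring, pow_add, pow_mul]
    simp
  · rw [show 2 * m - (2 * a + 1) = 2 * (m - a - 1) + 1 by omega, rho_odd, rho_odd, mul_zero]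

variable {m : ℕ}

theorem two_ne (hm : p = 2 * m + 1) : (2 : ZMod p) ≠ 0 := by
  have := hp.out.two_le
  exact_mod_cast nat_ne (p := p) (n := 2) two_pos (by omega)

theorem four_ne (hm : p = 2 * m + 1) : (4 : ZMod p) ≠ 0 := by
  rw [show (4 : ZMod p) = 2 * 2 by norm_num]
  exact mul_ne_zero (two_ne hm) (two_ne hm)

theorem red_Bk (hm : p = 2 * m + 1) (k : ℕ) : Red p (Bk k) (b p k) :=
  (red_nat _).div ((by exact_mod_cast red_nat (p := p) 4 : Red p 4 4).pow k)
    (pow_ne_zero _ (four_ne hm))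

theorem b_zero : b p 0 = 1 := by simp [b]

theorem b_succ (hm : p = 2 * m + 1) (k : ℕ) :
    (2 * k + 2 : ZMod p) * b p (k + 1) = (2 * k + 1) * b p k := by
  have h := congrArg (Nat.cast : ℕ → ZMod p) (Nat.succ_mul_centralBinom_succ k)
  push_cast at h
  have := four_ne hm
  simp only [b]
  rw [← mul_div_assoc, ← mul_div_assoc, div_eq_div_iff (pow_ne_zero _ this) (pow_ne_zero _ this)]
  linear_combination 2 * 4 ^ k * h

theorem cast_m (hm : p = 2 * m + 1) : (2 * m + 1 : ZMod p) = 0 := by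
  have : ((2 * m + 1 : ℕ) : ZMod p) = 0 := by rw [← hm]; exact ZMod.natCast_self p
  exact_mod_cast this

theorem b_eq (hm : p = 2 * m + 1) {k : ℕ} (hk : k < p) : b p k = (-1) ^ k * (m.choose k : ZMod p) := by
  induction k with
  | zero => simp [b]
  | succ k ih =>
    have h1 : ((k + 1 : ℕ) : ZMod p) ≠ 0 := nat_ne (by omega) hk
    have h2 : (2 * k + 2 : ZMod p) ≠ 0 := by
      have := mul_ne_zero (two_ne hm) h1
      push_cast at this
      rwa [mul_add, mul_one] at this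
    apply mul_left_cancel₀ h2
    rw [b_succ hm, ih (by omega)]
    rcases le_or_gt k m with h | h
    · have h3 := congrArg (Nat.cast : ℕ → ZMod p) (Nat.choose_succ_right_eq m k)
      push_cast [Nat.cast_sub h] at h3
      linear_combination (-1) ^ k * 2 * h3 + (-1) ^ k * (m.choose k : ZMod p) * cast_m hm
    · rw [Nat.choose_eq_zero_of_lt h, Nat.choose_eq_zero_of_lt (by omega)]
      simp

theorem rho_b (hm : p = 2 * m + 1) {k : ℕ} (hk : k < p) : (rho m (2 * k) : ZMod p) = b p k := by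
  rw [rho_even, b_eq hm hk]; push_cast; rfl

theorem b_m (hm : p = 2 * m + 1) : b p m = (-1) ^ m := by
  rw [b_eq hm (by omega)]; simp

theorem b_big (hm : p = 2 * m + 1) {k : ℕ} (h1 : m < k) (hk : k < p) : b p k = 0 := by
  rw [b_eq hm hk, Nat.choose_eq_zero_of_lt h1]; simp

theorem b_ne (hm : p = 2 * m + 1) {k : ℕ} (hk : k ≤ m) : b p k ≠ 0 := by
  induction k with
  | zero => simp [b]
  | succ k ih =>
    intro h
    have h1 := b_succ hm k
    rw [h, mul_zero] at h1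
    have h2 : ((2 * k + 1 : ℕ) : ZMod p) ≠ 0 := nat_ne (by omega) (by omega)
    push_cast at h2
    exact mul_ne_zero h2 (ih (by omega)) h1.symm

theorem eps_sq (m : ℕ) : ((-1 : ZMod p) ^ m) * (-1) ^ m = 1 := by
  rw [← mul_pow]; simp

theorem sum_b_sq (hm : p = 2 * m + 1) : ∑ k ∈ range (m + 1), b p k ^ 2 = (-1) ^ m := by
  have h1 : ∑ k ∈ range (m + 1), b p k ^ 2 = ((∑ k ∈ range (m + 1), m.choose k ^ 2 : ℕ) : ZMod p) := by
    push_cast
    refine sum_congr rfl fun k hk => ?_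
    rw [b_eq hm (by have := mem_range.1 hk; omega), mul_pow, ← pow_mul, mul_comm k, pow_mul]
    simp
  have h2 : (4 : ZMod p) ^ m = 1 := by
    rw [show (4 : ZMod p) = 2 ^ 2 by norm_num, ← pow_mul, show 2 * m = p - 1 by omega]
    exact ZMod.pow_card_sub_one_eq_one (two_ne hm)
  rw [h1, Nat.sum_range_choose_sq, ← b_m hm, b, h2, div_one, Nat.centralBinom]

theorem b_lucas (hm : p = 2 * m + 1) {l₀ : ℕ} (h : l₀ < p) (l₁ : ℕ) :
    b p (l₀ + p * l₁) = b p l₀ * b p l₁ := by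
  have h0 := hp.out.pos
  have h1 := (ZMod.natCast_eq_natCast_iff _ _ _).2
    (Choose.choose_modEq_choose_mod_mul_choose_div_nat (n := 2 * (l₀ + p * l₁)) (k := l₀ + p * l₁)
      (p := p))
  have h2 : (4 : ZMod p) ^ (l₀ + p * l₁) = 4 ^ l₀ * 4 ^ l₁ := by
    rw [pow_add, pow_mul, ZMod.pow_card]
  rw [Nat.add_mul_mod_self_left, Nat.add_mul_div_left _ _ h0, Nat.mod_eq_of_lt h,
    Nat.div_eq_of_lt h, zero_add] at h1
  rcases le_or_gt l₀ m with h3 | h3
  · rw [show 2 * (l₀ + p * l₁) = 2 * l₀ + p * (2 * l₁) by ring, Nat.add_mul_mod_self_left,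
      Nat.add_mul_div_left _ _ h0, Nat.mod_eq_of_lt (by omega), Nat.div_eq_of_lt (by omega),
      zero_add] at h1
    simp only [b, Nat.centralBinom]
    rw [show 2 * (l₀ + p * l₁) = 2 * l₀ + p * (2 * l₁) by ring, h1, h2]
    push_cast
    rw [div_mul_div_comm]
  · obtain ⟨c, hc⟩ : ∃ c, 2 * l₀ = c + p := ⟨2 * l₀ - p, by omega⟩
    have e : 2 * (l₀ + p * l₁) = c + p * (2 * l₁ + 1) := by rw [mul_add, hc]; ring
    rw [b_big hm h3 h, zero_mul, b, Nat.centralBinom, h1, e, Nat.add_mul_mod_self_left,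
      Nat.mod_eq_of_lt (by omega), Nat.choose_eq_zero_of_lt (show c < l₀ by omega)]
    simp

end Crest.Agent.R6.RedP
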