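import Crest.Agent.R6.Defs

/-! Row 6, task TOP: the final contradiction. -/

set_option autoImplicit false

open Finset Filter Topology

namespace Crest.Agent.R6

namespace TopAux

theorem norm_den (q : ℕ) [hq : Fact q.Prime] {x : ℚ} (hx : x ≠ 0) (h : q ∣ x.den) :
    padicNorm q x = (q : ℚ) ^ (x.den.factorization q) := by
  have h1 : ¬ q ∣ x.num.natAbs := fun h2 =>
    hq.out.one_lt.ne' (Nat.eq_one_of_dvd_coprimes x.reduced h2 h)
  rw [padicNorm.eq_zpow_of_nonzero hx, padicValRat, padicValInt, padicValNat.eq_zero_of_not_dvd h1,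
    Nat.factorization_def _ hq.out]
  simp

theorem fact_le (q : ℕ) [hq : Fact q.Prime] {x : ℚ} (hx : x ≠ 0) (h : q ∣ x.den) {B : ℝ}
    (hB : ((padicNorm q x : ℚ) : ℝ) ≤ Real.exp B) : (x.den.factorization q : ℝ) * Real.log q ≤ B := by
  rw [norm_den q hx h] at hB
  have h0 : (0 : ℝ) < q := by exact_mod_cast hq.out.pos
  rw [← Real.log_pow, Real.log_le_iff_le_exp (pow_pos h0 _)]
  exact_mod_cast hB

theorem norm_le_one (q : ℕ) [hq : Fact q.Prime] {x : ℚ} (h : ¬ q ∣ x.den) : padicNorm q x ≤ 1 := by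
  by_cases hx : x = 0
  · simp [hx]
  rw [padicNorm.eq_zpow_of_nonzero hx, padicValRat, padicValNat.eq_zero_of_not_dvd h]
  refine zpow_le_one_of_nonpos₀ (by exact_mod_cast hq.out.one_lt.le) ?_
  simp

theorem norm_le_den (q : ℕ) [hq : Fact q.Prime] (x : ℚ) : max 1 (padicNorm q x) ≤ x.den := by
  have h1 : (1 : ℚ) ≤ x.den := by exact_mod_cast x.den_pos
  refine max_le h1 ?_
  by_cases h : q ∣ x.den
  · by_cases hx : x = 0
    · simp [hx]
    rw [norm_den q hx h]
    exact_mod_cast Nat.ordProj_le q x.den_ne_zero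
  · exact (norm_le_one q h).trans h1

theorem log_den (x : ℚ) :
    Real.log x.den = ∑ q ∈ x.den.primeFactors, (x.den.factorization q : ℝ) * Real.log q := by
  conv_lhs => rw [← Nat.prod_factorization_pow_eq_self x.den_ne_zero]
  rw [Finsupp.prod, Nat.support_factorization, Nat.cast_prod, Real.log_prod]
  · exact sum_congr rfl fun q _ => by rw [Nat.cast_pow, Real.log_pow]
  · intro q hq
    have := (Nat.prime_of_mem_primeFactors hq).pos
    positivity

theorem one_le_mul_den {x : ℚ} (hx : x ≠ 0) : 1 ≤ |(x : ℝ)| * x.den := by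
  have h1 : (x : ℝ) * x.den = x.num := by exact_mod_cast Rat.mul_den_eq_num x
  have h2 : |(x : ℝ)| * x.den = |(x.num : ℝ)| := by
    rw [← h1, abs_mul, Nat.abs_cast]
  rw [h2]
  exact_mod_cast Int.one_le_abs (Rat.num_ne_zero.2 hx)

theorem good (hC : Crude) (hB : LevelB) (hL : LevelC) (q : ℕ) [hq : Fact q.Prime] (h2 : q ≠ 2)
    {N : ℕ} (hN : 1 ≤ N) {G : ℚ} (hG : ¬ q ∣ G.den) (hs : 49 * N < q ^ 2) :
    padicNorm q (Dl N G) ≤ (q : ℚ) ^ Fex N q := by
  have hG1 := norm_le_one q hG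
  have hq1 : (1 : ℚ) ≤ q := by exact_mod_cast hq.out.one_lt.le
  unfold Fex
  split_ifs with a1 a2
  · refine (hC q h2 N G).trans ?_
    rw [max_eq_left hG1, mul_one, ← pow_mul]
    refine pow_le_pow_right₀ hq1 ?_
    have : Nat.log q (49 * N) < 2 := Nat.log_lt_of_lt_pow (by omega) hs
    nlinarith
  · exact hB q N G hN (by omega) (by omega) hG1
  · exact hL q N G hN (by omega) hG1

theorem crude' (hC : Crude) (q : ℕ) [hq : Fact q.Prime] (h2 : q ≠ 2) {N : ℕ} (hN : 1 ≤ N) (G : ℚ) :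
    ((padicNorm q (Dl N G) : ℚ) : ℝ) ≤
      Real.exp (36 * N * (2 * Real.log (49 * N) + Real.log G.den)) := by
  have h1 : (q : ℚ) ^ (2 * Nat.log q (49 * N)) ≤ (49 * N) ^ 2 := by
    rw [mul_comm 2, pow_mul]
    refine pow_le_pow_left₀ (by positivity) ?_ 2
    exact_mod_cast Nat.pow_log_le_self q (by omega : 49 * N ≠ 0)
  have h3 : padicNorm q (Dl N G) ≤ ((49 * N) ^ 2 * G.den) ^ (36 * N) :=
    (hC q h2 N G).trans (pow_le_pow_left₀ (by positivity)
      (mul_le_mul h1 (norm_le_den q G) (by positivity) (by positivity)) _)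
  have hN0 : (0 : ℝ) < 49 * N := by positivity
  have hd : (0 : ℝ) < G.den := by exact_mod_cast G.den_pos
  have h4 : Real.exp (36 * N * (2 * Real.log (49 * N) + Real.log G.den)) =
      ((49 * N : ℝ) ^ 2 * G.den) ^ (36 * N) := by
    rw [show (36 * N : ℝ) = ((36 * N : ℕ) : ℝ) by push_cast; ring, Real.exp_nat_mul, Real.exp_add,
      show (2 : ℝ) = ((2 : ℕ) : ℝ) by norm_num, Real.exp_nat_mul, Real.exp_log hN0, Real.exp_log hd]
  rw [h4]
  exact_mod_cast h3

theorem den_bound (hC : Crude) (hB : LevelB) (hL : LevelC) {N : ℕ} (hN : 1 ≤ N) {G : ℚ}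
    (hx : Dl N G ≠ 0) {T : ℝ} (hT0 : 0 ≤ T) (hT : ((padicNorm 2 (Dl N G) : ℚ) : ℝ) ≤ Real.exp T) :
    Real.log (Dl N G).den ≤ T + ((Nat.sqrt (49 * N) + 1 + G.den.primeFactors.card : ℕ) : ℝ) *
      (36 * N * (2 * Real.log (49 * N) + Real.log G.den)) +
      ∑ p ∈ (range (49 * N + 1)).filter Nat.Prime, (Fex N p : ℝ) * Real.log p := by
  classical
  have hN1 : (1 : ℝ) ≤ N := by exact_mod_cast hN
  have hd : (1 : ℝ) ≤ G.den := by exact_mod_cast G.den_pos
  have hK : 0 ≤ 36 * N * (2 * Real.log (49 * N) + Real.log G.den) := by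
    have := Real.log_nonneg (show (1 : ℝ) ≤ 49 * N by linarith)
    have := Real.log_nonneg hd
    positivity
  generalize hKd : 36 * N * (2 * Real.log (49 * N) + Real.log G.den) = K at hK
  have hF : ∀ p : ℕ, 0 ≤ (Fex N p : ℝ) * Real.log p := fun p =>
    mul_nonneg (Nat.cast_nonneg _) (Real.log_natCast_nonneg p)
  set A : Finset ℕ := range (Nat.sqrt (49 * N) + 1) ∪ G.den.primeFactors with hA
  set P : Finset ℕ := (range (49 * N + 1)).filter Nat.Prime with hP
  have key : ∀ q ∈ (Dl N G).den.primeFactors, ((Dl N G).den.factorization q : ℝ) * Real.log q ≤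
      (if q = 2 then T else 0) + (if q ∈ A then K else 0) +
        (if q ∈ P then (Fex N q : ℝ) * Real.log q else 0) := by
    intro q hq
    have hqp := Nat.prime_of_mem_primeFactors hq
    have hqd := Nat.dvd_of_mem_primeFactors hq
    have : Fact q.Prime := ⟨hqp⟩
    have b1 : 0 ≤ if q = 2 then T else 0 := by split_ifs <;> simp [hT0]
    have b2 : 0 ≤ if q ∈ A then K else 0 := by split_ifs <;> simp [hK]
    have b3 : 0 ≤ if q ∈ P then (Fex N q : ℝ) * Real.log q else 0 := by split_ifs <;> simp [hF]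
    by_cases h2 : q = 2
    · subst h2
      have := fact_le 2 hx hqd hT
      rw [if_pos rfl]
      linarith
    by_cases hqA : q ∈ A
    · have := fact_le q hx hqd (crude' hC q h2 hN G)
      rw [if_pos hqA]
      linarith
    · rw [hA, mem_union, not_or, mem_range, Nat.mem_primeFactors] at hqA
      have hs : 49 * N < q ^ 2 := by
        have := Nat.lt_succ_sqrt' (49 * N)
        have h3 : Nat.sqrt (49 * N) + 1 ≤ q := not_lt.1 hqA.1
        exact this.trans_le (Nat.pow_le_pow_left h3 2)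
      have hG : ¬ q ∣ G.den := fun h => hqA.2 ⟨hqp, h, G.den_ne_zero⟩
      have h4 := good hC hB hL q h2 hN hG hs
      have h0 : (0 : ℝ) < q := by exact_mod_cast hqp.pos
      have h5 := fact_le q hx hqd (B := (Fex N q : ℝ) * Real.log q) (by
        rw [Real.exp_nat_mul, Real.exp_log h0]
        exact_mod_cast h4)
      by_cases hqP : q ∈ P
      · rw [if_pos hqP]
        linarith
      · have h6 : 49 * N < q := by
          by_contra h7
          exact hqP (mem_filter.2 ⟨mem_range.2 (by omega), hqp⟩)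
        have h8 : Fex N q = 0 := by
          unfold Fex
          rw [if_neg (by omega), if_neg (by omega)]
          omega
        rw [h8] at h5
        simp only [Nat.cast_zero, zero_mul] at h5
        linarith
  rw [log_den]
  refine (sum_le_sum key).trans ?_
  rw [sum_add_distrib, sum_add_distrib]
  refine add_le_add (add_le_add ?_ ?_) ?_
  · rw [sum_ite_eq']
    split_ifs <;> simp [hT0]
  · rw [sum_ite_mem, sum_const, nsmul_eq_mul]
    refine mul_le_mul_of_nonneg_right ?_ hK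
    have h1 := card_le_card (inter_subset_right (s₁ := (Dl N G).den.primeFactors) (s₂ := A))
    have h3 := card_union_le (range (Nat.sqrt (49 * N) + 1)) G.den.primeFactors
    rw [card_range] at h3
    exact_mod_cast h1.trans h3
  · rw [sum_ite_mem]
    exact sum_le_sum_of_subset_of_nonneg inter_subset_right fun p _ _ => hF p

theorem err (c g k : ℝ) (hc : 0 ≤ c) (hg : 0 ≤ g) (hk : 0 ≤ k) : ∃ N₀ : ℕ, ∀ N : ℕ, N₀ ≤ N → 1 ≤ N →
    c * N * Real.log (N + 1) + ((Nat.sqrt (49 * N) : ℝ) + 1 + g) *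
      (36 * N * (2 * Real.log (49 * N) + k)) ≤ 1 / 4 * (N : ℝ) ^ 2 := by
  set D : ℝ := 12 * c + (8 + g) * 36 * (24 + k) with hD
  have hD0 : 0 ≤ D := by positivity
  obtain ⟨N₀, hN₀⟩ := exists_nat_ge ((4 * D) ^ 4)
  refine ⟨N₀, fun N hN hN1 => ?_⟩
  have hN1' : (1 : ℝ) ≤ N := by exact_mod_cast hN1
  obtain ⟨s, hs0, hs⟩ : ∃ s : ℝ, 0 ≤ s ∧ s ^ 4 = N := by
    refine ⟨Real.sqrt (Real.sqrt N), Real.sqrt_nonneg _, ?_⟩
    rw [show 4 = 2 * 2 by norm_num, pow_mul, Real.sq_sqrt (Real.sqrt_nonneg _),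
      Real.sq_sqrt (by linarith)]
  have hs1 : 1 ≤ s := by
    by_contra h
    have := pow_lt_one₀ hs0 (not_le.1 h) (show 4 ≠ 0 by norm_num)
    linarith
  have hsD : 4 * D ≤ s := by
    refine le_of_pow_le_pow_left₀ (show 4 ≠ 0 by norm_num) hs0 ?_
    rw [hs]
    exact hN₀.trans (by exact_mod_cast hN)
  have l1 : Real.log (49 * N) ≤ 12 * s := by
    have h1 : Real.log (49 * N) ≤ Real.log ((3 * s) ^ 4) :=
      Real.log_le_log (by linarith) (by rw [mul_pow, hs]; linarith)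
    have h2 := Real.log_le_sub_one_of_pos (show 0 < 3 * s by linarith)
    rw [Real.log_pow] at h1
    push_cast at h1
    linarith
  have l0 : 0 ≤ Real.log (49 * N) := Real.log_nonneg (by linarith)
  have l2 : Real.log (N + 1) ≤ 12 * s :=
    (Real.log_le_log (by linarith) (by linarith)).trans l1
  have l3 : (Nat.sqrt (49 * N) : ℝ) ≤ 7 * s ^ 2 := by
    refine le_of_pow_le_pow_left₀ (show 2 ≠ 0 by norm_num) (by positivity) ?_
    have h1 : ((Nat.sqrt (49 * N) : ℕ) : ℝ) ^ 2 ≤ 49 * N := by exact_mod_cast Nat.sqrt_le' (49 * N)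
    calc _ ≤ 49 * (N : ℝ) := h1
      _ = _ := by rw [← hs]; ring
  have s2 : 1 ≤ s ^ 2 := one_le_pow₀ hs1
  have s3 : s ≤ s ^ 3 := by nlinarith
  have a1 : c * N * Real.log (N + 1) ≤ 12 * c * (N * s ^ 3) := by
    have := mul_le_mul_of_nonneg_left (l2.trans (by linarith : 12 * s ≤ 12 * s ^ 3))
      (show 0 ≤ c * N by positivity)
    linarith
  have a2 : (Nat.sqrt (49 * N) : ℝ) + 1 + g ≤ (8 + g) * s ^ 2 := by nlinarith
  have a3 : 2 * Real.log (49 * N) + k ≤ (24 + k) * s := by nlinarith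
  have a4 : ((Nat.sqrt (49 * N) : ℝ) + 1 + g) * (36 * N * (2 * Real.log (49 * N) + k)) ≤
      ((8 + g) * s ^ 2) * (36 * N * ((24 + k) * s)) :=
    mul_le_mul a2 (mul_le_mul_of_nonneg_left a3 (by positivity)) (by positivity) (by positivity)
  have a5 : D * (N * s ^ 3) ≤ s / 4 * (N * s ^ 3) :=
    mul_le_mul_of_nonneg_right (by linarith) (by positivity)
  have a6 : s / 4 * (N * s ^ 3) = 1 / 4 * (N : ℝ) ^ 2 := by rw [← hs]; ring
  have a7 : D * (N * s ^ 3) = 12 * c * (N * s ^ 3) + ((8 + g) * s ^ 2) * (36 * N * ((24 + k) * s)) := by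
    rw [hD]; ring
  linarith

end TopAux

open TopAux in
theorem main (hC : Crude) (hB : LevelB) (hL : LevelC) (h2 : TwoAdic) (hN : NonVan) (hP : PrimeSum)
    (hR : RealBd) : Main := by
  rintro ⟨G, hG⟩
  obtain ⟨c₁, hc₁⟩ := h2 G
  obtain ⟨c₂, hc₂⟩ := hR G hG
  obtain ⟨p₀, hp₀⟩ := hN G
  have hd : (1 : ℝ) ≤ G.den := by exact_mod_cast G.den_pos
  obtain ⟨N₀, hN₀⟩ := err (|c₁| + |c₂|) G.den.primeFactors.card (Real.log G.den) (by positivity)
    (by positivity) (Real.log_nonneg hd)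
  obtain ⟨N₁, hN₁⟩ := eventually_atTop.1 (hP.eventually (gt_mem_nhds (show (2413 : ℝ) < 2413.1 by norm_num)))
  obtain ⟨N, hNge, hNp⟩ := Nat.exists_infinite_primes (max p₀ (max N₀ N₁))
  have hN1 : 1 ≤ N := hNp.one_lt.le
  have hN1' : (1 : ℝ) ≤ N := by exact_mod_cast hN1
  have hx := hp₀ N hNp (le_of_max_le_left hNge)
  have hl : 0 ≤ N * Real.log (N + 1) := mul_nonneg (by linarith) (Real.log_nonneg (by linarith))
  have hlog2 := Real.log_two_lt_d9
  have hlog2' : 0 ≤ Real.log 2 := Real.log_nonneg (by norm_num)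
  have e1 := den_bound hC hB hL hN1 hx
    (T := 1057 / 8 * Real.log 2 * (N : ℝ) ^ 2 + |c₁| * (N * Real.log (N + 1))) (by positivity)
    ((hc₁ N hN1).trans (Real.exp_le_exp.2 (by
      have := mul_le_mul_of_nonneg_right (le_abs_self c₁) hl
      linarith)))
  have e2 := hN₀ N (le_of_max_le_left (le_of_max_le_right hNge)) hN1
  have e3 := hN₁ N (le_of_max_le_right (le_of_max_le_right hNge))
  rw [div_lt_iff₀ (by positivity)] at e3
  have e4 := hc₂ N hN1
  have e5 := one_le_mul_den hx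
  have hd0 : (0 : ℝ) < (Dl N G).den := by exact_mod_cast (Dl N G).den_pos
  have e6 : (1 : ℝ) ≤ Real.exp (-2505 * (N : ℝ) ^ 2 + c₂ * N * Real.log (N + 1)) * (Dl N G).den :=
    e5.trans (mul_le_mul_of_nonneg_right e4 hd0.le)
  have e7 := Real.log_nonneg e6
  rw [Real.log_mul (Real.exp_pos _).ne' hd0.ne', Real.log_exp] at e7
  have e8 := mul_le_mul_of_nonneg_right (le_abs_self c₂) hl
  have e9 : 1057 / 8 * Real.log 2 * (N : ℝ) ^ 2 ≤ 91.59 * (N : ℝ) ^ 2 :=
    mul_le_mul_of_nonneg_right (by linarith) (by positivity)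
  have e10 : (0 : ℝ) < (N : ℝ) ^ 2 := by positivity
  push_cast at e1
  nlinarith

end Crest.Agent.R6
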